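import Vale.Agent.P032.R2.H805.S2m.W1.P0
import Vale.Agent.P032.R2.H805.Cov

/-!
# P032: root S2m, start word 1: start, step, end
-/

set_option autoImplicit false
set_option maxRecDepth 100000

namespace Vale.Agent.P032.R2.H805.S2m.W1

open Vale.Agent.P032.R2.H741.Tp
open Vale.Agent.P032.R2.H805.Step
open Vale.Agent.P032.R2.H805.Rup

section

variable {S : Sem}

theorem stepB (A : Ax G S) (H : Hds (val S) BX) : Hns (val S) B :=
  hns_cons (Blk0.blk A H) (
  hns_cons (Blk1.blk A H) (
  hns_cons (Blk2.blk A H) (
  hns_cons (Blk3.blk A H) (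
  hns_cons (Blk4.blk A H) (
  hns_cons (Blk5.blk A H) (
  hns_cons (Blk6.blk A H) (
  hns_cons (Blk7.blk A H) (
  hns_cons (Blk8.blk A H) (
  hns_cons (Blk9.blk A H) (
  hns_cons (Blk10.blk A H) (hns_nil)))))))))))

theorem f1 (A : Ax G S) : Hd (val S) (List.map nxl [1105]) := A.l .first rfl

theorem hx (h : Hd (val S) [1105]) (H : Hds (val S) B) : Hds (val S) BX := by
  intro b hb
  rcases List.mem_append.1 hb with h1 | h1
  · exact H b h1
  · rw [List.mem_singleton.1 h1]
    have h2 : ∀ c ∈ exF, (1105 : ℕ) ∈ c := by decide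
    intro c hc
    obtain ⟨j, hj, hl⟩ := h
    rw [List.mem_singleton] at hj
    exact ⟨1105, h2 c hc, hj ▸ hl⟩

theorem hx2 (h : ∀ c ∈ ex, Hd (val S) c) (H : Hds (val S) B) : Hds (val S) BX := by
  intro b hb
  rcases List.mem_append.1 hb with h1 | h1
  · exact H b h1
  · rw [List.mem_singleton.1 h1]
    have h2 : ∀ c ∈ exF, ∃ e ∈ ex, ∀ j ∈ e, j ∈ c := by decide
    intro c hc
    obtain ⟨e, he, h3⟩ := h2 c hc
    obtain ⟨j, hj, hl⟩ := h e he
    exact ⟨j, h3 j hj, hl⟩

/-- **step** -/
theorem step (A : Ax G S) (H : ∀ c ∈ inv, Hd (val S) c) : ∀ c ∈ inv, Hd (val S) (c.map nxl) := by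
  have h1 := List.forall_mem_cons.1 H
  exact List.forall_mem_cons.2 ⟨f1 A, hns_flat.1 (stepB A (hx h1.1 (hds_flat.2 h1.2)))⟩

theorem e0 : fns G B [.some 0 3, .some 1 4, .some 1 5, .uniq 0 1 2 3, .uniq 0 5 0 2, .uniq 1 0 1 2, .uniq 1 1 1 3, .uniq 1 2 1 2, .uniq 1 3 0 3, .legal 0 0 1, .legal 0 1 2, .legal 0 2 1, .legal 0 3 3, .legal 1 0 1, .legal 1 2 0, .legal 1 3 0, .legal 1 4 1, .legal 1 5 2, .legal2 0 1 2 1 3, .legal2 0 1 3 3 1, .legal2 0 1 3 3 2, .legal2 0 1 4 1 3, .legal2 0 1 5 0 3, .mix 1 0 2 4, .mix 1 0 3 4, .mix 1 1 2 4, .mix 1 1 3 4, .letlab 1 4 0 0]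
    [.closeF 0 1 3 0, .closeF 0 1 3 1, .closeX 0 0 1 1, .closeX 0 1 0 0, .closeX 0 1 2 1, .closeX 0 2 1 1, .closeX 0 3 0 0, .closeX 0 3 2 0, .closeX 0 4 1 1, .closeX 0 5 0 1, .closeX 1 0 1 1, .closeX 1 3 0 0, .closeX 1 5 0 0, .doneend 0 2, .first]
    [0, 5, 8, 10, 13, 16, 18, 21, 55, 60, 131, 134, 135, 149, 287, 344, 640] 0x4ec22821a43c44c44117c19118e18c1891861840041812aa2913b03dd3cb38c0112ce2cd2cb2c801300900a0050012cf2cc2ca2c92c72c52c22c10160140070062d72d62d52d42d32d22d12d000f00e00d00c
    [[0,2,4,6], [8,10,12,14], [16,18,20,22], [25,27], [29,31], [33,35], [37,39], [41,43], [45,47], [49,51], [25,53], [55,3], [7,57], [33,37], [59,45], [45,9], [11,19], [35,21], [55,61], [7,63], [7,65], [67,15], [29,23], [69,71], [69,73], [75,71], [75,73], [13,68,74], [7,77,78], [7,76,79], [48,81], [83,84], [24,87], [54,89], [1,90], [5,92], [66,95], [28,97], [32,99], [45,100], [17,102], [104], [107], [96], [80], [85], [86], [88], [91], [93], [94], [106,70,72], [106,101,108], [82,50,26,0,2,34,14,101,77,79,105], [82,50,26,0,2,44,76,78,105],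 [82,50,26,0,2,44,77,79,105], [82,50,26,2,34,36,62,101,76,78,105], [52,32,34,38,58,62,46,14,109], [56,30,58,40,8,103,98], [56,30,58,42,60,64,103,98]]
    55 7 192 1
    (.leaf 0x40000000000000000000000000020000000000000000000200000000000001000000000000000000000000000000000000000000000000000400000000000800000000000000000000000000008000000000000000000000000000000000000002000000000000000000000300000800000000000000100000000000000000000000000000100000000000000000000000000000000000000020000000010000000000000000000000000000000000400000000000000000040000000000000000000000000000000008000000000000000000000000000000000001000000000000000000000008000400000080100000000000000000008000000000000000200000000000000000002000000080000000000000000000080000000000000000000000000010000000000000000000000000000800000000000000000000000000000000000000000000002000000000000020000000000000000000004000000000000000000000000000000000000000010000000000000000010000000000000000001000000000000000000000000000000000000020000000000000000000200000000000000000000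000000000000004000000000000000000000004000000000000000000000000800000000000000000000000000000040000000000000000200180000000000008000900000c0000000000000000000080000000000000000400000000000000000000000000000000000000001000000000000000000000080000000000000000000000000000000400010000000000000080005c082000040000000000000200003010801080000000000000000002922c0200a0000000000000002c082062002200180000000000008000900800c80000000000000002c002402003280180000000000008000808820c20000000000006000000000000000000000000000800060000000000000000000000008000000000000080000000000000000000000000010000000000000000000000000000000000000000040000000000000000000000000008000000000000080000000000000000000000000000000000000000100000000000000000000000004000000000001000000000000000000000000000000000000000004000000000000000000000000800800000000000000000000800000100000000000001000000000000000000000100000200000000000000000000010000040000000000000000200000000000000000000080100000000000000000000000008020000000000000200000000000000000200000000040000000000000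0000000100000040000000000001000000000000008000000000000000010000000001000000001000010000000000000200000000400008000000000000000000000800000900000000000018000000000000000000000000005000000000000000000000000000a000000000000000000000000001800000000000000000000000000000002400000000000000000000040000010000000000000000000008000000400000000000000000001000000100000000000000000000240000000000000000000000000000040800000000000000000000000000110000000000000000000000080002000000000000000000001020000000000000000000000000000a00000000000000000000000080000040000000000000000000010000004000000000000000000002000800000000000000000000000600000000000000000000000000060000000000000000000000000006000000000000000000000000000600000000000000000000000000060000000000000000000000000006000000000000000000000000000600000000000000000000000000000000000000000f0000000000000000000000000003c000000000000000000000000000f)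
    [0x232e600eebe39f16c6400f3247b1467c5c6014e2009f08007761e0001af80257c05e3b5275900e838e732604cb2aa350b912c4ab4008db00d55d9000a9caae004d600a2b001f58010ac0211eaaaa4498d327006e76340912662a9c01b1e8122349953154e0070d1869495803864d802b380149c006ce000644d8c01232002a5803eb40167c0102e008d880270400c82002bd002df802ef403880011300011f8042bc025660132c] 60 102 = true := by
  decide +kernel

/-- **end** -/
theorem fin (A : ∀ f : CS, f.ok G = true → Hd (val S) (f.cl G))
    (A2 : ∀ f : CB, f.ok G = true → Hd (val S) (f.cl G)) : ¬ ∀ c ∈ inv, Hd (val S) c :=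
  fun H => fns_sound A A2 e0 (hds_flat.2 (List.forall_mem_cons.1 H).2)

theorem i0 : stu G units [.uniq 0 0 0 1]
    [.initX 0 0 0 1, .initX 0 0 1 1]
    [763] 0x19118f18918618117d17c001000
    [[1,3], [0,5], [2,7], [4], [8], [10], [12], [14], [16], [6]]
    9 4 10 1
    (.leaf 0x10000001000200100002000040000800010000101002020040600)
    [0x3ac01b024] 10 12 = true := by
  decide +kernel

theorem j0 (A : ∀ f : CS, f.ok G = true → Hd (val S) (f.cl G))
    (A2 : ∀ f : CI, f.ok G = true → Hd (val S) (f.cl G)) (hU : ∀ c ∈ units, Hd (val S) c) :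
    Hd (val S) [763] :=
  stu_sound A A2 hU i0

theorem i1 : stu G units [.uniq 0 0 0 2]
    [.initX 0 0 0 1, .initX 0 0 2 1]
    [765] 0x19118f18918618117e17c002000
    [[1,3], [0,5], [2,7], [4], [8], [10], [12], [14], [16], [6]]
    9 4 10 1
    (.leaf 0x10000001000200100002000040000800010000101002020040600)
    [0x3ac01b024] 10 12 = true := by
  decide +kernel

theorem j1 (A : ∀ f : CS, f.ok G = true → Hd (val S) (f.cl G))
    (A2 : ∀ f : CI, f.ok G = true → Hd (val S) (f.cl G)) (hU : ∀ c ∈ units, Hd (val S) c) :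
    Hd (val S) [765] :=
  stu_sound A A2 hU i1

theorem i2 : stu G units [.uniq 0 0 0 3]
    [.initX 0 0 0 1, .initX 0 0 3 1]
    [767] 0x19118f18918618117f17c003000
    [[1,3], [0,5], [2,7], [4], [8], [10], [12], [14], [16], [6]]
    9 4 10 1
    (.leaf 0x10000001000200100002000040000800010000101002020040600)
    [0x3ac01b024] 10 12 = true := by
  decide +kernel

theorem j2 (A : ∀ f : CS, f.ok G = true → Hd (val S) (f.cl G))
    (A2 : ∀ f : CI, f.ok G = true → Hd (val S) (f.cl G)) (hU : ∀ c ∈ units, Hd (val S) c) :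
    Hd (val S) [767] :=
  stu_sound A A2 hU i2

theorem i3 : stu G units [.legal 0 0 0]
    [.initX 0 0 0 1, .initX 0 1 0 1]
    [769] 0x19118f18918618118017c004000
    [[1,3], [0,5], [2,7], [4], [8], [10], [12], [14], [16], [6]]
    9 4 10 1
    (.leaf 0x10000001000200100002000040000800010000101002020040600)
    [0x3ac01b024] 10 12 = true := by
  decide +kernel

theorem j3 (A : ∀ f : CS, f.ok G = true → Hd (val S) (f.cl G))
    (A2 : ∀ f : CI, f.ok G = true → Hd (val S) (f.cl G)) (hU : ∀ c ∈ units, Hd (val S) c) :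
    Hd (val S) [769] :=
  stu_sound A A2 hU i3

theorem i4 : stu G units [.uniq 0 1 1 2]
    [.initX 0 1 1 1, .initX 0 1 2 1]
    [773] 0x19118f18918617c182181006005
    [[1,3], [0,5], [2,7], [8], [4], [10], [12], [14], [16], [6]]
    9 4 10 1
    (.leaf 0x10000001000200100002000040000800004000401002020040600)
    [0x3ac01b025] 10 12 = true := by
  decide +kernel

theorem j4 (A : ∀ f : CS, f.ok G = true → Hd (val S) (f.cl G))
    (A2 : ∀ f : CI, f.ok G = true → Hd (val S) (f.cl G)) (hU : ∀ c ∈ units, Hd (val S) c) :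
    Hd (val S) [773] :=
  stu_sound A A2 hU i4

theorem i5 : stu G units [.uniq 0 1 1 3]
    [.initX 0 1 1 1, .initX 0 1 3 1]
    [775] 0x19118f18918617c183181007005
    [[1,3], [0,5], [2,7], [8], [4], [10], [12], [14], [16], [6]]
    9 4 10 1
    (.leaf 0x10000001000200100002000040000800004000401002020040600)
    [0x3ac01b025] 10 12 = true := by
  decide +kernel

theorem j5 (A : ∀ f : CS, f.ok G = true → Hd (val S) (f.cl G))
    (A2 : ∀ f : CI, f.ok G = true → Hd (val S) (f.cl G)) (hU : ∀ c ∈ units, Hd (val S) c) :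
    Hd (val S) [775] :=
  stu_sound A A2 hU i5

theorem i6 : stu G units [.uniq 0 2 0 2]
    [.initX 0 2 0 1, .initX 0 2 2 1]
    [777] 0x19118f18918117c18618400a008
    [[1,3], [0,5], [2,7], [8], [10], [6], [12], [14], [16], [4]]
    9 4 10 1
    (.leaf 0x10000001000100100002000040000200020000401002020040600)
    [0x36c01b02a] 10 12 = true := by
  decide +kernel

theorem j6 (A : ∀ f : CS, f.ok G = true → Hd (val S) (f.cl G))
    (A2 : ∀ f : CI, f.ok G = true → Hd (val S) (f.cl G)) (hU : ∀ c ∈ units, Hd (val S) c) :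
    Hd (val S) [777] :=
  stu_sound A A2 hU i6

theorem i7 : stu G units [.legal 0 1 1]
    [.initX 0 1 1 1, .initX 0 2 1 1]
    [779] 0x19118f18918617c185181009005
    [[1,3], [0,5], [2,7], [8], [4], [10], [12], [14], [16], [6]]
    9 4 10 1
    (.leaf 0x10000001000200100002000040000800004000401002020040600)
    [0x3ac01b025] 10 12 = true := by
  decide +kernel

theorem j7 (A : ∀ f : CS, f.ok G = true → Hd (val S) (f.cl G))
    (A2 : ∀ f : CI, f.ok G = true → Hd (val S) (f.cl G)) (hU : ∀ c ∈ units, Hd (val S) c) :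
    Hd (val S) [779] :=
  stu_sound A A2 hU i7

theorem i8 : stu G units [.uniq 0 2 2 3]
    [.initX 0 2 2 1, .initX 0 2 3 1]
    [783] 0x19118f18918117c18718600b00a
    [[1,3], [0,5], [2,7], [8], [10], [4], [12], [14], [16], [6]]
    9 4 10 1
    (.leaf 0x10000001000200100002000040000100020000401002020040600)
    [0x3ac01b026] 10 12 = true := by
  decide +kernel

theorem j8 (A : ∀ f : CS, f.ok G = true → Hd (val S) (f.cl G))
    (A2 : ∀ f : CI, f.ok G = true → Hd (val S) (f.cl G)) (hU : ∀ c ∈ units, Hd (val S) c) :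
    Hd (val S) [783] :=
  stu_sound A A2 hU i8

theorem i9 : stu G units [.uniq 0 3 0 1]
    [.initX 0 3 0 1, .initX 0 3 1 1]
    [785] 0x19118f18618117c18918800d00c
    [[1,3], [0,5], [2,7], [8], [10], [12], [6], [14], [16], [4]]
    9 4 10 1
    (.leaf 0x10000001000100100002000008001000020000401002020040600)
    [0x37c01b02a] 10 12 = true := by
  decide +kernel

theorem j9 (A : ∀ f : CS, f.ok G = true → Hd (val S) (f.cl G))
    (A2 : ∀ f : CI, f.ok G = true → Hd (val S) (f.cl G)) (hU : ∀ c ∈ units, Hd (val S) c) :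
    Hd (val S) [785] :=
  stu_sound A A2 hU i9

theorem i10 : stu G units [.legal 0 2 2]
    [.initX 0 2 2 1, .initX 0 3 2 1]
    [789] 0x19118f18918117c18a18600e00a
    [[1,3], [0,5], [2,7], [8], [10], [4], [12], [14], [16], [6]]
    9 4 10 1
    (.leaf 0x10000001000200100002000040000100020000401002020040600)
    [0x3ac01b026] 10 12 = true := by
  decide +kernel

theorem j10 (A : ∀ f : CS, f.ok G = true → Hd (val S) (f.cl G))
    (A2 : ∀ f : CI, f.ok G = true → Hd (val S) (f.cl G)) (hU : ∀ c ∈ units, Hd (val S) c) :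
    Hd (val S) [789] :=
  stu_sound A A2 hU i10

theorem i11 : stu G units [.uniq 0 3 1 3]
    [.initX 0 3 1 1, .initX 0 3 3 1]
    [791] 0x19118f18618117c18b18900f00d
    [[1,3], [0,5], [2,7], [8], [10], [12], [4], [14], [16], [6]]
    9 4 10 1
    (.leaf 0x10000001000200100002000004001000020000401002020040600)
    [0x3ac01b027] 10 12 = true := by
  decide +kernel

theorem j11 (A : ∀ f : CS, f.ok G = true → Hd (val S) (f.cl G))
    (A2 : ∀ f : CI, f.ok G = true → Hd (val S) (f.cl G)) (hU : ∀ c ∈ units, Hd (val S) c) :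
    Hd (val S) [791] :=
  stu_sound A A2 hU i11

theorem i12 : stu G units [.uniq 0 4 0 3]
    [.initX 0 4 0 1, .initX 0 4 3 1]
    [793] 0x19118918618117c18f18c013010
    [[1,3], [0,5], [2,7], [8], [10], [12], [14], [6], [16], [4]]
    9 4 10 1
    (.leaf 0x10000001000100100000200080001000020000401002020040600)
    [0x38c01b02a] 10 12 = true := by
  decide +kernel

theorem j12 (A : ∀ f : CS, f.ok G = true → Hd (val S) (f.cl G))
    (A2 : ∀ f : CI, f.ok G = true → Hd (val S) (f.cl G)) (hU : ∀ c ∈ units, Hd (val S) c) :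
    Hd (val S) [793] :=
  stu_sound A A2 hU i12

theorem i13 : stu G units [.legal 0 3 1]
    [.initX 0 3 1 1, .initX 0 4 1 1]
    [795] 0x19118f18618117c18d18901100d
    [[1,3], [0,5], [2,7], [8], [10], [12], [4], [14], [16], [6]]
    9 4 10 1
    (.leaf 0x10000001000200100002000004001000020000401002020040600)
    [0x3ac01b027] 10 12 = true := by
  decide +kernel

theorem j13 (A : ∀ f : CS, f.ok G = true → Hd (val S) (f.cl G))
    (A2 : ∀ f : CI, f.ok G = true → Hd (val S) (f.cl G)) (hU : ∀ c ∈ units, Hd (val S) c) :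
    Hd (val S) [795] :=
  stu_sound A A2 hU i13

theorem i14 : stu G units [.uniq 0 4 2 3]
    [.initX 0 4 2 1, .initX 0 4 3 1]
    [797] 0x19118918618117c18f18e013012
    [[1,3], [0,5], [2,7], [8], [10], [12], [14], [6], [16], [4]]
    9 4 10 1
    (.leaf 0x10000001000100100000200080001000020000401002020040600)
    [0x38c01b02a] 10 12 = true := by
  decide +kernel

theorem j14 (A : ∀ f : CS, f.ok G = true → Hd (val S) (f.cl G))
    (A2 : ∀ f : CI, f.ok G = true → Hd (val S) (f.cl G)) (hU : ∀ c ∈ units, Hd (val S) c) :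
    Hd (val S) [797] :=
  stu_sound A A2 hU i14

theorem i15 : stu G units [.legal 0 5 0]
    [.initX 0 0 0 1, .initX 0 5 0 1]
    [801] 0x19118f18918618119017c014000
    [[1,3], [0,5], [2,7], [4], [8], [10], [12], [14], [16], [6]]
    9 4 10 1
    (.leaf 0x10000001000200100002000040000800010000101002020040600)
    [0x3ac01b024] 10 12 = true := by
  decide +kernel

theorem j15 (A : ∀ f : CS, f.ok G = true → Hd (val S) (f.cl G))
    (A2 : ∀ f : CI, f.ok G = true → Hd (val S) (f.cl G)) (hU : ∀ c ∈ units, Hd (val S) c) :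
    Hd (val S) [801] :=
  stu_sound A A2 hU i15

theorem i16 : stu G units [.uniq 0 5 1 2]
    [.initX 0 5 1 1, .initX 0 5 2 1]
    [805] 0x18f18918618117c192191016015
    [[1,3], [0,5], [2,7], [8], [10], [12], [14], [16], [4], [6]]
    9 4 10 1
    (.leaf 0x10000001000200004004000080001000020000401002020040600)
    [0x3ac01b029] 10 12 = true := by
  decide +kernel

theorem j16 (A : ∀ f : CS, f.ok G = true → Hd (val S) (f.cl G))
    (A2 : ∀ f : CI, f.ok G = true → Hd (val S) (f.cl G)) (hU : ∀ c ∈ units, Hd (val S) c) :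
    Hd (val S) [805] :=
  stu_sound A A2 hU i16

theorem i17 : stu G units [.legal 0 4 3]
    [.initX 0 4 3 1, .initX 0 5 3 1]
    [807] 0x19118918618117c19318f017013
    [[1,3], [0,5], [2,7], [8], [10], [12], [14], [4], [16], [6]]
    9 4 10 1
    (.leaf 0x10000001000200100000100080001000020000401002020040600)
    [0x3ac01b028] 10 12 = true := by
  decide +kernel

theorem j17 (A : ∀ f : CS, f.ok G = true → Hd (val S) (f.cl G))
    (A2 : ∀ f : CI, f.ok G = true → Hd (val S) (f.cl G)) (hU : ∀ c ∈ units, Hd (val S) c) :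
    Hd (val S) [807] :=
  stu_sound A A2 hU i17

theorem i18 : stu G units [.some 1 1, .legal 1 0 0, .legal2 0 1 1 1 3]
    [.initX 0 1 1 1, .initX 1 0 0 1, .initX 1 1 1 0]
    [1105, 1420, 2169, 2178] 0x22819118f18918617c44143c1810052c02c72c62c52c4
    [[0,2,4,6], [9,1], [11,7], [10,13], [8,15], [3,16], [18], [12], [20], [22], [24], [26], [28], [5], [14], [17]]
    15 5 21 1
    (.leaf 0x8000000000004004000000000080001000002000000000008000080000000400000008000000100000002000000040000000100000020000040400040001000800080014000000220000000000f)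
    [0x2d5e01500174e201c804400d0] 16 21 = true := by
  decide +kernel

theorem j18 (A : ∀ f : CS, f.ok G = true → Hd (val S) (f.cl G))
    (A2 : ∀ f : CI, f.ok G = true → Hd (val S) (f.cl G)) (hU : ∀ c ∈ units, Hd (val S) c) :
    Hd (val S) [1105, 1420, 2169, 2178] :=
  stu_sound A A2 hU i18

theorem i19 : stu G units []
    [.initX 0 0 0 1]
    [0, 2, 38, 1408, 2201, 2519] 0x4eb44c2c001300119118f18918618117c000
    [[0,3], [2], [4], [6], [8], [10], [12], [1], [15], [17], [19], [20], [22]]
    12 4 6 1
    (.leaf 0x1000800000400200000100000080000001000000040000020000010000008000004000002002001)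
    [0x8e012] 13 14 = true := by
  decide +kernel

theorem j19 (A : ∀ f : CS, f.ok G = true → Hd (val S) (f.cl G))
    (A2 : ∀ f : CI, f.ok G = true → Hd (val S) (f.cl G)) (hU : ∀ c ∈ units, Hd (val S) c) :
    Hd (val S) [0, 2, 38, 1408, 2201, 2519] :=
  stu_sound A A2 hU i19

theorem i20 : stu G units []
    [.initX 0 0 0 1]
    [0, 2, 1408, 1446, 2201, 2519] 0x4eb44c2d32c000119118f18918618117c000
    [[0,3], [2], [4], [6], [8], [10], [12], [1], [15], [17], [19], [20], [22]]
    12 4 6 1
    (.leaf 0x1000800000400200000100000080000001000000040000020000010000008000004000002002001)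
    [0x8e012] 13 14 = true := by
  decide +kernel

theorem j20 (A : ∀ f : CS, f.ok G = true → Hd (val S) (f.cl G))
    (A2 : ∀ f : CI, f.ok G = true → Hd (val S) (f.cl G)) (hU : ∀ c ∈ units, Hd (val S) c) :
    Hd (val S) [0, 2, 1408, 1446, 2201, 2519] :=
  stu_sound A A2 hU i20

theorem i21 : stu G units []
    [.initX 0 0 0 1]
    [0, 6, 8, 12, 1416, 1446, 2290, 2519, 2300] 0x47e4eb4792d32c400600400319118f18918618117c000
    [[0,3], [2], [4], [6], [8], [10], [12], [1], [15], [17], [19], [21], [23], [25], [26], [29]]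
    15 5 4 1
    (.leaf 0x800000000002000200000004000000080000001000000020000000400000000200000000040000000800000010000000200000004000000080010001)
    [0x502] 16 16 = true := by
  decide +kernel

theorem j21 (A : ∀ f : CS, f.ok G = true → Hd (val S) (f.cl G))
    (A2 : ∀ f : CI, f.ok G = true → Hd (val S) (f.cl G)) (hU : ∀ c ∈ units, Hd (val S) c) :
    Hd (val S) [0, 6, 8, 12, 1416, 1446, 2290, 2519, 2300] :=
  stu_sound A A2 hU i21

theorem i22 : stu G units []
    [.initX 0 0 0 1]
    [0, 6, 8, 14, 18, 30, 1408, 1412, 1436, 2201, 1365, 2296] 0x47c2aa44c2ce2c22c000f00900700400319118f18918618117c000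
    [[0,3], [2], [4], [6], [8], [10], [12], [1], [15], [17], [19], [21], [23], [25], [27], [29], [30], [32], [35]]
    18 5 4 1
    (.leaf 0x800000000000010000000008000100000000080000000040000000020000000010000000008000000004000000002000000000040000000000040000000020000000010000000008000000004000000002000080001)
    [0x502] 19 19 = true := by
  decide +kernel

theorem j22 (A : ∀ f : CS, f.ok G = true → Hd (val S) (f.cl G))
    (A2 : ∀ f : CI, f.ok G = true → Hd (val S) (f.cl G)) (hU : ∀ c ∈ units, Hd (val S) c) :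
    Hd (val S) [0, 6, 8, 14, 18, 30, 1408, 1412, 1436, 2201, 1365, 2296] :=
  stu_sound A A2 hU i22

theorem i23 : stu G units []
    [.initX 0 0 0 1]
    [0, 6, 8, 14, 18, 30, 1408, 1412, 2201, 1365, 2290, 2296] 0x47c4792aa44c2c22c000f00900700400319118f18918618117c000
    [[0,3], [2], [4], [6], [8], [10], [12], [1], [15], [17], [19], [21], [23], [25], [27], [28], [30], [33], [35]]
    18 5 4 1
    (.leaf 0x800000000400000000000008000000004000080000000040000000020000000010000000008000000004000000002000000000040000000000040000000020000000010000000008000000004000000002000080001)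
    [0x502] 19 19 = true := by
  decide +kernel

theorem j23 (A : ∀ f : CS, f.ok G = true → Hd (val S) (f.cl G))
    (A2 : ∀ f : CI, f.ok G = true → Hd (val S) (f.cl G)) (hU : ∀ c ∈ units, Hd (val S) c) :
    Hd (val S) [0, 6, 8, 14, 18, 30, 1408, 1412, 2201, 1365, 2290, 2296] :=
  stu_sound A A2 hU i23

theorem i24 : stu G units []
    [.initX 0 0 0 1]
    [0, 6, 8, 14, 1408, 1410, 1424, 1428, 1436, 1442] 0x2d12ce2ca2c82c12c000700400319118f18918618117c000
    [[0,3], [2], [4], [6], [8], [10], [12], [1], [15], [17], [19], [21], [23], [25], [27], [29], [31]]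
    16 5 4 1
    (.leaf 0x8000000040000000200000001000000008000000040000000200000001000000008000000001000000000040000000200000001000000008000000040000000200020001)
    [0x502] 17 17 = true := by
  decide +kernel

theorem j24 (A : ∀ f : CS, f.ok G = true → Hd (val S) (f.cl G))
    (A2 : ∀ f : CI, f.ok G = true → Hd (val S) (f.cl G)) (hU : ∀ c ∈ units, Hd (val S) c) :
    Hd (val S) [0, 6, 8, 14, 1408, 1410, 1424, 1428, 1436, 1442] :=
  stu_sound A A2 hU i24

theorem i25 : stu G units []
    [.initX 0 0 0 1]
    [0, 6, 20, 38, 44, 396, 618, 1408, 1410, 1424, 1426, 1364] 0x2aa2c92c82c12c01350c601601300a00319118f18918618117c000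
    [[0,3], [2], [4], [6], [8], [10], [12], [1], [15], [17], [19], [21], [23], [25], [27], [29], [31], [33], [35]]
    18 5 4 1
    (.leaf 0x800000000400000000200000000100000000080000000040000000020000000010000000008000000004000000002000000000040000000000040000000020000000010000000008000000004000000002000080001)
    [0x502] 19 19 = true := by
  decide +kernel

theorem j25 (A : ∀ f : CS, f.ok G = true → Hd (val S) (f.cl G))
    (A2 : ∀ f : CI, f.ok G = true → Hd (val S) (f.cl G)) (hU : ∀ c ∈ units, Hd (val S) c) :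
    Hd (val S) [0, 6, 20, 38, 44, 396, 618, 1408, 1410, 1424, 1426, 1364] :=
  stu_sound A A2 hU i25

theorem i26 : stu G units []
    [.initX 0 0 0 1]
    [0, 6, 24, 38, 44, 499, 1452, 1811, 1865, 1315] 0x2913a43892d60f901601300c00319118f18918618117c000
    [[0,3], [2], [4], [6], [8], [10], [12], [1], [15], [17], [19], [21], [22], [25], [26], [28], [30]]
    16 5 4 1
    (.leaf 0x800000004000000020001000000000000800040000000200000001000000008000000001000000000040000000200000001000000008000000040000000200020001)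
    [0x502] 17 17 = true := by
  decide +kernel

theorem j26 (A : ∀ f : CS, f.ok G = true → Hd (val S) (f.cl G))
    (A2 : ∀ f : CI, f.ok G = true → Hd (val S) (f.cl G)) (hU : ∀ c ∈ units, Hd (val S) c) :
    Hd (val S) [0, 6, 24, 38, 44, 499, 1452, 1811, 1865, 1315] :=
  stu_sound A A2 hU i26

theorem i27 : stu G units []
    [.initX 0 0 0 1]
    [0, 6, 38, 396, 432, 499, 1314, 1364] 0x2aa2910f90d80c601300319118f18918618117c000
    [[0,3], [2], [4], [6], [8], [10], [12], [1], [15], [17], [19], [21], [22], [25], [27]]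
    14 5 4 1
    (.leaf 0x800000040000000000800100000008000000400000020000000040000000040000002000000100000008000000400000020008001)
    [0x448] 15 15 = true := by
  decide +kernel

theorem j27 (A : ∀ f : CS, f.ok G = true → Hd (val S) (f.cl G))
    (A2 : ∀ f : CI, f.ok G = true → Hd (val S) (f.cl G)) (hU : ∀ c ∈ units, Hd (val S) c) :
    Hd (val S) [0, 6, 38, 396, 432, 499, 1314, 1364] :=
  stu_sound A A2 hU i27

theorem i28 : stu G units []
    [.initX 0 0 0 1]
    [0, 8, 10, 14, 24, 1424, 1428, 1436, 2201, 1315, 1365, 2296] 0x47c2aa29144c2ce2ca2c800c00700500419118f18918618117c000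
    [[0,3], [2], [4], [6], [8], [10], [12], [1], [15], [17], [19], [21], [23], [25], [27], [28], [30], [32], [35]]
    18 5 4 1
    (.leaf 0x800000000000010000000008000000004000080000000040000000020000000010000000008000000004000000002000000000040000000000040000000020000000010000000008000000004000000002000080001)
    [0x502] 19 19 = true := by
  decide +kernel

theorem j28 (A : ∀ f : CS, f.ok G = true → Hd (val S) (f.cl G))
    (A2 : ∀ f : CI, f.ok G = true → Hd (val S) (f.cl G)) (hU : ∀ c ∈ units, Hd (val S) c) :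
    Hd (val S) [0, 8, 10, 14, 24, 1424, 1428, 1436, 2201, 1315, 1365, 2296] :=
  stu_sound A A2 hU i28

theorem i29 : stu G units []
    [.initX 0 0 0 1]
    [0, 8, 14, 1408, 1412, 1432, 1434, 1442, 1452, 2521, 2296] 0x47c4ec2d62d12cd2cc2c22c000700419118f18918618117c000
    [[0,3], [2], [4], [6], [8], [10], [12], [1], [15], [17], [19], [21], [23], [25], [27], [29], [30], [33]]
    17 5 4 1
    (.leaf 0x800000000000080002000000004000000008000000010000000020000000040000000080000000100000000008000000000040000000080000000100000000200000000400000000800040001)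
    [0x448] 18 18 = true := by
  decide +kernel

theorem j29 (A : ∀ f : CS, f.ok G = true → Hd (val S) (f.cl G))
    (A2 : ∀ f : CI, f.ok G = true → Hd (val S) (f.cl G)) (hU : ∀ c ∈ units, Hd (val S) c) :
    Hd (val S) [0, 8, 14, 1408, 1412, 1432, 1434, 1442, 1452, 2521, 2296] :=
  stu_sound A A2 hU i29

theorem i30 : stu G units []
    [.initX 0 0 0 1]
    [0, 14, 38, 396, 608, 1418, 1452, 1364, 2520] 0x4ec2aa2d62c51300c601300719118f18918618117c000
    [[0,3], [2], [4], [6], [8], [10], [12], [1], [15], [17], [19], [21], [23], [25], [27], [29]]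
    15 5 4 1
    (.leaf 0x800000010000000200000004000000080000001000000020000000400000000200000000040000000800000010000000200000004000000080010001)
    [0x502] 16 16 = true := by
  decide +kernel

theorem j30 (A : ∀ f : CS, f.ok G = true → Hd (val S) (f.cl G))
    (A2 : ∀ f : CI, f.ok G = true → Hd (val S) (f.cl G)) (hU : ∀ c ∈ units, Hd (val S) c) :
    Hd (val S) [0, 14, 38, 396, 608, 1418, 1452, 1364, 2520] :=
  stu_sound A A2 hU i30

theorem i31 : stu G units []
    [.initX 0 0 0 1]
    [0, 32, 34, 38, 390, 492, 1364] 0x2aa0f60c301301101019118f18918618117c000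
    [[0,3], [2], [4], [6], [8], [10], [12], [1], [15], [17], [19], [21], [23], [25]]
    13 4 4 1
    (.leaf 0x8000001000000200000040000008000001000000008000000040000008000001000000200000040000008004001)
    [0x128] 14 14 = true := by
  decide +kernel

theorem j31 (A : ∀ f : CS, f.ok G = true → Hd (val S) (f.cl G))
    (A2 : ∀ f : CI, f.ok G = true → Hd (val S) (f.cl G)) (hU : ∀ c ∈ units, Hd (val S) c) :
    Hd (val S) [0, 32, 34, 38, 390, 492, 1364] :=
  stu_sound A A2 hU i31

theorem i32 : stu G units []
    [.initX 0 0 0 1]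
    [0, 38, 44, 1408, 1412, 1422, 1364, 2290, 2519, 2302] 0x47f4eb4792aa2c72c22c001601319118f18918618117c000
    [[0,3], [2], [4], [6], [8], [10], [12], [1], [15], [17], [19], [21], [23], [25], [27], [28], [31]]
    16 5 4 1
    (.leaf 0x8000000000004000200000001000000008000000040000000200000001000000008000000001000000000040000000200000001000000008000000040000000200020001)
    [0x502] 17 17 = true := by
  decide +kernel

theorem j32 (A : ∀ f : CS, f.ok G = true → Hd (val S) (f.cl G))
    (A2 : ∀ f : CI, f.ok G = true → Hd (val S) (f.cl G)) (hU : ∀ c ∈ units, Hd (val S) c) :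
    Hd (val S) [0, 38, 44, 1408, 1412, 1422, 1364, 2290, 2519, 2302] :=
  stu_sound A A2 hU i32

theorem i33 : stu G units []
    [.initX 0 1 1 1]
    [2, 6, 10, 12, 1412, 1416, 1428, 1432, 1448, 2290, 2519, 2300] 0x47e4eb4792d42cc2ca2c42c200600300119118f18918617c181005
    [[0,3], [4], [2], [6], [8], [10], [12], [15], [17], [1], [19], [21], [23], [25], [27], [29], [31], [32], [35]]
    18 5 4 1
    (.leaf 0x800000000000010000200000000100000000080000000040000000020000000010000000008000000000040000004000000002000000000000040000000020000000010000000008000000002000000004000080001)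
    [0x543] 19 19 = true := by
  decide +kernel

theorem j33 (A : ∀ f : CS, f.ok G = true → Hd (val S) (f.cl G))
    (A2 : ∀ f : CI, f.ok G = true → Hd (val S) (f.cl G)) (hU : ∀ c ∈ units, Hd (val S) c) :
    Hd (val S) [2, 6, 10, 12, 1412, 1416, 1428, 1432, 1448, 2290, 2519, 2300] :=
  stu_sound A A2 hU i33

theorem i34 : stu G units []
    [.initX 0 1 1 1]
    [2, 6, 10, 12, 1416, 1446, 2290, 2519, 2300] 0x47e4eb4792d32c400600300119118f18918617c181005
    [[0,3], [4], [2], [6], [8], [10], [12], [15], [17], [1], [19], [21], [23], [25], [26], [29]]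
    15 5 4 1
    (.leaf 0x800000000002000200000004000000080000001000000000200000800000010000000000040000000800000010000000200000002000000100010001)
    [0x543] 16 16 = true := by
  decide +kernel

theorem j34 (A : ∀ f : CS, f.ok G = true → Hd (val S) (f.cl G))
    (A2 : ∀ f : CI, f.ok G = true → Hd (val S) (f.cl G)) (hU : ∀ c ∈ units, Hd (val S) c) :
    Hd (val S) [2, 6, 10, 12, 1416, 1446, 2290, 2519, 2300] :=
  stu_sound A A2 hU i34

theorem i35 : stu G units []
    [.initX 0 1 1 1]
    [2, 6, 10, 14, 16, 30, 1412, 1428, 1436, 1364, 2519, 2521, 2296] 0x47c4ec4eb2aa2ce2ca2c200f00800700300119118f18918617c181005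
    [[0,3], [4], [2], [6], [8], [10], [12], [15], [17], [1], [19], [21], [23], [25], [27], [29], [31], [32], [34], [37]]
    19 5 4 1
    (.leaf 0x8000000000000020000000004000040000000008000000001000000000200000000040000000008000000001000000000002000000080000000010000000000000040000000008000000001000000000200000000020000000010000100001)
    [0x543] 20 20 = true := by
  decide +kernel

theorem j35 (A : ∀ f : CS, f.ok G = true → Hd (val S) (f.cl G))
    (A2 : ∀ f : CI, f.ok G = true → Hd (val S) (f.cl G)) (hU : ∀ c ∈ units, Hd (val S) c) :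
    Hd (val S) [2, 6, 10, 14, 16, 30, 1412, 1428, 1436, 1364, 2519, 2521, 2296] :=
  stu_sound A A2 hU i35

theorem i36 : stu G units []
    [.initX 0 1 1 1]
    [2, 6, 10, 14, 18, 30, 1412, 1428, 1436, 1448, 2201, 1365, 2519, 2296] 0x47c4eb2aa44c2d42ce2ca2c200f00900700300119118f18918617c181005
    [[0,3], [4], [2], [6], [8], [10], [12], [15], [17], [1], [19], [21], [23], [25], [27], [29], [31], [32], [34], [36], [39]]
    20 5 6 1
    (.leaf 0x1800000000000000400000000020000000001000008000000000400000000020000000001000000000080000000004000000000200000000000100000001000000000080000000000000040000000002000000000100000000008000000000200000000040000200001)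
    [0xab0023] 21 22 = true := by
  decide +kernel

theorem j36 (A : ∀ f : CS, f.ok G = true → Hd (val S) (f.cl G))
    (A2 : ∀ f : CI, f.ok G = true → Hd (val S) (f.cl G)) (hU : ∀ c ∈ units, Hd (val S) c) :
    Hd (val S) [2, 6, 10, 14, 18, 30, 1412, 1428, 1436, 1448, 2201, 1365, 2519, 2296] :=
  stu_sound A A2 hU i36

theorem i37 : stu G units []
    [.initX 0 1 1 1]
    [2, 6, 10, 14, 1408, 1412, 1442, 1452, 2521, 2296] 0x47c4ec2d62d12c22c000700300119118f18918617c181005
    [[0,3], [4], [2], [6], [8], [10], [12], [15], [17], [1], [19], [21], [23], [25], [27], [28], [31]]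
    16 5 4 1
    (.leaf 0x8000000000004000200000001000000008000000040000000200000000010000010000000080000000000040000000200000001000000008000000020000000400020001)
    [0x543] 17 17 = true := by
  decide +kernel

theorem j37 (A : ∀ f : CS, f.ok G = true → Hd (val S) (f.cl G))
    (A2 : ∀ f : CI, f.ok G = true → Hd (val S) (f.cl G)) (hU : ∀ c ∈ units, Hd (val S) c) :
    Hd (val S) [2, 6, 10, 14, 1408, 1412, 1442, 1452, 2521, 2296] :=
  stu_sound A A2 hU i37

theorem i38 : stu G units []
    [.initX 0 2 2 1]
    [2, 6, 14, 20, 38, 390, 426, 1426, 1365, 2517, 2288] 0x4784ea2aa2c90d50c301300700300119118f18918117c18600a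
    [[0,3], [4], [6], [2], [8], [10], [12], [15], [17], [19], [1], [21], [23], [25], [27], [28], [30], [33]]
    17 5 4 1
    (.leaf 0x800000000000080000000100004000000008000000010000000020000000000200000100000000200000000400000000000040000000080000000100000000080000000800000001000040001)
    [0x48b] 18 18 = true := by
  decide +kernel

theorem j38 (A : ∀ f : CS, f.ok G = true → Hd (val S) (f.cl G))
    (A2 : ∀ f : CI, f.ok G = true → Hd (val S) (f.cl G)) (hU : ∀ c ∈ units, Hd (val S) c) :
    Hd (val S) [2, 6, 14, 20, 38, 390, 426, 1426, 1365, 2517, 2288] :=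
  stu_sound A A2 hU i38

theorem i39 : stu G units []
    [.initX 0 4 3 1]
    [2, 6, 14, 38, 444, 1452, 1793, 1365, 2520] 0x4ec2aa3802d60de00700300119118918618117c18f013
    [[0,3], [4], [6], [8], [10], [2], [12], [15], [17], [19], [1], [21], [23], [24], [26], [29]]
    15 5 4 1
    (.leaf 0x800000000002000000040004000000080000000008000040000000800000010000000000040000000080000020000000400000008000000100010001)
    [0x566] 16 16 = true := by
  decide +kernel

theorem j39 (A : ∀ f : CS, f.ok G = true → Hd (val S) (f.cl G))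
    (A2 : ∀ f : CI, f.ok G = true → Hd (val S) (f.cl G)) (hU : ∀ c ∈ units, Hd (val S) c) :
    Hd (val S) [2, 6, 14, 38, 444, 1452, 1793, 1365, 2520] :=
  stu_sound A A2 hU i39

theorem i40 : stu G units []
    [.initX 0 2 2 1]
    [2, 6, 20, 38, 44, 396, 618, 1408, 1410, 1436, 1365, 2290] 0x4792aa2ce2c12c01350c601601300300119118f18918117c18600a
    [[0,3], [4], [6], [2], [8], [10], [12], [15], [17], [1], [19], [21], [23], [25], [27], [29], [31], [32], [35]]
    18 5 4 1
    (.leaf 0x800000000000010000200000000100000000080000000040000000020000000010000000008000000000040000004000000002000000000000040000000020000000010000000002000000008000000004000080001)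
    [0x544] 19 19 = true := by
  decide +kernel

theorem j40 (A : ∀ f : CS, f.ok G = true → Hd (val S) (f.cl G))
    (A2 : ∀ f : CI, f.ok G = true → Hd (val S) (f.cl G)) (hU : ∀ c ∈ units, Hd (val S) c) :
    Hd (val S) [2, 6, 20, 38, 44, 396, 618, 1408, 1410, 1436, 1365, 2290] :=
  stu_sound A A2 hU i40

theorem i41 : stu G units []
    [.initX 0 2 2 1]
    [2, 6, 20, 38, 44, 397, 612, 1408, 1410, 1424, 1426, 1365] 0x2aa2c92c82c12c01320c601601300300119118f18918117c18600a
    [[0,3], [4], [6], [2], [8], [10], [12], [15], [17], [1], [19], [21], [22], [25], [27], [29], [31], [33], [34]]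
    18 5 4 1
    (.leaf 0x20000400000000200000000100000000080000000040000000000000800010000000008000000000040000004000000002000000000000040000000020000000010000000002000000008000000004000080001)
    [0x544] 19 19 = true := by
  decide +kernel

theorem j41 (A : ∀ f : CS, f.ok G = true → Hd (val S) (f.cl G))
    (A2 : ∀ f : CI, f.ok G = true → Hd (val S) (f.cl G)) (hU : ∀ c ∈ units, Hd (val S) c) :
    Hd (val S) [2, 6, 20, 38, 44, 397, 612, 1408, 1410, 1424, 1426, 1365] :=
  stu_sound A A2 hU i41

theorem i42 : stu G units []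
    [.initX 0 1 1 1]
    [2, 8, 10, 14, 26, 1424, 1428, 1436, 1314, 1364, 2521, 2296] 0x47c4ec2aa2912ce2ca2c800d00700400119118f18918617c181005
    [[0,3], [4], [2], [6], [8], [10], [12], [15], [17], [1], [19], [21], [23], [25], [27], [29], [31], [32], [35]]
    18 5 4 1
    (.leaf 0x800000000000010000200000000100000000080000000040000000020000000010000000008000000000040000004000000002000000000000040000000020000000010000000008000000002000000004000080001)
    [0x543] 19 19 = true := by
  decide +kernel

theorem j42 (A : ∀ f : CS, f.ok G = true → Hd (val S) (f.cl G))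
    (A2 : ∀ f : CI, f.ok G = true → Hd (val S) (f.cl G)) (hU : ∀ c ∈ units, Hd (val S) c) :
    Hd (val S) [2, 8, 10, 14, 26, 1424, 1428, 1436, 1314, 1364, 2521, 2296] :=
  stu_sound A A2 hU i42

theorem i43 : stu G units []
    [.initX 0 1 1 1]
    [2, 10, 14, 24, 26, 1432, 2201, 2290] 0x47944c2cc00d00c00700119118f18918617c181005
    [[0,3], [4], [2], [6], [8], [10], [12], [15], [1], [17], [19], [21], [23], [24], [27]]
    14 5 4 1
    (.leaf 0x800000000010002000000100000008000000400000000400002000000000040000002000000100000008000000200000040008001)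
    [0x469] 15 15 = true := by
  decide +kernel

theorem j43 (A : ∀ f : CS, f.ok G = true → Hd (val S) (f.cl G))
    (A2 : ∀ f : CI, f.ok G = true → Hd (val S) (f.cl G)) (hU : ∀ c ∈ units, Hd (val S) c) :
    Hd (val S) [2, 10, 14, 24, 26, 1432, 2201, 2290] :=
  stu_sound A A2 hU i43

theorem i44 : stu G units []
    [.initX 0 3 1 1]
    [2, 24, 26, 396, 522, 1408, 1422, 1448, 1365, 2520] 0x4ec2aa2d42c72c01050c600c00119118f18618117c18900d
    [[0,3], [4], [6], [8], [2], [10], [12], [15], [17], [1], [19], [21], [23], [25], [27], [28], [31]]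
    16 5 4 1
    (.leaf 0x8000000000004000200000001000000008000000040000000200000000010000010000000080000000000040000000200000000200000010000000080000000400020001)
    [0x545] 17 17 = true := by
  decide +kernel

theorem j44 (A : ∀ f : CS, f.ok G = true → Hd (val S) (f.cl G))
    (A2 : ∀ f : CI, f.ok G = true → Hd (val S) (f.cl G)) (hU : ∀ c ∈ units, Hd (val S) c) :
    Hd (val S) [2, 24, 26, 396, 522, 1408, 1422, 1448, 1365, 2520] :=
  stu_sound A A2 hU i44

theorem i45 : stu G units []
    [.initX 0 4 3 1]
    [2, 30, 38, 1408, 1412, 1422, 1448, 1365, 2520] 0x4ec2aa2d42c72c22c000f00119118918618117c18f013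
    [[0,3], [4], [6], [8], [10], [2], [12], [15], [17], [1], [19], [21], [23], [25], [26], [29]]
    15 5 4 1
    (.leaf 0x800000000002000200000004000000080000001000000000200000800000010000000000040000000080000020000000400000008000000100010001)
    [0x546] 16 16 = true := by
  decide +kernel

theorem j45 (A : ∀ f : CS, f.ok G = true → Hd (val S) (f.cl G))
    (A2 : ∀ f : CI, f.ok G = true → Hd (val S) (f.cl G)) (hU : ∀ c ∈ units, Hd (val S) c) :
    Hd (val S) [2, 30, 38, 1408, 1412, 1422, 1448, 1365, 2520] :=
  stu_sound A A2 hU i45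

theorem i46 : stu G units []
    [.initX 0 4 3 1]
    [2, 34, 38, 396, 492, 1365] 0x2aa0f60c601100119118918618117c18f013
    [[0,3], [4], [6], [8], [10], [2], [12], [15], [17], [1], [19], [21], [22]]
    12 4 6 1
    (.leaf 0x1000800400000200000001000100000080000000040000002000020000010000008000004002001)
    [0xae016] 13 14 = true := by
  decide +kernel

theorem j46 (A : ∀ f : CS, f.ok G = true → Hd (val S) (f.cl G))
    (A2 : ∀ f : CI, f.ok G = true → Hd (val S) (f.cl G)) (hU : ∀ c ∈ units, Hd (val S) c) :
    Hd (val S) [2, 34, 38, 396, 492, 1365] :=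
  stu_sound A A2 hU i46

theorem i47 : stu G units []
    [.initX 0 4 3 1]
    [2, 34, 38, 397, 510, 1365] 0x2aa0ff0c601100119118918618117c18f013
    [[0,3], [4], [6], [8], [10], [2], [12], [15], [17], [1], [18], [21], [22]]
    12 4 6 1
    (.leaf 0x1000800400000000200001000100000080000000040000002000020000010000008000004002001)
    [0xae016] 13 14 = true := by
  decide +kernel

theorem j47 (A : ∀ f : CS, f.ok G = true → Hd (val S) (f.cl G))
    (A2 : ∀ f : CI, f.ok G = true → Hd (val S) (f.cl G)) (hU : ∀ c ∈ units, Hd (val S) c) :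
    Hd (val S) [2, 34, 38, 397, 510, 1365] :=
  stu_sound A A2 hU i47

theorem i48 : stu G units []
    [.initX 0 4 3 1]
    [2, 38, 390, 397, 1408, 1452, 1365, 2520] 0x4ec2aa2d62c00c60c300119118918618117c18f013
    [[0,3], [4], [6], [8], [10], [2], [12], [15], [1], [17], [18], [21], [23], [24], [27]]
    14 5 4 1
    (.leaf 0x800000000010002000000100000000002000400000000400002000000000040000000200000200000010000000800000040008001)
    [0x4c9] 15 15 = true := by
  decide +kernel

theorem j48 (A : ∀ f : CS, f.ok G = true → Hd (val S) (f.cl G))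
    (A2 : ∀ f : CI, f.ok G = true → Hd (val S) (f.cl G)) (hU : ∀ c ∈ units, Hd (val S) c) :
    Hd (val S) [2, 38, 390, 397, 1408, 1452, 1365, 2520] :=
  stu_sound A A2 hU i48

theorem i49 : stu G units []
    [.initX 0 4 3 1]
    [2, 38, 1408, 1412, 1422, 1448, 1315, 1365, 2520] 0x4ec2aa2912d42c72c22c000119118918618117c18f013
    [[0,3], [4], [6], [8], [10], [2], [12], [15], [1], [17], [19], [21], [23], [24], [26], [29]]
    15 5 4 1
    (.leaf 0x800000000002000000040004000000080000001000000020000000008000010000000000040000000080000020000000400000008000000100010001)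
    [0x526] 16 16 = true := by
  decide +kernel

theorem j49 (A : ∀ f : CS, f.ok G = true → Hd (val S) (f.cl G))
    (A2 : ∀ f : CI, f.ok G = true → Hd (val S) (f.cl G)) (hU : ∀ c ∈ units, Hd (val S) c) :
    Hd (val S) [2, 38, 1408, 1412, 1422, 1448, 1315, 1365, 2520] :=
  stu_sound A A2 hU i49

theorem i50 : stu G units []
    [.initX 0 2 2 1]
    [6, 8, 14, 20, 38, 463, 1408, 1416, 1428, 1365, 2290, 2519] 0x4eb4792aa2ca2c42c00e701300700400319118f18918117c18600a
    [[0,3], [4], [6], [2], [8], [10], [12], [15], [17], [19], [1], [21], [22], [25], [27], [29], [30], [33], [34]]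
    18 5 4 1
    (.leaf 0x20000400000000000008000100000000080000000040000000000000800010000000000040000008000000004000000002000000000000040000000020000000010000000002000000008000000004000080001)
    [0x564] 19 19 = true := by
  decide +kernel

theorem j50 (A : ∀ f : CS, f.ok G = true → Hd (val S) (f.cl G))
    (A2 : ∀ f : CI, f.ok G = true → Hd (val S) (f.cl G)) (hU : ∀ c ∈ units, Hd (val S) c) :
    Hd (val S) [6, 8, 14, 20, 38, 463, 1408, 1416, 1428, 1365, 2290, 2519] :=
  stu_sound A A2 hU i50

theorem i51 : stu G units []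
    [.initX 0 4 3 1]
    [6, 12, 38, 1408, 1412, 1416, 1452, 2290, 2519, 2302] 0x47f4eb4792d62c42c22c000600319118918618117c18f013
    [[0,3], [4], [6], [8], [10], [2], [12], [15], [17], [1], [19], [21], [23], [25], [27], [28], [31]]
    16 5 4 1
    (.leaf 0x8000000000004000200000001000000008000000040000000200000000010000010000000080000000000040000000020000002000000010000000080000000400020001)
    [0x546] 17 17 = true := by
  decide +kernel

theorem j51 (A : ∀ f : CS, f.ok G = true → Hd (val S) (f.cl G))
    (A2 : ∀ f : CI, f.ok G = true → Hd (val S) (f.cl G)) (hU : ∀ c ∈ units, Hd (val S) c) :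
    Hd (val S) [6, 12, 38, 1408, 1412, 1416, 1452, 2290, 2519, 2302] :=
  stu_sound A A2 hU i51

theorem i52 : stu G units []
    [.initX 0 2 2 1]
    [6, 20, 38, 1408, 1410, 1424, 1426, 1440, 2296] 0x47c2d02c92c82c12c001300319118f18918117c18600a
    [[0,3], [4], [6], [2], [8], [10], [12], [15], [1], [17], [19], [21], [23], [25], [27], [29]]
    15 5 4 1
    (.leaf 0x800000010000000200000004000000080000001000000020000000008000010000000000040000000800000010000000080000008000000100010001)
    [0x524] 16 16 = true := by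
  decide +kernel

theorem j52 (A : ∀ f : CS, f.ok G = true → Hd (val S) (f.cl G))
    (A2 : ∀ f : CI, f.ok G = true → Hd (val S) (f.cl G)) (hU : ∀ c ∈ units, Hd (val S) c) :
    Hd (val S) [6, 20, 38, 1408, 1410, 1424, 1426, 1440, 2296] :=
  stu_sound A A2 hU i52

theorem i53 : stu G units []
    [.initX 0 4 3 1]
    [6, 38, 44, 396, 1408, 1412, 1422, 1804, 2519] 0x4eb3862c72c22c00c601600319118918618117c18f013
    [[0,3], [4], [6], [8], [10], [2], [12], [15], [1], [17], [19], [21], [23], [25], [27], [28]]
    15 5 4 1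
    (.leaf 0x100010000000200000004000000080000001000000020000000008000010000000000040000000080000020000000400000008000000100010001)
    [0x526] 16 16 = true := by
  decide +kernel

theorem j53 (A : ∀ f : CS, f.ok G = true → Hd (val S) (f.cl G))
    (A2 : ∀ f : CI, f.ok G = true → Hd (val S) (f.cl G)) (hU : ∀ c ∈ units, Hd (val S) c) :
    Hd (val S) [6, 38, 44, 396, 1408, 1412, 1422, 1804, 2519] :=
  stu_sound A A2 hU i53

theorem i54 : stu G units []
    [.initX 0 4 3 1]
    [6, 38, 44, 1408, 1412, 1422, 1428, 1436, 2290, 2519, 2302] 0x47f4eb4792ce2ca2c72c22c001600319118918618117c18f013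
    [[0,3], [4], [6], [8], [10], [2], [12], [15], [1], [17], [19], [21], [23], [25], [27], [29], [30], [33]]
    17 5 4 1
    (.leaf 0x800000000000080002000000004000000008000000010000000020000000040000000080000000002000000400000000000040000000008000000200000000400000000800000001000040001)
    [0x4c9] 18 18 = true := by
  decide +kernel

theorem j54 (A : ∀ f : CS, f.ok G = true → Hd (val S) (f.cl G))
    (A2 : ∀ f : CI, f.ok G = true → Hd (val S) (f.cl G)) (hU : ∀ c ∈ units, Hd (val S) c) :
    Hd (val S) [6, 38, 44, 1408, 1412, 1422, 1428, 1436, 2290, 2519, 2302] :=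
  stu_sound A A2 hU i54

theorem i55 : stu G units [.some 1 0, .some 1 5, .legal 1 5 1, .legal2 0 1 0 0 3, .legal2 0 1 5 1 3]
    [.initX 0 0 0 1, .initX 0 5 1 1]
    [6, 1408, 1412, 1422, 1448, 1452, 2519, 2294] 0x47b4eb2c700318f18918618119117c0150002d72d62d52d42c32c22c12c0
    [[0,2,4,6], [8,10,12,14], [3,11], [17,7], [19,15], [16,21], [18,23], [20], [24], [26], [28], [30], [22], [33], [1], [5], [35], [9], [13], [36], [39]]
    20 5 26 1
    (.leaf 0x20000000000000200008000000000080000000000001000000000200800000000000000400000004000000000100000020000000000000400000000010000010000000000000000800000000800000000040000000002000000000100000000004000080000200004000010000280000000010800000000220000000000000f0000000000f)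
    [0x1c3e1b00f4014f32016c025c06400ed] 21 27 = true := by
  decide +kernel

theorem j55 (A : ∀ f : CS, f.ok G = true → Hd (val S) (f.cl G))
    (A2 : ∀ f : CI, f.ok G = true → Hd (val S) (f.cl G)) (hU : ∀ c ∈ units, Hd (val S) c) :
    Hd (val S) [6, 1408, 1412, 1422, 1448, 1452, 2519, 2294] :=
  stu_sound A A2 hU i55

theorem i56 : stu G units []
    [.initX 0 1 1 1]
    [8, 10, 12, 20, 1412, 1426, 1436, 1454, 2290, 2518] 0x4eb4792d72ce2c92c200a00600419118f18918617c181005
    [[0,3], [4], [2], [6], [8], [10], [12], [15], [1], [17], [19], [21], [23], [25], [27], [29], [31]]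
    16 5 4 1
    (.leaf 0x8000000040000000200000001000000008000000040000000200000001000000000100000080000000000040000000200000001000000008000000020000000400020001)
    [0x523] 17 17 = true := by
  decide +kernel

theorem j56 (A : ∀ f : CS, f.ok G = true → Hd (val S) (f.cl G))
    (A2 : ∀ f : CI, f.ok G = true → Hd (val S) (f.cl G)) (hU : ∀ c ∈ units, Hd (val S) c) :
    Hd (val S) [8, 10, 12, 20, 1412, 1426, 1436, 1454, 2290, 2518] :=
  stu_sound A A2 hU i56

theorem i57 : stu G units []
    [.initX 0 1 1 1]
    [8, 10, 12, 20, 1426, 1428, 1436, 2516, 2294] 0x47b4ea2ce2ca2c900a00600419118f18918617c181005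
    [[0,3], [4], [2], [6], [8], [10], [12], [15], [1], [17], [19], [21], [23], [25], [27], [29]]
    15 5 4 1
    (.leaf 0x800000010000000200000004000000080000001000000020000000008000010000000000040000000800000010000000200000002000000100010001)
    [0x523] 16 16 = true := by
  decide +kernel

theorem j57 (A : ∀ f : CS, f.ok G = true → Hd (val S) (f.cl G))
    (A2 : ∀ f : CI, f.ok G = true → Hd (val S) (f.cl G)) (hU : ∀ c ∈ units, Hd (val S) c) :
    Hd (val S) [8, 10, 12, 20, 1426, 1428, 1436, 2516, 2294] :=
  stu_sound A A2 hU i57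

theorem i58 : stu G units []
    [.initX 0 1 1 1]
    [8, 10, 12, 396, 1416, 1446, 1894, 2519, 2302] 0x47f4eb3b32d32c40c600600419118f18918617c181005
    [[0,3], [4], [2], [6], [8], [10], [12], [15], [1], [17], [19], [21], [23], [25], [26], [29]]
    15 5 4 1
    (.leaf 0x800000000002000200000004000000080000001000000020000000008000010000000000040000000800000010000000200000002000000100010001)
    [0x523] 16 16 = true := by
  decide +kernel

theorem j58 (A : ∀ f : CS, f.ok G = true → Hd (val S) (f.cl G))
    (A2 : ∀ f : CI, f.ok G = true → Hd (val S) (f.cl G)) (hU : ∀ c ∈ units, Hd (val S) c) :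
    Hd (val S) [8, 10, 12, 396, 1416, 1446, 1894, 2519, 2302] :=
  stu_sound A A2 hU i58

theorem i59 : stu G units []
    [.initX 0 1 1 1]
    [8, 10, 12, 397, 1416, 1822, 2519, 2300] 0x47e4eb38f2c40c600600419118f18918617c181005
    [[0,3], [4], [2], [6], [8], [10], [12], [15], [1], [17], [18], [21], [23], [24], [27]]
    14 5 4 1
    (.leaf 0x800000000010002000000100000000002000400000000400002000000000040000002000000100000008000000200000040008001)
    [0x469] 15 15 = true := by
  decide +kernel

theorem j59 (A : ∀ f : CS, f.ok G = true → Hd (val S) (f.cl G))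
    (A2 : ∀ f : CI, f.ok G = true → Hd (val S) (f.cl G)) (hU : ∀ c ∈ units, Hd (val S) c) :
    Hd (val S) [8, 10, 12, 397, 1416, 1822, 2519, 2300] :=
  stu_sound A A2 hU i59

theorem i60 : stu G units []
    [.initX 0 1 1 1]
    [8, 10, 12, 1412, 1416, 1436, 1446, 2516, 2288, 2302] 0x47f4784ea2d32ce2c42c200600419118f18918617c181005
    [[0,3], [4], [2], [6], [8], [10], [12], [15], [1], [17], [19], [21], [23], [25], [27], [29], [31]]
    16 5 4 1
    (.leaf 0x8000000040000000200000001000000008000000040000000200000001000000000100000080000000000040000000200000001000000008000000020000000400020001)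
    [0x523] 17 17 = true := by
  decide +kernel

theorem j60 (A : ∀ f : CS, f.ok G = true → Hd (val S) (f.cl G))
    (A2 : ∀ f : CI, f.ok G = true → Hd (val S) (f.cl G)) (hU : ∀ c ∈ units, Hd (val S) c) :
    Hd (val S) [8, 10, 12, 1412, 1416, 1436, 1446, 2516, 2288, 2302] :=
  stu_sound A A2 hU i60

theorem i61 : stu G units []
    [.initX 0 1 1 1]
    [8, 10, 12, 1416, 1428, 1446, 2288, 2519, 2302] 0x47f4eb4782d32ca2c400600419118f18918617c181005
    [[0,3], [4], [2], [6], [8], [10], [12], [15], [1], [17], [19], [21], [23], [25], [26], [29]]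
    15 5 4 1
    (.leaf 0x800000000002000200000004000000080000001000000020000000008000010000000000040000000800000010000000200000002000000100010001)
    [0x523] 16 16 = true := by
  decide +kernel

theorem j61 (A : ∀ f : CS, f.ok G = true → Hd (val S) (f.cl G))
    (A2 : ∀ f : CI, f.ok G = true → Hd (val S) (f.cl G)) (hU : ∀ c ∈ units, Hd (val S) c) :
    Hd (val S) [8, 10, 12, 1416, 1428, 1446, 2288, 2519, 2302] :=
  stu_sound A A2 hU i61

theorem i62 : stu G units []
    [.initX 0 1 1 1]
    [8, 10, 12, 1424, 1426, 1432, 1446, 2520] 0x4ec2d32cc2c92c800600419118f18918617c181005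
    [[0,3], [4], [2], [6], [8], [10], [12], [15], [1], [17], [19], [21], [23], [25], [27]]
    14 5 4 1
    (.leaf 0x800000040000002000000100000008000000400000000400002000000000040000002000000100000008000000200000040008001)
    [0x469] 15 15 = true := by
  decide +kernel

theorem j62 (A : ∀ f : CS, f.ok G = true → Hd (val S) (f.cl G))
    (A2 : ∀ f : CI, f.ok G = true → Hd (val S) (f.cl G)) (hU : ∀ c ∈ units, Hd (val S) c) :
    Hd (val S) [8, 10, 12, 1424, 1426, 1432, 1446, 2520] :=
  stu_sound A A2 hU i62

theorem i63 : stu G units []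
    [.initX 0 1 1 1]
    [8, 10, 14, 18, 1412, 1365, 2288, 2519] 0x4eb4782aa2c200900700419118f18918617c181005
    [[0,3], [4], [2], [6], [8], [10], [12], [15], [1], [17], [19], [21], [22], [25], [26]]
    14 5 4 1
    (.leaf 0x200040000000000800100000008000000400000000400002000000000040000002000000100000008000000200000040008001)
    [0x469] 15 15 = true := by
  decide +kernel

theorem j63 (A : ∀ f : CS, f.ok G = true → Hd (val S) (f.cl G))
    (A2 : ∀ f : CI, f.ok G = true → Hd (val S) (f.cl G)) (hU : ∀ c ∈ units, Hd (val S) c) :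
    Hd (val S) [8, 10, 14, 18, 1412, 1365, 2288, 2519] :=
  stu_sound A A2 hU i63

theorem i64 : stu G units []
    [.initX 0 1 1 1]
    [8, 10, 14, 24, 30, 1412, 1424, 1436, 1442, 1365, 2290] 0x4792aa2d12ce2c82c200f00c00700419118f18918617c181005
    [[0,3], [4], [2], [6], [8], [10], [12], [15], [1], [17], [19], [21], [23], [25], [27], [29], [30], [33]]
    17 5 4 1
    (.leaf 0x800000000000080002000000004000000008000000010000000020000000040000000080000000002000000400000000000040000000080000000100000000200000000200000001000040001)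
    [0x469] 18 18 = true := by
  decide +kernel

theorem j64 (A : ∀ f : CS, f.ok G = true → Hd (val S) (f.cl G))
    (A2 : ∀ f : CI, f.ok G = true → Hd (val S) (f.cl G)) (hU : ∀ c ∈ units, Hd (val S) c) :
    Hd (val S) [8, 10, 14, 24, 30, 1412, 1424, 1436, 1442, 1365, 2290] :=
  stu_sound A A2 hU i64

theorem i65 : stu G units []
    [.initX 0 1 1 1]
    [8, 10, 14, 24, 1424, 1428, 1436, 1448, 2201, 1315, 1365, 2296] 0x47c2aa29144c2d42ce2ca2c800c00700419118f18918617c181005
    [[0,3], [4], [2], [6], [8], [10], [12], [15], [1], [17], [19], [21], [23], [25], [27], [28], [30], [32], [35]]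
    18 5 4 1
    (.leaf 0x800000000000010000000008000000004000080000000040000000020000000010000000008000000004000000000040000002000000000000040000000020000000010000000008000000002000000004000080001)
    [0x523] 19 19 = true := by
  decide +kernel

theorem j65 (A : ∀ f : CS, f.ok G = true → Hd (val S) (f.cl G))
    (A2 : ∀ f : CI, f.ok G = true → Hd (val S) (f.cl G)) (hU : ∀ c ∈ units, Hd (val S) c) :
    Hd (val S) [8, 10, 14, 24, 1424, 1428, 1436, 1448, 2201, 1315, 1365, 2296] :=
  stu_sound A A2 hU i65

theorem i66 : stu G units []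
    [.initX 0 1 1 1]
    [8, 10, 14, 26, 1418, 1434, 1436, 1448, 1314, 1364, 2521, 2296] 0x47c4ec2aa2912d42ce2cd2c500d00700419118f18918617c181005
    [[0,3], [4], [2], [6], [8], [10], [12], [15], [1], [17], [19], [21], [23], [25], [27], [29], [31], [32], [35]]
    18 5 4 1
    (.leaf 0x800000000000010000200000000100000000080000000040000000020000000010000000008000000004000000000040000002000000000000040000000020000000010000000008000000002000000004000080001)
    [0x523] 19 19 = true := by
  decide +kernel

theorem j66 (A : ∀ f : CS, f.ok G = true → Hd (val S) (f.cl G))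
    (A2 : ∀ f : CI, f.ok G = true → Hd (val S) (f.cl G)) (hU : ∀ c ∈ units, Hd (val S) c) :
    Hd (val S) [8, 10, 14, 26, 1418, 1434, 1436, 1448, 1314, 1364, 2521, 2296] :=
  stu_sound A A2 hU i66

theorem i67 : stu G units []
    [.initX 0 1 1 1]
    [8, 10, 14, 30, 1432, 1434, 1448, 1450, 2290, 2521, 2296] 0x47c4ec4792d52d42cd2cc00f00700419118f18918617c181005
    [[0,3], [4], [2], [6], [8], [10], [12], [15], [1], [17], [19], [21], [23], [25], [27], [29], [30], [33]]
    17 5 4 1
    (.leaf 0x800000000000080002000000004000000008000000010000000020000000040000000080000000002000000400000000000040000000080000000100000000200000000200000001000040001)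
    [0x469] 18 18 = true := by
  decide +kernel

theorem j67 (A : ∀ f : CS, f.ok G = true → Hd (val S) (f.cl G))
    (A2 : ∀ f : CI, f.ok G = true → Hd (val S) (f.cl G)) (hU : ∀ c ∈ units, Hd (val S) c) :
    Hd (val S) [8, 10, 14, 30, 1432, 1434, 1448, 1450, 2290, 2521, 2296] :=
  stu_sound A A2 hU i67

theorem i68 : stu G units []
    [.initX 0 1 1 1]
    [8, 10, 14, 32, 34, 1412, 1418, 1424, 1426, 1442, 2521] 0x4ec2d12c92c82c52c201101000700419118f18918617c181005
    [[0,3], [4], [2], [6], [8], [10], [12], [15], [1], [17], [19], [21], [23], [25], [27], [29], [31], [32]]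
    17 5 4 1
    (.leaf 0x40001000000002000000004000000008000000010000000020000000040000000080000000002000000400000000000040000000080000000100000000200000000200000001000040001)
    [0x469] 18 18 = true := by
  decide +kernel

theorem j68 (A : ∀ f : CS, f.ok G = true → Hd (val S) (f.cl G))
    (A2 : ∀ f : CI, f.ok G = true → Hd (val S) (f.cl G)) (hU : ∀ c ∈ units, Hd (val S) c) :
    Hd (val S) [8, 10, 14, 32, 34, 1412, 1418, 1424, 1426, 1442, 2521] :=
  stu_sound A A2 hU i68

theorem i69 : stu G units []
    [.initX 0 1 1 1]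
    [8, 10, 14, 32, 34, 1412, 1424, 1436, 1442, 2290] 0x4792d12ce2c82c201101000700419118f18918617c181005
    [[0,3], [4], [2], [6], [8], [10], [12], [15], [1], [17], [19], [21], [23], [25], [27], [29], [31]]
    16 5 4 1
    (.leaf 0x8000000040000000200000001000000008000000040000000200000001000000000100000080000000000040000000200000001000000008000000020000000400020001)
    [0x523] 17 17 = true := by
  decide +kernel

theorem j69 (A : ∀ f : CS, f.ok G = true → Hd (val S) (f.cl G))
    (A2 : ∀ f : CI, f.ok G = true → Hd (val S) (f.cl G)) (hU : ∀ c ∈ units, Hd (val S) c) :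
    Hd (val S) [8, 10, 14, 32, 34, 1412, 1424, 1436, 1442, 2290] :=
  stu_sound A A2 hU i69

theorem i70 : stu G units []
    [.initX 0 1 1 1]
    [8, 10, 14, 32, 34, 1442, 2290, 2521, 2296] 0x47c4ec4792d101101000700419118f18918617c181005
    [[0,3], [4], [2], [6], [8], [10], [12], [15], [1], [17], [19], [21], [23], [25], [26], [29]]
    15 5 4 1
    (.leaf 0x800000000002000200000004000000080000001000000020000000008000010000000000040000000800000010000000200000002000000100010001)
    [0x523] 16 16 = true := by
  decide +kernel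

theorem j70 (A : ∀ f : CS, f.ok G = true → Hd (val S) (f.cl G))
    (A2 : ∀ f : CI, f.ok G = true → Hd (val S) (f.cl G)) (hU : ∀ c ∈ units, Hd (val S) c) :
    Hd (val S) [8, 10, 14, 32, 34, 1442, 2290, 2521, 2296] :=
  stu_sound A A2 hU i70

theorem i71 : stu G units []
    [.initX 0 1 1 1]
    [8, 10, 14, 390, 1418, 1894, 2517, 2308] 0x4824ea3b32c50c300700419118f18918617c181005
    [[0,3], [4], [2], [6], [8], [10], [12], [15], [1], [17], [19], [21], [23], [24], [27]]
    14 5 4 1
    (.leaf 0x800000000010002000000100000008000000400000000400002000000000040000002000000100000008000000200000040008001)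
    [0x469] 15 15 = true := by
  decide +kernel

theorem j71 (A : ∀ f : CS, f.ok G = true → Hd (val S) (f.cl G))
    (A2 : ∀ f : CI, f.ok G = true → Hd (val S) (f.cl G)) (hU : ∀ c ∈ units, Hd (val S) c) :
    Hd (val S) [8, 10, 14, 390, 1418, 1894, 2517, 2308] :=
  stu_sound A A2 hU i71

theorem i72 : stu G units []
    [.initX 0 1 1 1]
    [8, 10, 14, 1412, 1418, 1424, 1426, 1434, 1438, 2308] 0x4822cf2cd2c92c82c52c200700419118f18918617c181005
    [[0,3], [4], [2], [6], [8], [10], [12], [15], [1], [17], [19], [21], [23], [25], [27], [29], [31]]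
    16 5 4 1
    (.leaf 0x8000000040000000200000001000000008000000040000000200000001000000000100000080000000000040000000200000001000000008000000020000000400020001)
    [0x523] 17 17 = true := by
  decide +kernel

theorem j72 (A : ∀ f : CS, f.ok G = true → Hd (val S) (f.cl G))
    (A2 : ∀ f : CI, f.ok G = true → Hd (val S) (f.cl G)) (hU : ∀ c ∈ units, Hd (val S) c) :
    Hd (val S) [8, 10, 14, 1412, 1418, 1424, 1426, 1434, 1438, 2308] :=
  stu_sound A A2 hU i72

theorem i73 : stu G units []
    [.initX 0 1 1 1]
    [8, 10, 14, 1412, 1418, 1434, 2308, 2296] 0x47c4822cd2c52c200700419118f18918617c181005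
    [[0,3], [4], [2], [6], [8], [10], [12], [15], [1], [17], [19], [21], [23], [25], [27]]
    14 5 4 1
    (.leaf 0x800000040000002000000100000008000000400000000400002000000000040000002000000100000008000000200000040008001)
    [0x469] 15 15 = true := by
  decide +kernel

theorem j73 (A : ∀ f : CS, f.ok G = true → Hd (val S) (f.cl G))
    (A2 : ∀ f : CI, f.ok G = true → Hd (val S) (f.cl G)) (hU : ∀ c ∈ units, Hd (val S) c) :
    Hd (val S) [8, 10, 14, 1412, 1418, 1434, 2308, 2296] :=
  stu_sound A A2 hU i73

theorem i74 : stu G units []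
    [.initX 0 1 1 1]
    [8, 10, 14, 1412, 1418, 2517, 2290, 2308, 2294] 0x47b4824794ea2c52c200700419118f18918617c181005
    [[0,3], [4], [2], [6], [8], [10], [12], [15], [1], [17], [19], [21], [22], [25], [27], [29]]
    15 5 4 1
    (.leaf 0x800000010000000200000000000800080000001000000020000000008000010000000000040000000800000010000000200000002000000100010001)
    [0x523] 16 16 = true := by
  decide +kernel

theorem j74 (A : ∀ f : CS, f.ok G = true → Hd (val S) (f.cl G))
    (A2 : ∀ f : CI, f.ok G = true → Hd (val S) (f.cl G)) (hU : ∀ c ∈ units, Hd (val S) c) :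
    Hd (val S) [8, 10, 14, 1412, 1418, 2517, 2290, 2308, 2294] :=
  stu_sound A A2 hU i74

theorem i75 : stu G units []
    [.initX 0 1 1 1]
    [8, 10, 14, 1412, 1418, 2308, 2519, 2300] 0x47e4eb4822c52c200700419118f18918617c181005
    [[0,3], [4], [2], [6], [8], [10], [12], [15], [1], [17], [19], [21], [23], [24], [27]]
    14 5 4 1
    (.leaf 0x800000000010002000000100000008000000400000000400002000000000040000002000000100000008000000200000040008001)
    [0x469] 15 15 = true := by
  decide +kernel

theorem j75 (A : ∀ f : CS, f.ok G = true → Hd (val S) (f.cl G))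
    (A2 : ∀ f : CI, f.ok G = true → Hd (val S) (f.cl G)) (hU : ∀ c ∈ units, Hd (val S) c) :
    Hd (val S) [8, 10, 14, 1412, 1418, 2308, 2519, 2300] :=
  stu_sound A A2 hU i75

theorem i76 : stu G units []
    [.initX 0 1 1 1]
    [8, 10, 14, 1418, 1440, 1442, 2308] 0x4822d12d02c500700419118f18918617c181005
    [[0,3], [4], [2], [6], [8], [10], [12], [15], [1], [17], [19], [21], [23], [25]]
    13 4 4 1
    (.leaf 0x8000001000000200000040000008000000020000400000000040000008000001000000200000020000010004001)
    [0x139] 14 14 = true := by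
  decide +kernel

theorem j76 (A : ∀ f : CS, f.ok G = true → Hd (val S) (f.cl G))
    (A2 : ∀ f : CI, f.ok G = true → Hd (val S) (f.cl G)) (hU : ∀ c ∈ units, Hd (val S) c) :
    Hd (val S) [8, 10, 14, 1418, 1440, 1442, 2308] :=
  stu_sound A A2 hU i76

theorem i77 : stu G units []
    [.initX 0 1 1 1]
    [8, 10, 14, 1424, 1428, 1436, 1438, 1442, 2521, 2296] 0x47c4ec2d12cf2ce2ca2c800700419118f18918617c181005
    [[0,3], [4], [2], [6], [8], [10], [12], [15], [1], [17], [19], [21], [23], [25], [27], [28], [31]]
    16 5 4 1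
    (.leaf 0x8000000000004000200000001000000008000000040000000200000001000000000100000080000000000040000000200000001000000008000000020000000400020001)
    [0x523] 17 17 = true := by
  decide +kernel

theorem j77 (A : ∀ f : CS, f.ok G = true → Hd (val S) (f.cl G))
    (A2 : ∀ f : CI, f.ok G = true → Hd (val S) (f.cl G)) (hU : ∀ c ∈ units, Hd (val S) c) :
    Hd (val S) [8, 10, 14, 1424, 1428, 1436, 1438, 1442, 2521, 2296] :=
  stu_sound A A2 hU i77

theorem i78 : stu G units []
    [.initX 0 1 1 1]
    [8, 10, 24, 26, 396, 1442, 1454, 1894] 0x3b32d72d10c600d00c00419118f18918617c181005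
    [[0,3], [4], [2], [6], [8], [10], [12], [15], [1], [17], [19], [21], [23], [25], [27]]
    14 5 4 1
    (.leaf 0x800000040000002000000100000008000000400000000400002000000000040000002000000100000008000000200000040008001)
    [0x469] 15 15 = true := by
  decide +kernel

theorem j78 (A : ∀ f : CS, f.ok G = true → Hd (val S) (f.cl G))
    (A2 : ∀ f : CI, f.ok G = true → Hd (val S) (f.cl G)) (hU : ∀ c ∈ units, Hd (val S) c) :
    Hd (val S) [8, 10, 24, 26, 396, 1442, 1454, 1894] :=
  stu_sound A A2 hU i78

theorem i79 : stu G units []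
    [.initX 0 1 1 1]
    [8, 10, 32, 34, 1412, 1440, 1448, 2169, 2178, 2290] 0x47944143c2d42d02c201101000419118f18918617c181005
    [[0,3], [4], [2], [6], [8], [10], [12], [15], [1], [17], [19], [21], [23], [25], [26], [29], [31]]
    16 5 4 1
    (.leaf 0x8000000040000000000020001000000008000000040000000200000001000000000100000080000000000040000000200000001000000008000000020000000400020001)
    [0x523] 17 17 = true := by
  decide +kernel

theorem j79 (A : ∀ f : CS, f.ok G = true → Hd (val S) (f.cl G))
    (A2 : ∀ f : CI, f.ok G = true → Hd (val S) (f.cl G)) (hU : ∀ c ∈ units, Hd (val S) c) :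
    Hd (val S) [8, 10, 32, 34, 1412, 1440, 1448, 2169, 2178, 2290] :=
  stu_sound A A2 hU i79

theorem i80 : stu G units []
    [.initX 0 1 1 1]
    [8, 10, 390, 397, 1416, 1446, 1876, 2519, 2302] 0x47f4eb3aa2d32c40c60c300419118f18918617c181005
    [[0,3], [4], [2], [6], [8], [10], [12], [15], [1], [17], [18], [21], [23], [25], [26], [29]]
    15 5 4 1
    (.leaf 0x800000000002000200000004000000080000000000200020000000008000010000000000040000000800000010000000200000002000000100010001)
    [0x523] 16 16 = true := by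
  decide +kernel

theorem j80 (A : ∀ f : CS, f.ok G = true → Hd (val S) (f.cl G))
    (A2 : ∀ f : CI, f.ok G = true → Hd (val S) (f.cl G)) (hU : ∀ c ∈ units, Hd (val S) c) :
    Hd (val S) [8, 10, 390, 397, 1416, 1446, 1876, 2519, 2302] :=
  stu_sound A A2 hU i80

theorem i81 : stu G units []
    [.initX 0 1 1 1]
    [8, 10, 391, 1418, 1822, 2517, 2308] 0x4824ea38f2c50c300419118f18918617c181005
    [[0,3], [4], [2], [6], [8], [10], [12], [15], [1], [16], [19], [21], [22], [25]]
    13 4 4 1
    (.leaf 0x8000000000800200000040000000004000020000400000000040000008000001000000200000020000010004001)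
    [0x139] 14 14 = true := by
  decide +kernel

theorem j81 (A : ∀ f : CS, f.ok G = true → Hd (val S) (f.cl G))
    (A2 : ∀ f : CI, f.ok G = true → Hd (val S) (f.cl G)) (hU : ∀ c ∈ units, Hd (val S) c) :
    Hd (val S) [8, 10, 391, 1418, 1822, 2517, 2308] :=
  stu_sound A A2 hU i81

theorem i82 : stu G units []
    [.initX 0 1 1 1]
    [8, 10, 396, 1416, 1894, 2519, 2300] 0x47e4eb3b32c40c600419118f18918617c181005
    [[0,3], [4], [2], [6], [8], [10], [12], [15], [1], [17], [19], [21], [22], [25]]
    13 4 4 1
    (.leaf 0x8000000000800200000040000008000000020000400000000040000008000001000000200000020000010004001)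
    [0x139] 14 14 = true := by
  decide +kernel

theorem j82 (A : ∀ f : CS, f.ok G = true → Hd (val S) (f.cl G))
    (A2 : ∀ f : CI, f.ok G = true → Hd (val S) (f.cl G)) (hU : ∀ c ∈ units, Hd (val S) c) :
    Hd (val S) [8, 10, 396, 1416, 1894, 2519, 2300] :=
  stu_sound A A2 hU i82

theorem i83 : stu G units []
    [.initX 0 2 2 1]
    [8, 14, 20, 38, 397, 444, 612, 1410, 1412, 1365] 0x2aa2c22c11320de0c601300700419118f18918117c18600a
    [[0,3], [4], [6], [2], [8], [10], [12], [15], [17], [1], [19], [20], [23], [25], [27], [29], [30]]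
    16 5 4 1
    (.leaf 0x800040000000200000001000000008000000000004000200000000010000010000000080000000000040000000200000001000000002000000080000000400020001)
    [0x544] 17 17 = true := by
  decide +kernel

theorem j83 (A : ∀ f : CS, f.ok G = true → Hd (val S) (f.cl G))
    (A2 : ∀ f : CI, f.ok G = true → Hd (val S) (f.cl G)) (hU : ∀ c ∈ units, Hd (val S) c) :
    Hd (val S) [8, 14, 20, 38, 397, 444, 612, 1410, 1412, 1365] :=
  stu_sound A A2 hU i83

theorem i84 : stu G units []
    [.initX 0 2 2 1]
    [8, 14, 20, 38, 463, 1410, 1412, 1434, 1452, 1365, 2521] 0x4ec2aa2d62cd2c22c10e701300700419118f18918117c18600a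
    [[0,3], [4], [6], [2], [8], [10], [12], [15], [17], [1], [19], [20], [23], [25], [27], [29], [30], [32]]
    17 5 4 1
    (.leaf 0x40000000080002000000004000000008000000010000000000001000040000000000800000200000000400000000000040000000080000000100000000080000000800000001000040001)
    [0x48a] 18 18 = true := by
  decide +kernel

theorem j84 (A : ∀ f : CS, f.ok G = true → Hd (val S) (f.cl G))
    (A2 : ∀ f : CI, f.ok G = true → Hd (val S) (f.cl G)) (hU : ∀ c ∈ units, Hd (val S) c) :
    Hd (val S) [8, 14, 20, 38, 463, 1410, 1412, 1434, 1452, 1365, 2521] :=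
  stu_sound A A2 hU i84

theorem i85 : stu G units []
    [.initX 0 2 2 1]
    [8, 14, 20, 38, 463, 1412, 1416, 1434, 1365, 2296] 0x47c2aa2cd2c42c20e701300700419118f18918117c18600a
    [[0,3], [4], [6], [2], [8], [10], [12], [15], [17], [1], [19], [20], [23], [25], [27], [28], [31]]
    16 5 4 1
    (.leaf 0x8000000000004000200000001000000008000000000004000200000000010000010000000080000000000040000000200000001000000002000000080000000400020001)
    [0x544] 17 17 = true := by
  decide +kernel

theorem j85 (A : ∀ f : CS, f.ok G = true → Hd (val S) (f.cl G))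
    (A2 : ∀ f : CI, f.ok G = true → Hd (val S) (f.cl G)) (hU : ∀ c ∈ units, Hd (val S) c) :
    Hd (val S) [8, 14, 20, 38, 463, 1412, 1416, 1434, 1365, 2296] :=
  stu_sound A A2 hU i85

theorem i86 : stu G units []
    [.initX 0 1 1 1]
    [10, 14, 20, 38, 390, 397, 1410, 1412, 1428, 2201, 1364, 2519] 0x4eb2aa44c2ca2c22c10c60c301300a00719118f18918617c181005
    [[0,3], [4], [2], [6], [8], [10], [12], [1], [15], [17], [19], [21], [22], [25], [27], [29], [30], [33], [34]]
    18 5 4 1
    (.leaf 0x20000400000000000008000100000000080000000040000000000000800010000000008000000004000000002000000000040000000000040000000020000000010000000008000000002000000004000080001)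
    [0x503] 19 19 = true := by
  decide +kernel

theorem j86 (A : ∀ f : CS, f.ok G = true → Hd (val S) (f.cl G))
    (A2 : ∀ f : CI, f.ok G = true → Hd (val S) (f.cl G)) (hU : ∀ c ∈ units, Hd (val S) c) :
    Hd (val S) [10, 14, 20, 38, 390, 397, 1410, 1412, 1428, 2201, 1364, 2519] :=
  stu_sound A A2 hU i86

theorem i87 : stu G units []
    [.initX 0 1 1 1]
    [10, 14, 20, 38, 390, 408, 1410, 1412, 1428, 1436, 1364, 2519] 0x4eb2aa2ce2ca2c22c10cc0c301300a00719118f18918617c181005
    [[0,3], [4], [2], [6], [8], [10], [12], [1], [15], [17], [19], [21], [23], [25], [27], [29], [31], [33], [34]]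
    18 5 4 1
    (.leaf 0x20000400000000200000000100000000080000000040000000020000000010000000008000000004000000002000000000040000000000040000000020000000010000000008000000002000000004000080001)
    [0x503] 19 19 = true := by
  decide +kernel

theorem j87 (A : ∀ f : CS, f.ok G = true → Hd (val S) (f.cl G))
    (A2 : ∀ f : CI, f.ok G = true → Hd (val S) (f.cl G)) (hU : ∀ c ∈ units, Hd (val S) c) :
    Hd (val S) [10, 14, 20, 38, 390, 408, 1410, 1412, 1428, 1436, 1364, 2519] :=
  stu_sound A A2 hU i87

theorem i88 : stu G units []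
    [.initX 0 1 1 1]
    [10, 14, 20, 38, 390, 408, 1410, 1412, 1428, 1364, 2519, 2302] 0x47f4eb2aa2ca2c22c10cc0c301300a00719118f18918617c181005
    [[0,3], [4], [2], [6], [8], [10], [12], [1], [15], [17], [19], [21], [23], [25], [27], [29], [31], [32], [35]]
    18 5 4 1
    (.leaf 0x800000000000010000200000000100000000080000000040000000020000000010000000008000000004000000002000000000040000000000040000000020000000010000000008000000002000000004000080001)
    [0x503] 19 19 = true := by
  decide +kernel

theorem j88 (A : ∀ f : CS, f.ok G = true → Hd (val S) (f.cl G))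
    (A2 : ∀ f : CI, f.ok G = true → Hd (val S) (f.cl G)) (hU : ∀ c ∈ units, Hd (val S) c) :
    Hd (val S) [10, 14, 20, 38, 390, 408, 1410, 1412, 1428, 1364, 2519, 2302] :=
  stu_sound A A2 hU i88

theorem i89 : stu G units []
    [.initX 0 1 1 1]
    [10, 14, 20, 38, 390, 499, 1410, 1412, 1428, 2201, 1364, 2519] 0x4eb2aa44c2ca2c22c10f90c301300a00719118f18918617c181005
    [[0,3], [4], [2], [6], [8], [10], [12], [1], [15], [17], [19], [21], [22], [25], [27], [29], [30], [33], [34]]
    18 5 4 1
    (.leaf 0x20000400000000000008000100000000080000000040000000000000800010000000008000000004000000002000000000040000000000040000000020000000010000000008000000002000000004000080001)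
    [0x503] 19 19 = true := by
  decide +kernel

theorem j89 (A : ∀ f : CS, f.ok G = true → Hd (val S) (f.cl G))
    (A2 : ∀ f : CI, f.ok G = true → Hd (val S) (f.cl G)) (hU : ∀ c ∈ units, Hd (val S) c) :
    Hd (val S) [10, 14, 20, 38, 390, 499, 1410, 1412, 1428, 2201, 1364, 2519] :=
  stu_sound A A2 hU i89

theorem i90 : stu G units []
    [.initX 0 1 1 1]
    [10, 14, 20, 38, 463, 1408, 1416, 1428, 1364, 2290, 2519] 0x4eb4792aa2ca2c42c00e701300a00719118f18918617c181005
    [[0,3], [4], [2], [6], [8], [10], [12], [1], [15], [17], [19], [20], [23], [25], [27], [29], [31], [32]]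
    17 5 4 1
    (.leaf 0x40001000000002000000004000000008000000010000000000001000040000000080000000100000000008000000000040000000080000000100000000200000000200000001000040001)
    [0x468] 18 18 = true := by
  decide +kernel

theorem j90 (A : ∀ f : CS, f.ok G = true → Hd (val S) (f.cl G))
    (A2 : ∀ f : CI, f.ok G = true → Hd (val S) (f.cl G)) (hU : ∀ c ∈ units, Hd (val S) c) :
    Hd (val S) [10, 14, 20, 38, 463, 1408, 1416, 1428, 1364, 2290, 2519] :=
  stu_sound A A2 hU i90

theorem i91 : stu G units []
    [.initX 0 1 1 1]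
    [10, 14, 20, 38, 463, 1410, 1412, 1434, 1452, 1364] 0x2aa2d62cd2c22c10e701300a00719118f18918617c181005
    [[0,3], [4], [2], [6], [8], [10], [12], [1], [15], [17], [19], [20], [23], [25], [27], [29], [31]]
    16 5 4 1
    (.leaf 0x8000000040000000200000001000000008000000000004000200000001000000008000000001000000000040000000200000001000000008000000020000000400020001)
    [0x503] 17 17 = true := by
  decide +kernel

theorem j91 (A : ∀ f : CS, f.ok G = true → Hd (val S) (f.cl G))
    (A2 : ∀ f : CI, f.ok G = true → Hd (val S) (f.cl G)) (hU : ∀ c ∈ units, Hd (val S) c) :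
    Hd (val S) [10, 14, 20, 38, 463, 1410, 1412, 1434, 1452, 1364] :=
  stu_sound A A2 hU i91

theorem i92 : stu G units []
    [.initX 0 1 1 1]
    [10, 14, 20, 38, 499, 1412, 1416, 1428, 1811, 1364, 2290] 0x4792aa3892ca2c42c20f901300a00719118f18918617c181005
    [[0,3], [4], [2], [6], [8], [10], [12], [1], [15], [17], [19], [20], [23], [25], [27], [28], [31], [33]]
    17 5 4 1
    (.leaf 0x800000001000000000000100004000000008000000010000000000001000040000000080000000100000000008000000000040000000080000000100000000200000000200000001000040001)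
    [0x468] 18 18 = true := by
  decide +kernel

theorem j92 (A : ∀ f : CS, f.ok G = true → Hd (val S) (f.cl G))
    (A2 : ∀ f : CI, f.ok G = true → Hd (val S) (f.cl G)) (hU : ∀ c ∈ units, Hd (val S) c) :
    Hd (val S) [10, 14, 20, 38, 499, 1412, 1416, 1428, 1811, 1364, 2290] :=
  stu_sound A A2 hU i92

theorem i93 : stu G units []
    [.initX 0 1 1 1]
    [10, 14, 20, 38, 499, 1412, 1416, 1428, 1942, 2068, 1364, 2290] 0x4792aa40a3cb2ca2c42c20f901300a00719118f18918617c181005
    [[0,3], [4], [2], [6], [8], [10], [12], [1], [15], [17], [19], [20], [23], [25], [27], [29], [31], [33], [35]]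
    18 5 4 1
    (.leaf 0x800000000400000000200000000100000000080000000040000000020000000000000400008000000004000000002000000000040000000000040000000020000000010000000008000000002000000004000080001)
    [0x503] 19 19 = true := by
  decide +kernel

theorem j93 (A : ∀ f : CS, f.ok G = true → Hd (val S) (f.cl G))
    (A2 : ∀ f : CI, f.ok G = true → Hd (val S) (f.cl G)) (hU : ∀ c ∈ units, Hd (val S) c) :
    Hd (val S) [10, 14, 20, 38, 499, 1412, 1416, 1428, 1942, 2068, 1364, 2290] :=
  stu_sound A A2 hU i93

theorem i94 : stu G units []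
    [.initX 0 2 2 1]
    [12, 14, 20, 1410, 1412, 1436, 1446, 2519, 2521, 2300] 0x47e4ec4eb2d32ce2c22c100700619118f18918117c18600a
    [[0,3], [4], [6], [2], [8], [10], [12], [15], [17], [1], [19], [21], [23], [25], [26], [28], [31]]
    16 5 4 1
    (.leaf 0x8000000000004000000020001000000008000000040000000200000000010000010000000080000000000040000000200000001000000002000000080000000400020001)
    [0x544] 17 17 = true := by
  decide +kernel

theorem j94 (A : ∀ f : CS, f.ok G = true → Hd (val S) (f.cl G))
    (A2 : ∀ f : CI, f.ok G = true → Hd (val S) (f.cl G)) (hU : ∀ c ∈ units, Hd (val S) c) :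
    Hd (val S) [12, 14, 20, 1410, 1412, 1436, 1446, 2519, 2521, 2300] :=
  stu_sound A A2 hU i94

theorem i95 : stu G units []
    [.initX 0 4 3 1]
    [12, 14, 38, 1436, 1452, 2201, 2517, 2519, 2302] 0x47f4eb4ea44c2d62ce00700619118918618117c18f013
    [[0,3], [4], [6], [8], [10], [2], [12], [15], [17], [1], [19], [21], [22], [24], [26], [29]]
    15 5 4 1
    (.leaf 0x800000000002000000040000000800080000001000000000200000800000010000000000040000000080000020000000400000008000000100010001)
    [0x546] 16 16 = true := by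
  decide +kernel

theorem j95 (A : ∀ f : CS, f.ok G = true → Hd (val S) (f.cl G))
    (A2 : ∀ f : CI, f.ok G = true → Hd (val S) (f.cl G)) (hU : ∀ c ∈ units, Hd (val S) c) :
    Hd (val S) [12, 14, 38, 1436, 1452, 2201, 2517, 2519, 2302] :=
  stu_sound A A2 hU i95

theorem i96 : stu G units []
    [.initX 0 4 3 1]
    [12, 38, 44, 1408, 1410, 1416, 1418, 1424, 1428, 1436, 2302] 0x47f2ce2ca2c82c52c42c12c001600619118918618117c18f013
    [[0,3], [4], [6], [8], [10], [2], [12], [15], [1], [17], [19], [21], [23], [25], [27], [29], [31], [33]]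
    17 5 4 1
    (.leaf 0x800000001000000002000000004000000008000000010000000020000000040000000080000000002000000400000000000040000000008000000200000000400000000800000001000040001)
    [0x4c9] 18 18 = true := by
  decide +kernel

theorem j96 (A : ∀ f : CS, f.ok G = true → Hd (val S) (f.cl G))
    (A2 : ∀ f : CI, f.ok G = true → Hd (val S) (f.cl G)) (hU : ∀ c ∈ units, Hd (val S) c) :
    Hd (val S) [12, 38, 44, 1408, 1410, 1416, 1418, 1424, 1428, 1436, 2302] :=
  stu_sound A A2 hU i96

theorem i97 : stu G units [.some 1 1, .legal2 0 1 1 1 3]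
    [.initX 0 1 1 1]
    [12, 396, 1416, 1418, 1420, 1446, 1804, 2519, 2302] 0x47f4eb3862d30c600619118f18918617c1810052c72c62c52c4
    [[0,2,4,6], [9,7], [8,11], [12], [10], [14], [16], [18], [20], [23], [25], [1], [3], [5], [27], [29], [30], [33]]
    17 5 14 1
    (.leaf 0x4000400000000000108000000000000800020000000040000000000200000000400000000800002000000004000000000000400000000800000001000000002000000002000000010000400010000c000000000000f)
    [0xea80346340298065] 18 21 = true := by
  decide +kernel

theorem j97 (A : ∀ f : CS, f.ok G = true → Hd (val S) (f.cl G))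
    (A2 : ∀ f : CI, f.ok G = true → Hd (val S) (f.cl G)) (hU : ∀ c ∈ units, Hd (val S) c) :
    Hd (val S) [12, 396, 1416, 1418, 1420, 1446, 1804, 2519, 2302] :=
  stu_sound A A2 hU i97

theorem i98 : stu G units []
    [.initX 0 2 2 1]
    [14, 16, 20, 38, 481, 1412, 1416, 1428, 1364, 2519, 2296] 0x47c4eb2aa2ca2c42c20f001300800719118f18918117c18600a
    [[0,3], [4], [6], [2], [8], [10], [12], [15], [17], [1], [19], [20], [23], [25], [27], [29], [30], [33]]
    17 5 4 1
    (.leaf 0x800000000000080002000000004000000008000000010000000000001000040000000000800000200000000400000000000040000000080000000100000000080000000800000001000040001)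
    [0x48a] 18 18 = true := by
  decide +kernel

theorem j98 (A : ∀ f : CS, f.ok G = true → Hd (val S) (f.cl G))
    (A2 : ∀ f : CI, f.ok G = true → Hd (val S) (f.cl G)) (hU : ∀ c ∈ units, Hd (val S) c) :
    Hd (val S) [14, 16, 20, 38, 481, 1412, 1416, 1428, 1364, 2519, 2296] :=
  stu_sound A A2 hU i98

theorem i99 : stu G units []
    [.initX 0 2 2 1]
    [14, 18, 20, 38, 396, 608, 1410, 1365, 2520] 0x4ec2aa2c11300c601300900719118f18918117c18600a
    [[0,3], [4], [6], [2], [8], [10], [12], [15], [17], [1], [19], [21], [23], [25], [26], [29]]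
    15 5 4 1
    (.leaf 0x800000000002000200000004000000080000001000000000200000800000010000000000040000000800000010000000080000008000000100010001)
    [0x544] 16 16 = true := by
  decide +kernel

theorem j99 (A : ∀ f : CS, f.ok G = true → Hd (val S) (f.cl G))
    (A2 : ∀ f : CI, f.ok G = true → Hd (val S) (f.cl G)) (hU : ∀ c ∈ units, Hd (val S) c) :
    Hd (val S) [14, 18, 20, 38, 396, 608, 1410, 1365, 2520] :=
  stu_sound A A2 hU i99

theorem i100 : stu G units []
    [.initX 0 2 2 1]
    [14, 18, 20, 38, 397, 612, 1410, 1412, 1428, 1365, 2516] 0x4ea2aa2ca2c22c11320c601300900719118f18918117c18600a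
    [[0,3], [4], [6], [2], [8], [10], [12], [15], [17], [1], [19], [20], [23], [25], [27], [29], [30], [33]]
    17 5 4 1
    (.leaf 0x800000000000080002000000004000000008000000010000000000001000040000000000800000200000000400000000000040000000080000000100000000080000000800000001000040001)
    [0x48a] 18 18 = true := by
  decide +kernel

theorem j100 (A : ∀ f : CS, f.ok G = true → Hd (val S) (f.cl G))
    (A2 : ∀ f : CI, f.ok G = true → Hd (val S) (f.cl G)) (hU : ∀ c ∈ units, Hd (val S) c) :
    Hd (val S) [14, 18, 20, 38, 397, 612, 1410, 1412, 1428, 1365, 2516] :=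
  stu_sound A A2 hU i100

theorem i101 : stu G units []
    [.initX 0 2 2 1]
    [14, 18, 20, 38, 397, 612, 1426, 1428, 1450, 1365, 2516] 0x4ea2aa2d52ca2c91320c601300900719118f18918117c18600a
    [[0,3], [4], [6], [2], [8], [10], [12], [15], [17], [1], [19], [20], [23], [25], [27], [29], [30], [33]]
    17 5 4 1
    (.leaf 0x800000000000080002000000004000000008000000010000000000001000040000000000800000200000000400000000000040000000080000000100000000080000000800000001000040001)
    [0x48a] 18 18 = true := by
  decide +kernel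

theorem j101 (A : ∀ f : CS, f.ok G = true → Hd (val S) (f.cl G))
    (A2 : ∀ f : CI, f.ok G = true → Hd (val S) (f.cl G)) (hU : ∀ c ∈ units, Hd (val S) c) :
    Hd (val S) [14, 18, 20, 38, 397, 612, 1426, 1428, 1450, 1365, 2516] :=
  stu_sound A A2 hU i101

theorem i102 : stu G units []
    [.initX 0 2 2 1]
    [14, 18, 20, 38, 463, 1410, 1412, 1428, 1436, 1793, 1883, 1365, 2519, 2521] 0x4ec4eb2aa3ad3802ce2ca2c22c10e701300900719118f18918117c18600a
    [[0,3], [4], [6], [2], [8], [10], [12], [15], [17], [1], [19], [20], [23], [25], [27], [29], [30], [32], [34], [36], [38]]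
    20 5 6 1
    (.leaf 0x1000008000000000400000000020000000001000000000080000400000000020000000001000000000080000000000000040000200000000000100000001000000000080000000000000040000000002000000000100000000002000000000800000000040000200001)
    [0xab0024] 21 22 = true := by
  decide +kernel

theorem j102 (A : ∀ f : CS, f.ok G = true → Hd (val S) (f.cl G))
    (A2 : ∀ f : CI, f.ok G = true → Hd (val S) (f.cl G)) (hU : ∀ c ∈ units, Hd (val S) c) :
    Hd (val S) [14, 18, 20, 38, 463, 1410, 1412, 1428, 1436, 1793, 1883, 1365, 2519, 2521] :=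
  stu_sound A A2 hU i102

theorem i103 : stu G units []
    [.initX 0 2 2 1]
    [14, 18, 20, 38, 612, 1408, 1410, 1416, 1436, 1793, 1365, 2517, 2290] 0x4794ea2aa3802ce2c42c12c013201300900719118f18918117c18600a
    [[0,3], [4], [6], [2], [8], [10], [12], [15], [17], [1], [19], [21], [23], [25], [27], [29], [30], [32], [34], [37]]
    19 5 4 1
    (.leaf 0x8000000000000020000000004000000000800008000000001000000000200000000040000000008000000001000000000002000000080000000010000000000000040000000008000000001000000000080000000080000000010000100001)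
    [0x544] 20 20 = true := by
  decide +kernel

theorem j103 (A : ∀ f : CS, f.ok G = true → Hd (val S) (f.cl G))
    (A2 : ∀ f : CI, f.ok G = true → Hd (val S) (f.cl G)) (hU : ∀ c ∈ units, Hd (val S) c) :
    Hd (val S) [14, 18, 20, 38, 612, 1408, 1410, 1416, 1436, 1793, 1365, 2517, 2290] :=
  stu_sound A A2 hU i103

theorem i104 : stu G units []
    [.initX 0 2 2 1]
    [14, 18, 20, 38, 612, 1408, 1410, 1416, 1793, 1365, 2290, 2296] 0x47c4792aa3802c42c12c013201300900719118f18918117c18600a
    [[0,3], [4], [6], [2], [8], [10], [12], [15], [17], [1], [19], [21], [23], [25], [27], [28], [30], [33], [35]]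
    18 5 4 1
    (.leaf 0x800000000400000000000008000000004000080000000040000000020000000010000000008000000000040000004000000002000000000000040000000020000000010000000002000000008000000004000080001)
    [0x544] 19 19 = true := by
  decide +kernel

theorem j104 (A : ∀ f : CS, f.ok G = true → Hd (val S) (f.cl G))
    (A2 : ∀ f : CI, f.ok G = true → Hd (val S) (f.cl G)) (hU : ∀ c ∈ units, Hd (val S) c) :
    Hd (val S) [14, 18, 20, 38, 612, 1408, 1410, 1416, 1793, 1365, 2290, 2296] :=
  stu_sound A A2 hU i104

theorem i105 : stu G units []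
    [.initX 0 2 2 1]
    [14, 20, 24, 30, 38, 1410, 1412, 1428, 1436, 2201, 1365, 2519, 2296] 0x47c4eb2aa44c2ce2ca2c22c101300f00c00719118f18918117c18600a
    [[0,3], [4], [6], [2], [8], [10], [12], [15], [1], [17], [19], [21], [23], [25], [27], [29], [30], [32], [34], [37]]
    19 5 4 1
    (.leaf 0x8000000000000020000000004000000000800008000000001000000000200000000040000000008000000001000000000200000000000800000010000000000000040000000008000000001000000000080000000080000000010000100001)
    [0x524] 20 20 = true := by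
  decide +kernel

theorem j105 (A : ∀ f : CS, f.ok G = true → Hd (val S) (f.cl G))
    (A2 : ∀ f : CI, f.ok G = true → Hd (val S) (f.cl G)) (hU : ∀ c ∈ units, Hd (val S) c) :
    Hd (val S) [14, 20, 24, 30, 38, 1410, 1412, 1428, 1436, 2201, 1365, 2519, 2296] :=
  stu_sound A A2 hU i105

theorem i106 : stu G units []
    [.initX 0 2 2 1]
    [14, 20, 24, 30, 38, 1416, 1436, 1450, 2201, 1365, 2290, 2519] 0x4eb4792aa44c2d52ce2c401300f00c00719118f18918117c18600a
    [[0,3], [4], [6], [2], [8], [10], [12], [15], [1], [17], [19], [21], [23], [25], [27], [28], [30], [33], [34]]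
    18 5 4 1
    (.leaf 0x20000400000000000008000000004000080000000040000000020000000010000000008000000004000000000040000002000000000000040000000020000000010000000002000000008000000004000080001)
    [0x524] 19 19 = true := by
  decide +kernel

theorem j106 (A : ∀ f : CS, f.ok G = true → Hd (val S) (f.cl G))
    (A2 : ∀ f : CI, f.ok G = true → Hd (val S) (f.cl G)) (hU : ∀ c ∈ units, Hd (val S) c) :
    Hd (val S) [14, 20, 24, 30, 38, 1416, 1436, 1450, 2201, 1365, 2290, 2519] :=
  stu_sound A A2 hU i106

theorem i107 : stu G units []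
    [.initX 0 2 2 1]
    [14, 20, 26, 30, 38, 1410, 1412, 1428, 1436, 1364, 2519, 2521, 2296] 0x47c4ec4eb2aa2ce2ca2c22c101300f00d00719118f18918117c18600a
    [[0,3], [4], [6], [2], [8], [10], [12], [15], [1], [17], [19], [21], [23], [25], [27], [29], [31], [32], [34], [37]]
    19 5 4 1
    (.leaf 0x8000000000000020000000004000040000000008000000001000000000200000000040000000008000000001000000000200000000000800000010000000000000040000000008000000001000000000080000000080000000010000100001)
    [0x524] 20 20 = true := by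
  decide +kernel

theorem j107 (A : ∀ f : CS, f.ok G = true → Hd (val S) (f.cl G))
    (A2 : ∀ f : CI, f.ok G = true → Hd (val S) (f.cl G)) (hU : ∀ c ∈ units, Hd (val S) c) :
    Hd (val S) [14, 20, 26, 30, 38, 1410, 1412, 1428, 1436, 1364, 2519, 2521, 2296] :=
  stu_sound A A2 hU i107

theorem i108 : stu G units []
    [.initX 0 2 2 1]
    [14, 20, 38, 390, 608, 1410, 1412, 1424, 1434] 0x2cd2c82c22c11300c301300719118f18918117c18600a
    [[0,3], [4], [6], [2], [8], [10], [12], [15], [1], [17], [19], [21], [23], [25], [27], [29]]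
    15 5 4 1
    (.leaf 0x800000010000000200000004000000080000001000000020000000008000010000000000040000000800000010000000080000008000000100010001)
    [0x524] 16 16 = true := by
  decide +kernel

theorem j108 (A : ∀ f : CS, f.ok G = true → Hd (val S) (f.cl G))
    (A2 : ∀ f : CI, f.ok G = true → Hd (val S) (f.cl G)) (hU : ∀ c ∈ units, Hd (val S) c) :
    Hd (val S) [14, 20, 38, 390, 608, 1410, 1412, 1424, 1434] :=
  stu_sound A A2 hU i108

theorem i109 : stu G units []
    [.initX 0 2 2 1]
    [14, 20, 38, 396, 1416, 1440, 1804] 0x3862d02c40c601300719118f18918117c18600a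
    [[0,3], [4], [6], [2], [8], [10], [12], [15], [1], [17], [19], [21], [23], [25]]
    13 4 4 1
    (.leaf 0x8000001000000200000040000008000000020000400000000040000008000001000000080000080000010004001)
    [0x149] 14 14 = true := by
  decide +kernel

theorem j109 (A : ∀ f : CS, f.ok G = true → Hd (val S) (f.cl G))
    (A2 : ∀ f : CI, f.ok G = true → Hd (val S) (f.cl G)) (hU : ∀ c ∈ units, Hd (val S) c) :
    Hd (val S) [14, 20, 38, 396, 1416, 1440, 1804] :=
  stu_sound A A2 hU i109

theorem i110 : stu G units []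
    [.initX 0 2 2 1]
    [14, 20, 38, 397, 444, 1410, 1412, 1434, 1436] 0x2ce2cd2c22c10de0c601300719118f18918117c18600a
    [[0,3], [4], [6], [2], [8], [10], [12], [15], [1], [17], [18], [21], [23], [25], [27], [29]]
    15 5 4 1
    (.leaf 0x800000010000000200000004000000080000000000200020000000008000010000000000040000000800000010000000080000008000000100010001)
    [0x524] 16 16 = true := by
  decide +kernel

theorem j110 (A : ∀ f : CS, f.ok G = true → Hd (val S) (f.cl G))
    (A2 : ∀ f : CI, f.ok G = true → Hd (val S) (f.cl G)) (hU : ∀ c ∈ units, Hd (val S) c) :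
    Hd (val S) [14, 20, 38, 397, 444, 1410, 1412, 1434, 1436] :=
  stu_sound A A2 hU i110

theorem i111 : stu G units []
    [.initX 0 2 2 1]
    [14, 20, 38, 397, 1416, 1440, 1822] 0x38f2d02c40c601300719118f18918117c18600a
    [[0,3], [4], [6], [2], [8], [10], [12], [15], [1], [17], [18], [21], [23], [25]]
    13 4 4 1
    (.leaf 0x8000001000000200000000020008000000020000400000000040000008000001000000080000080000010004001)
    [0x149] 14 14 = true := by
  decide +kernel

theorem j111 (A : ∀ f : CS, f.ok G = true → Hd (val S) (f.cl G))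
    (A2 : ∀ f : CI, f.ok G = true → Hd (val S) (f.cl G)) (hU : ∀ c ∈ units, Hd (val S) c) :
    Hd (val S) [14, 20, 38, 397, 1416, 1440, 1822] :=
  stu_sound A A2 hU i111

theorem i112 : stu G units []
    [.initX 0 2 2 1]
    [14, 20, 38, 397, 1416, 1440, 1876] 0x3aa2d02c40c601300719118f18918117c18600a
    [[0,3], [4], [6], [2], [8], [10], [12], [15], [1], [17], [18], [21], [23], [25]]
    13 4 4 1
    (.leaf 0x8000001000000200000000020008000000020000400000000040000008000001000000080000080000010004001)
    [0x149] 14 14 = true := by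
  decide +kernel

theorem j112 (A : ∀ f : CS, f.ok G = true → Hd (val S) (f.cl G))
    (A2 : ∀ f : CI, f.ok G = true → Hd (val S) (f.cl G)) (hU : ∀ c ∈ units, Hd (val S) c) :
    Hd (val S) [14, 20, 38, 397, 1416, 1440, 1876] :=
  stu_sound A A2 hU i112

theorem i113 : stu G units []
    [.initX 0 2 2 1]
    [14, 20, 38, 1416, 1440, 2521, 2294] 0x47b4ec2d02c401300719118f18918117c18600a
    [[0,3], [4], [6], [2], [8], [10], [12], [15], [1], [17], [19], [21], [22], [25]]
    13 4 4 1
    (.leaf 0x8000000000800200000040000008000000020000400000000040000008000001000000080000080000010004001)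
    [0x149] 14 14 = true := by
  decide +kernel

theorem j113 (A : ∀ f : CS, f.ok G = true → Hd (val S) (f.cl G))
    (A2 : ∀ f : CI, f.ok G = true → Hd (val S) (f.cl G)) (hU : ∀ c ∈ units, Hd (val S) c) :
    Hd (val S) [14, 20, 38, 1416, 1440, 2521, 2294] :=
  stu_sound A A2 hU i113

theorem i114 : stu G units []
    [.initX 0 2 2 1]
    [14, 20, 396, 1416, 1804, 1894] 0x3b33862c40c600719118f18918117c18600a
    [[0,3], [4], [6], [2], [8], [10], [12], [15], [1], [17], [19], [21], [23]]
    12 4 6 1
    (.leaf 0x1800000400000200000100000001000080000000040000020000010000002000008000004002001)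
    [0x9e014] 13 14 = true := by
  decide +kernel

theorem j114 (A : ∀ f : CS, f.ok G = true → Hd (val S) (f.cl G))
    (A2 : ∀ f : CI, f.ok G = true → Hd (val S) (f.cl G)) (hU : ∀ c ∈ units, Hd (val S) c) :
    Hd (val S) [14, 20, 396, 1416, 1804, 1894] :=
  stu_sound A A2 hU i114

theorem i115 : stu G units []
    [.initX 0 2 2 1]
    [14, 20, 439, 1412, 1416, 1428, 2288] 0x4782ca2c42c20db00719118f18918117c18600a
    [[0,3], [4], [6], [2], [8], [10], [12], [15], [1], [16], [19], [21], [23], [25]]
    13 4 4 1
    (.leaf 0x8000001000000200000040000000004000020000400000000040000008000001000000080000080000010004001)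
    [0x149] 14 14 = true := by
  decide +kernel

theorem j115 (A : ∀ f : CS, f.ok G = true → Hd (val S) (f.cl G))
    (A2 : ∀ f : CI, f.ok G = true → Hd (val S) (f.cl G)) (hU : ∀ c ∈ units, Hd (val S) c) :
    Hd (val S) [14, 20, 439, 1412, 1416, 1428, 2288] :=
  stu_sound A A2 hU i115

theorem i116 : stu G units []
    [.initX 0 2 2 1]
    [14, 20, 1408, 1410, 1416, 1428, 1440, 1446, 2308] 0x4822d32d02ca2c42c12c000719118f18918117c18600a
    [[0,3], [4], [6], [2], [8], [10], [12], [15], [1], [17], [19], [21], [23], [25], [27], [29]]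
    15 5 4 1
    (.leaf 0x800000010000000200000004000000080000001000000020000000008000010000000000040000000800000010000000080000008000000100010001)
    [0x524] 16 16 = true := by
  decide +kernel

theorem j116 (A : ∀ f : CS, f.ok G = true → Hd (val S) (f.cl G))
    (A2 : ∀ f : CI, f.ok G = true → Hd (val S) (f.cl G)) (hU : ∀ c ∈ units, Hd (val S) c) :
    Hd (val S) [14, 20, 1408, 1410, 1416, 1428, 1440, 1446, 2308] :=
  stu_sound A A2 hU i116

theorem i117 : stu G units []
    [.initX 0 2 2 1]
    [14, 20, 1410, 1412, 1446, 1452, 2201, 2519, 2302] 0x47f4eb44c2d62d32c22c100719118f18918117c18600a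
    [[0,3], [4], [6], [2], [8], [10], [12], [15], [1], [17], [19], [21], [23], [24], [26], [29]]
    15 5 4 1
    (.leaf 0x800000000002000000040004000000080000001000000020000000008000010000000000040000000800000010000000080000008000000100010001)
    [0x524] 16 16 = true := by
  decide +kernel

theorem j117 (A : ∀ f : CS, f.ok G = true → Hd (val S) (f.cl G))
    (A2 : ∀ f : CI, f.ok G = true → Hd (val S) (f.cl G)) (hU : ∀ c ∈ units, Hd (val S) c) :
    Hd (val S) [14, 20, 1410, 1412, 1446, 1452, 2201, 2519, 2302] :=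
  stu_sound A A2 hU i117

theorem i118 : stu G units []
    [.initX 0 2 2 1]
    [14, 20, 1412, 1414, 1416, 1450, 2519, 2521, 2294, 2302] 0x47f47b4ec4eb2d52c42c32c200719118f18918117c18600a
    [[0,3], [4], [6], [2], [8], [10], [12], [15], [1], [17], [19], [21], [23], [24], [26], [29], [31]]
    16 5 4 1
    (.leaf 0x8000000040000000000020000000100008000000040000000200000001000000000100000080000000000040000000200000001000000002000000080000000400020001)
    [0x524] 17 17 = true := by
  decide +kernel

theorem j118 (A : ∀ f : CS, f.ok G = true → Hd (val S) (f.cl G))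
    (A2 : ∀ f : CI, f.ok G = true → Hd (val S) (f.cl G)) (hU : ∀ c ∈ units, Hd (val S) c) :
    Hd (val S) [14, 20, 1412, 1414, 1416, 1450, 2519, 2521, 2294, 2302] :=
  stu_sound A A2 hU i118

theorem i119 : stu G units []
    [.initX 0 2 2 1]
    [14, 20, 1412, 1416, 1418, 2517, 2288, 2308] 0x4824784ea2c52c42c200719118f18918117c18600a
    [[0,3], [4], [6], [2], [8], [10], [12], [15], [1], [17], [19], [21], [22], [25], [27]]
    14 5 4 1
    (.leaf 0x800000040000000000800100000008000000400000000400002000000000040000002000000100000002000000800000040008001)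
    [0x489] 15 15 = true := by
  decide +kernel

theorem j119 (A : ∀ f : CS, f.ok G = true → Hd (val S) (f.cl G))
    (A2 : ∀ f : CI, f.ok G = true → Hd (val S) (f.cl G)) (hU : ∀ c ∈ units, Hd (val S) c) :
    Hd (val S) [14, 20, 1412, 1416, 1418, 2517, 2288, 2308] :=
  stu_sound A A2 hU i119

theorem i120 : stu G units []
    [.initX 0 2 2 1]
    [14, 20, 1412, 1416, 1428, 1811, 2288] 0x4783892ca2c42c200719118f18918117c18600a
    [[0,3], [4], [6], [2], [8], [10], [12], [15], [1], [17], [19], [21], [22], [25]]
    13 4 4 1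
    (.leaf 0x8000000000800200000040000008000000020000400000000040000008000001000000080000080000010004001)
    [0x149] 14 14 = true := by
  decide +kernel

theorem j120 (A : ∀ f : CS, f.ok G = true → Hd (val S) (f.cl G))
    (A2 : ∀ f : CI, f.ok G = true → Hd (val S) (f.cl G)) (hU : ∀ c ∈ units, Hd (val S) c) :
    Hd (val S) [14, 20, 1412, 1416, 1428, 1811, 2288] :=
  stu_sound A A2 hU i120

theorem i121 : stu G units []
    [.initX 0 2 2 1]
    [14, 20, 1412, 1416, 1428, 1883, 2288] 0x4783ad2ca2c42c200719118f18918117c18600a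
    [[0,3], [4], [6], [2], [8], [10], [12], [15], [1], [17], [19], [21], [22], [25]]
    13 4 4 1
    (.leaf 0x8000000000800200000040000008000000020000400000000040000008000001000000080000080000010004001)
    [0x149] 14 14 = true := by
  decide +kernel

theorem j121 (A : ∀ f : CS, f.ok G = true → Hd (val S) (f.cl G))
    (A2 : ∀ f : CI, f.ok G = true → Hd (val S) (f.cl G)) (hU : ∀ c ∈ units, Hd (val S) c) :
    Hd (val S) [14, 20, 1412, 1416, 1428, 1883, 2288] :=
  stu_sound A A2 hU i121

theorem i122 : stu G units []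
    [.initX 0 2 2 1]
    [14, 20, 1412, 1416, 1428, 1942, 2068, 2288] 0x47840a3cb2ca2c42c200719118f18918117c18600a
    [[0,3], [4], [6], [2], [8], [10], [12], [15], [1], [17], [19], [21], [23], [25], [27]]
    14 5 4 1
    (.leaf 0x800000040000002000000100000008000000400000000400002000000000040000002000000100000002000000800000040008001)
    [0x489] 15 15 = true := by
  decide +kernel

theorem j122 (A : ∀ f : CS, f.ok G = true → Hd (val S) (f.cl G))
    (A2 : ∀ f : CI, f.ok G = true → Hd (val S) (f.cl G)) (hU : ∀ c ∈ units, Hd (val S) c) :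
    Hd (val S) [14, 20, 1412, 1416, 1428, 1942, 2068, 2288] :=
  stu_sound A A2 hU i122

theorem i123 : stu G units []
    [.initX 0 2 2 1]
    [14, 20, 1412, 1416, 1450, 1883, 2521, 2294] 0x47b4ec3ad2d52c42c200719118f18918117c18600a
    [[0,3], [4], [6], [2], [8], [10], [12], [15], [1], [17], [19], [21], [22], [24], [27]]
    14 5 4 1
    (.leaf 0x800000000010000000800100000008000000400000000400002000000000040000002000000100000002000000800000040008001)
    [0x489] 15 15 = true := by
  decide +kernel

theorem j123 (A : ∀ f : CS, f.ok G = true → Hd (val S) (f.cl G))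
    (A2 : ∀ f : CI, f.ok G = true → Hd (val S) (f.cl G)) (hU : ∀ c ∈ units, Hd (val S) c) :
    Hd (val S) [14, 20, 1412, 1416, 1450, 1883, 2521, 2294] :=
  stu_sound A A2 hU i123

theorem i124 : stu G units []
    [.initX 0 2 2 1]
    [14, 20, 1412, 1416, 2169, 2178, 2290] 0x47944143c2c42c200719118f18918117c18600a
    [[0,3], [4], [6], [2], [8], [10], [12], [15], [1], [17], [19], [20], [23], [25]]
    13 4 4 1
    (.leaf 0x8000001000000000100040000008000000020000400000000040000008000001000000080000080000010004001)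
    [0x149] 14 14 = true := by
  decide +kernel

theorem j124 (A : ∀ f : CS, f.ok G = true → Hd (val S) (f.cl G))
    (A2 : ∀ f : CI, f.ok G = true → Hd (val S) (f.cl G)) (hU : ∀ c ∈ units, Hd (val S) c) :
    Hd (val S) [14, 20, 1412, 1416, 2169, 2178, 2290] :=
  stu_sound A A2 hU i124

theorem i125 : stu G units []
    [.initX 0 2 2 1]
    [14, 20, 1414, 1416, 1446, 1450, 2519, 2521, 2294] 0x47b4ec4eb2d52d32c42c300719118f18918117c18600a
    [[0,3], [4], [6], [2], [8], [10], [12], [15], [1], [17], [19], [21], [23], [24], [26], [29]]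
    15 5 4 1
    (.leaf 0x800000000002000000040004000000080000001000000020000000008000010000000000040000000800000010000000080000008000000100010001)
    [0x524] 16 16 = true := by
  decide +kernel

theorem j125 (A : ∀ f : CS, f.ok G = true → Hd (val S) (f.cl G))
    (A2 : ∀ f : CI, f.ok G = true → Hd (val S) (f.cl G)) (hU : ∀ c ∈ units, Hd (val S) c) :
    Hd (val S) [14, 20, 1414, 1416, 1446, 1450, 2519, 2521, 2294] :=
  stu_sound A A2 hU i125

theorem i126 : stu G units []
    [.initX 0 2 2 1]
    [14, 20, 1416, 1428, 1434, 2521, 2294] 0x47b4ec2cd2ca2c400719118f18918117c18600a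
    [[0,3], [4], [6], [2], [8], [10], [12], [15], [1], [17], [19], [21], [22], [25]]
    13 4 4 1
    (.leaf 0x8000000000800200000040000008000000020000400000000040000008000001000000080000080000010004001)
    [0x149] 14 14 = true := by
  decide +kernel

theorem j126 (A : ∀ f : CS, f.ok G = true → Hd (val S) (f.cl G))
    (A2 : ∀ f : CI, f.ok G = true → Hd (val S) (f.cl G)) (hU : ∀ c ∈ units, Hd (val S) c) :
    Hd (val S) [14, 20, 1416, 1428, 1434, 2521, 2294] :=
  stu_sound A A2 hU i126

theorem i127 : stu G units []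
    [.initX 0 3 1 1]
    [14, 24, 26, 1410, 1432, 1452, 2308] 0x4822d62cc2c100c00719118f18618117c18900d
    [[0,3], [4], [6], [8], [2], [10], [12], [15], [17], [1], [19], [21], [23], [25]]
    13 4 4 1
    (.leaf 0x8000001000000200000040000000080002000000400000000040000008000000200000400000080000010004001)
    [0x15a] 14 14 = true := by
  decide +kernel

theorem j127 (A : ∀ f : CS, f.ok G = true → Hd (val S) (f.cl G))
    (A2 : ∀ f : CI, f.ok G = true → Hd (val S) (f.cl G)) (hU : ∀ c ∈ units, Hd (val S) c) :
    Hd (val S) [14, 24, 26, 1410, 1432, 1452, 2308] :=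
  stu_sound A A2 hU i127

theorem i128 : stu G units []
    [.initX 0 4 3 1]
    [14, 38, 44, 396, 1410, 1440, 1894] 0x3b32d02c10c601600719118918618117c18f013
    [[0,3], [4], [6], [8], [10], [2], [12], [15], [1], [17], [19], [21], [23], [25]]
    13 4 4 1
    (.leaf 0x8000001000000200000040000008000000020000400000000040000000800002000000400000080000010004001)
    [0x169] 14 14 = true := by
  decide +kernel

theorem j128 (A : ∀ f : CS, f.ok G = true → Hd (val S) (f.cl G))
    (A2 : ∀ f : CI, f.ok G = true → Hd (val S) (f.cl G)) (hU : ∀ c ∈ units, Hd (val S) c) :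
    Hd (val S) [14, 38, 44, 396, 1410, 1440, 1894] :=
  stu_sound A A2 hU i128

theorem i129 : stu G units []
    [.initX 0 4 3 1]
    [14, 38, 1434, 1436, 2288] 0x4782ce2cd00719118918618117c18f013
    [[0,3], [4], [6], [8], [10], [2], [12], [15], [1], [17], [19], [21]]
    11 4 4 1
    (.leaf 0x800001000002000000080010000000040000008000200000400000800001001001)
    [0x196] 12 12 = true := by
  decide +kernel

theorem j129 (A : ∀ f : CS, f.ok G = true → Hd (val S) (f.cl G))
    (A2 : ∀ f : CI, f.ok G = true → Hd (val S) (f.cl G)) (hU : ∀ c ∈ units, Hd (val S) c) :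
    Hd (val S) [14, 38, 1434, 1436, 2288] :=
  stu_sound A A2 hU i129

theorem i130 : stu G units [.some 1 3, .legal2 0 1 3 1 3]
    [.initX 0 3 1 1]
    [14, 1416, 1432, 1434, 1436, 2308, 2302] 0x47f4822c400719118f18618117c18900d2cf2ce2cd2cc
    [[0,2,4,6], [9,7], [8,11], [12], [14], [16], [10], [18], [20], [23], [25], [1], [3], [5], [27], [29]]
    15 5 12 1
    (.leaf 0x200000000000880000001000000000080000001000000020000800000010000000000040000000800000002000000400000008000000100010001000300000000000f)
    [0xe4700a200b5cc] 16 18 = true := by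
  decide +kernel

theorem j130 (A : ∀ f : CS, f.ok G = true → Hd (val S) (f.cl G))
    (A2 : ∀ f : CI, f.ok G = true → Hd (val S) (f.cl G)) (hU : ∀ c ∈ units, Hd (val S) c) :
    Hd (val S) [14, 1416, 1432, 1434, 1436, 2308, 2302] :=
  stu_sound A A2 hU i130

theorem i131 : stu G units []
    [.initX 0 3 1 1]
    [16, 18, 26, 38, 390, 397, 1426, 1314, 1364, 2517, 2308] 0x4824ea2aa2912c90c60c301300900819118f18618117c18900d
    [[0,3], [4], [6], [8], [2], [10], [12], [15], [17], [1], [19], [21], [22], [25], [27], [29], [30], [33]]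
    17 5 4 1
    (.leaf 0x800000000000080002000000004000000008000000000000800020000000040000000000800000200000000400000000000040000000080000000020000000400000000800000001000040001)
    [0x4aa] 18 18 = true := by
  decide +kernel

theorem j131 (A : ∀ f : CS, f.ok G = true → Hd (val S) (f.cl G))
    (A2 : ∀ f : CI, f.ok G = true → Hd (val S) (f.cl G)) (hU : ∀ c ∈ units, Hd (val S) c) :
    Hd (val S) [16, 18, 26, 38, 390, 397, 1426, 1314, 1364, 2517, 2308] :=
  stu_sound A A2 hU i131

theorem i132 : stu G units []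
    [.initX 0 2 2 1]
    [16, 20, 30, 36, 38, 396, 618, 1408, 1410, 1426, 1364] 0x2aa2c92c12c01350c601301200f00819118f18918117c18600a
    [[0,3], [4], [6], [2], [8], [10], [12], [15], [1], [17], [19], [21], [23], [25], [27], [29], [31], [33]]
    17 5 4 1
    (.leaf 0x800000001000000002000000004000000008000000010000000020000000040000000080000000002000000400000000000040000000080000000100000000080000000800000001000040001)
    [0x489] 18 18 = true := by
  decide +kernel

theorem j132 (A : ∀ f : CS, f.ok G = true → Hd (val S) (f.cl G))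
    (A2 : ∀ f : CI, f.ok G = true → Hd (val S) (f.cl G)) (hU : ∀ c ∈ units, Hd (val S) c) :
    Hd (val S) [16, 20, 30, 36, 38, 396, 618, 1408, 1410, 1426, 1364] :=
  stu_sound A A2 hU i132

theorem i133 : stu G units []
    [.initX 0 2 2 1]
    [16, 20, 30, 36, 391, 612, 1424, 1426, 1432, 1364] 0x2aa2cc2c92c81320c301200f00819118f18918117c18600a
    [[0,3], [4], [6], [2], [8], [10], [12], [15], [1], [17], [19], [20], [23], [25], [27], [29], [31]]
    16 5 4 1
    (.leaf 0x8000000040000000200000001000000008000000000004000200000001000000000100000080000000000040000000200000001000000002000000080000000400020001)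
    [0x524] 17 17 = true := by
  decide +kernel

theorem j133 (A : ∀ f : CS, f.ok G = true → Hd (val S) (f.cl G))
    (A2 : ∀ f : CI, f.ok G = true → Hd (val S) (f.cl G)) (hU : ∀ c ∈ units, Hd (val S) c) :
    Hd (val S) [16, 20, 30, 36, 391, 612, 1424, 1426, 1432, 1364] :=
  stu_sound A A2 hU i133

theorem i134 : stu G units []
    [.initX 0 2 2 1]
    [16, 20, 30, 38, 396, 618, 1412, 1416, 1422, 1428, 1364] 0x2aa2ca2c72c42c21350c601300f00819118f18918117c18600a
    [[0,3], [4], [6], [2], [8], [10], [12], [15], [1], [17], [19], [21], [23], [25], [27], [29], [31], [33]]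
    17 5 4 1
    (.leaf 0x800000001000000002000000004000000008000000010000000020000000040000000080000000002000000400000000000040000000080000000100000000080000000800000001000040001)
    [0x489] 18 18 = true := by
  decide +kernel

theorem j134 (A : ∀ f : CS, f.ok G = true → Hd (val S) (f.cl G))
    (A2 : ∀ f : CI, f.ok G = true → Hd (val S) (f.cl G)) (hU : ∀ c ∈ units, Hd (val S) c) :
    Hd (val S) [16, 20, 30, 38, 396, 618, 1412, 1416, 1422, 1428, 1364] :=
  stu_sound A A2 hU i134

theorem i135 : stu G units []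
    [.initX 0 2 2 1]
    [16, 20, 30, 38, 1424, 1426, 1442, 1364, 2290, 2518] 0x4eb4792aa2d12c92c801300f00819118f18918117c18600a
    [[0,3], [4], [6], [2], [8], [10], [12], [15], [1], [17], [19], [21], [23], [25], [27], [29], [31]]
    16 5 4 1
    (.leaf 0x8000000040000000200000001000000008000000040000000200000001000000000100000080000000000040000000200000001000000002000000080000000400020001)
    [0x524] 17 17 = true := by
  decide +kernel

theorem j135 (A : ∀ f : CS, f.ok G = true → Hd (val S) (f.cl G))
    (A2 : ∀ f : CI, f.ok G = true → Hd (val S) (f.cl G)) (hU : ∀ c ∈ units, Hd (val S) c) :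
    Hd (val S) [16, 20, 30, 38, 1424, 1426, 1442, 1364, 2290, 2518] :=
  stu_sound A A2 hU i135

theorem i136 : stu G units []
    [.initX 0 2 2 1]
    [16, 20, 34, 38, 1426, 1793, 2521, 2294] 0x47b4ec3802c901301100819118f18918117c18600a
    [[0,3], [4], [6], [2], [8], [10], [12], [15], [1], [17], [19], [21], [22], [24], [27]]
    14 5 4 1
    (.leaf 0x800000000010000000800100000008000000400000000400002000000000040000002000000100000002000000800000040008001)
    [0x489] 15 15 = true := by
  decide +kernel

theorem j136 (A : ∀ f : CS, f.ok G = true → Hd (val S) (f.cl G))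
    (A2 : ∀ f : CI, f.ok G = true → Hd (val S) (f.cl G)) (hU : ∀ c ∈ units, Hd (val S) c) :
    Hd (val S) [16, 20, 34, 38, 1426, 1793, 2521, 2294] :=
  stu_sound A A2 hU i136

theorem i137 : stu G units []
    [.initX 0 2 2 1]
    [16, 20, 38, 1424, 1426, 1364, 2517, 2288] 0x4784ea2aa2c92c801300819118f18918117c18600a
    [[0,3], [4], [6], [2], [8], [10], [12], [15], [1], [17], [19], [21], [23], [24], [27]]
    14 5 4 1
    (.leaf 0x800000000010002000000100000008000000400000000400002000000000040000002000000100000002000000800000040008001)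
    [0x489] 15 15 = true := by
  decide +kernel

theorem j137 (A : ∀ f : CS, f.ok G = true → Hd (val S) (f.cl G))
    (A2 : ∀ f : CI, f.ok G = true → Hd (val S) (f.cl G)) (hU : ∀ c ∈ units, Hd (val S) c) :
    Hd (val S) [16, 20, 38, 1424, 1426, 1364, 2517, 2288] :=
  stu_sound A A2 hU i137

theorem i138 : stu G units []
    [.initX 0 4 3 1]
    [16, 30, 38, 396, 432, 1416, 1422, 1428, 1364] 0x2aa2ca2c72c40d80c600f00819118918618117c18f013
    [[0,3], [4], [6], [8], [10], [2], [12], [15], [17], [1], [19], [21], [23], [25], [27], [29]]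
    15 5 4 1
    (.leaf 0x800000010000000200000004000000080000001000000000200000800000010000000000040000000080000020000000400000008000000100010001)
    [0x546] 16 16 = true := by
  decide +kernel

theorem j138 (A : ∀ f : CS, f.ok G = true → Hd (val S) (f.cl G))
    (A2 : ∀ f : CI, f.ok G = true → Hd (val S) (f.cl G)) (hU : ∀ c ∈ units, Hd (val S) c) :
    Hd (val S) [16, 30, 38, 396, 432, 1416, 1422, 1428, 1364] :=
  stu_sound A A2 hU i138

theorem i139 : stu G units []
    [.initX 0 2 2 1]
    [18, 20, 38, 499, 1408, 1410, 1424, 1426, 1365, 2290, 2302] 0x47f4792aa2c92c82c12c00f901300919118f18918117c18600a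
    [[0,3], [4], [6], [2], [8], [10], [12], [15], [1], [17], [18], [21], [23], [25], [27], [28], [31], [33]]
    17 5 4 1
    (.leaf 0x800000001000000000000100004000000008000000010000000020000000000002000080000000002000000400000000000040000000080000000100000000080000000800000001000040001)
    [0x489] 18 18 = true := by
  decide +kernel

theorem j139 (A : ∀ f : CS, f.ok G = true → Hd (val S) (f.cl G))
    (A2 : ∀ f : CI, f.ok G = true → Hd (val S) (f.cl G)) (hU : ∀ c ∈ units, Hd (val S) c) :
    Hd (val S) [18, 20, 38, 499, 1408, 1410, 1424, 1426, 1365, 2290, 2302] :=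
  stu_sound A A2 hU i139

theorem i140 : stu G units []
    [.initX 0 2 2 1]
    [18, 20, 38, 1424, 1426, 1432, 1365, 2288] 0x4782aa2cc2c92c801300919118f18918117c18600a
    [[0,3], [4], [6], [2], [8], [10], [12], [15], [1], [17], [19], [21], [23], [24], [27]]
    14 5 4 1
    (.leaf 0x800000000010002000000100000008000000400000000400002000000000040000002000000100000002000000800000040008001)
    [0x489] 15 15 = true := by
  decide +kernel

theorem j140 (A : ∀ f : CS, f.ok G = true → Hd (val S) (f.cl G))
    (A2 : ∀ f : CI, f.ok G = true → Hd (val S) (f.cl G)) (hU : ∀ c ∈ units, Hd (val S) c) :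
    Hd (val S) [18, 20, 38, 1424, 1426, 1432, 1365, 2288] :=
  stu_sound A A2 hU i140

theorem i141 : stu G units []
    [.initX 0 3 1 1]
    [18, 26, 30, 38, 390, 397, 1426, 1364, 2517, 2308] 0x4824ea2aa2c90c60c301300f00919118f18618117c18900d
    [[0,3], [4], [6], [8], [2], [10], [12], [15], [1], [17], [19], [21], [22], [25], [27], [28], [31]]
    16 5 4 1
    (.leaf 0x8000000000004000200000001000000000000800040000000200000001000000000100000080000000000040000000200000000200000010000000080000000400020001)
    [0x525] 17 17 = true := by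
  decide +kernel

theorem j141 (A : ∀ f : CS, f.ok G = true → Hd (val S) (f.cl G))
    (A2 : ∀ f : CI, f.ok G = true → Hd (val S) (f.cl G)) (hU : ∀ c ∈ units, Hd (val S) c) :
    Hd (val S) [18, 26, 30, 38, 390, 397, 1426, 1364, 2517, 2308] :=
  stu_sound A A2 hU i141

theorem i142 : stu G units []
    [.initX 0 2 2 1]
    [20, 24, 32, 38, 1426, 1793, 2521, 2294] 0x47b4ec3802c901301000c19118f18918117c18600a
    [[0,3], [4], [6], [2], [8], [10], [12], [1], [15], [17], [19], [21], [22], [24], [27]]
    14 5 4 1
    (.leaf 0x800000000010000000800100000008000000400000020000000040000000040000002000000100000002000000800000040008001)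
    [0x488] 15 15 = true := by
  decide +kernel

theorem j142 (A : ∀ f : CS, f.ok G = true → Hd (val S) (f.cl G))
    (A2 : ∀ f : CI, f.ok G = true → Hd (val S) (f.cl G)) (hU : ∀ c ∈ units, Hd (val S) c) :
    Hd (val S) [20, 24, 32, 38, 1426, 1793, 2521, 2294] :=
  stu_sound A A2 hU i142

theorem i143 : stu G units []
    [.initX 0 2 2 1]
    [20, 32, 38, 1410, 1412, 1422, 1424, 1364, 2290] 0x4792aa2c82c72c22c101301019118f18918117c18600a
    [[0,3], [4], [6], [2], [8], [10], [12], [1], [15], [17], [19], [21], [23], [25], [27], [29]]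
    15 5 4 1
    (.leaf 0x800000010000000200000004000000080000001000000020000000400000000200000000040000000800000010000000080000008000000100010001)
    [0x504] 16 16 = true := by
  decide +kernel

theorem j143 (A : ∀ f : CS, f.ok G = true → Hd (val S) (f.cl G))
    (A2 : ∀ f : CI, f.ok G = true → Hd (val S) (f.cl G)) (hU : ∀ c ∈ units, Hd (val S) c) :
    Hd (val S) [20, 32, 38, 1410, 1412, 1422, 1424, 1364, 2290] :=
  stu_sound A A2 hU i143

theorem i144 : stu G units []
    [.initX 0 2 2 1]
    [20, 38, 1408, 1412, 1424, 1426, 1452, 1865, 2521, 2294] 0x47b4ec3a42d62c92c82c22c001319118f18918117c18600a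
    [[0,3], [4], [6], [2], [8], [10], [12], [1], [15], [17], [19], [21], [23], [25], [26], [28], [31]]
    16 5 4 1
    (.leaf 0x8000000000004000000020001000000008000000040000000200000001000000008000000001000000000040000000200000001000000002000000080000000400020001)
    [0x504] 17 17 = true := by
  decide +kernel

theorem j144 (A : ∀ f : CS, f.ok G = true → Hd (val S) (f.cl G))
    (A2 : ∀ f : CI, f.ok G = true → Hd (val S) (f.cl G)) (hU : ∀ c ∈ units, Hd (val S) c) :
    Hd (val S) [20, 38, 1408, 1412, 1424, 1426, 1452, 1865, 2521, 2294] :=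
  stu_sound A A2 hU i144

theorem i145 : stu G units []
    [.initX 0 2 2 1]
    [20, 38, 1424, 1426, 1434, 1793, 2521, 2294] 0x47b4ec3802cd2c92c801319118f18918117c18600a
    [[0,3], [4], [6], [2], [8], [10], [12], [1], [15], [17], [19], [21], [22], [24], [27]]
    14 5 4 1
    (.leaf 0x800000000010000000800100000008000000400000020000000040000000040000002000000100000002000000800000040008001)
    [0x488] 15 15 = true := by
  decide +kernel

theorem j145 (A : ∀ f : CS, f.ok G = true → Hd (val S) (f.cl G))
    (A2 : ∀ f : CI, f.ok G = true → Hd (val S) (f.cl G)) (hU : ∀ c ∈ units, Hd (val S) c) :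
    Hd (val S) [20, 38, 1424, 1426, 1434, 1793, 2521, 2294] :=
  stu_sound A A2 hU i145

theorem i146 : stu G units []
    [.initX 0 2 2 1]
    [20, 38, 1424, 1426, 1440, 1811, 2518] 0x4eb3892d02c92c801319118f18918117c18600a
    [[0,3], [4], [6], [2], [8], [10], [12], [1], [15], [17], [19], [21], [22], [25]]
    13 4 4 1
    (.leaf 0x8000000000800200000040000008000001000000008000000040000008000001000000080000080000010004001)
    [0x148] 14 14 = true := by
  decide +kernel

theorem j146 (A : ∀ f : CS, f.ok G = true → Hd (val S) (f.cl G))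
    (A2 : ∀ f : CI, f.ok G = true → Hd (val S) (f.cl G)) (hU : ∀ c ∈ units, Hd (val S) c) :
    Hd (val S) [20, 38, 1424, 1426, 1440, 1811, 2518] :=
  stu_sound A A2 hU i146

theorem i147 : stu G units []
    [.initX 0 2 2 1]
    [20, 38, 1424, 1426, 1440, 1811, 2521, 2294] 0x47b4ec3892d02c92c801319118f18918117c18600a
    [[0,3], [4], [6], [2], [8], [10], [12], [1], [15], [17], [19], [21], [22], [24], [27]]
    14 5 4 1
    (.leaf 0x800000000010000000800100000008000000400000020000000040000000040000002000000100000002000000800000040008001)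
    [0x488] 15 15 = true := by
  decide +kernel

theorem j147 (A : ∀ f : CS, f.ok G = true → Hd (val S) (f.cl G))
    (A2 : ∀ f : CI, f.ok G = true → Hd (val S) (f.cl G)) (hU : ∀ c ∈ units, Hd (val S) c) :
    Hd (val S) [20, 38, 1424, 1426, 1440, 1811, 2521, 2294] :=
  stu_sound A A2 hU i147

theorem i148 : stu G units []
    [.initX 0 2 2 1]
    [20, 38, 1424, 1426, 1440, 1865, 2518] 0x4eb3a42d02c92c801319118f18918117c18600a
    [[0,3], [4], [6], [2], [8], [10], [12], [1], [15], [17], [19], [21], [22], [25]]
    13 4 4 1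
    (.leaf 0x8000000000800200000040000008000001000000008000000040000008000001000000080000080000010004001)
    [0x148] 14 14 = true := by
  decide +kernel

theorem j148 (A : ∀ f : CS, f.ok G = true → Hd (val S) (f.cl G))
    (A2 : ∀ f : CI, f.ok G = true → Hd (val S) (f.cl G)) (hU : ∀ c ∈ units, Hd (val S) c) :
    Hd (val S) [20, 38, 1424, 1426, 1440, 1865, 2518] :=
  stu_sound A A2 hU i148

theorem i149 : stu G units []
    [.initX 0 2 2 1]
    [20, 38, 1424, 1426, 1440, 1883, 2518] 0x4eb3ad2d02c92c801319118f18918117c18600a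
    [[0,3], [4], [6], [2], [8], [10], [12], [1], [15], [17], [19], [21], [22], [25]]
    13 4 4 1
    (.leaf 0x8000000000800200000040000008000001000000008000000040000008000001000000080000080000010004001)
    [0x148] 14 14 = true := by
  decide +kernel

theorem j149 (A : ∀ f : CS, f.ok G = true → Hd (val S) (f.cl G))
    (A2 : ∀ f : CI, f.ok G = true → Hd (val S) (f.cl G)) (hU : ∀ c ∈ units, Hd (val S) c) :
    Hd (val S) [20, 38, 1424, 1426, 1440, 1883, 2518] :=
  stu_sound A A2 hU i149

theorem i150 : stu G units []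
    [.initX 0 2 2 1]
    [20, 38, 1424, 1426, 1440, 1883, 2521, 2294] 0x47b4ec3ad2d02c92c801319118f18918117c18600a
    [[0,3], [4], [6], [2], [8], [10], [12], [1], [15], [17], [19], [21], [22], [24], [27]]
    14 5 4 1
    (.leaf 0x800000000010000000800100000008000000400000020000000040000000040000002000000100000002000000800000040008001)
    [0x488] 15 15 = true := by
  decide +kernel

theorem j150 (A : ∀ f : CS, f.ok G = true → Hd (val S) (f.cl G))
    (A2 : ∀ f : CI, f.ok G = true → Hd (val S) (f.cl G)) (hU : ∀ c ∈ units, Hd (val S) c) :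
    Hd (val S) [20, 38, 1424, 1426, 1440, 1883, 2521, 2294] :=
  stu_sound A A2 hU i150

theorem i151 : stu G units []
    [.initX 0 2 2 1]
    [20, 38, 1424, 1426, 1440, 1936, 1943, 2074, 2290] 0x47940d3cb3c82d02c92c801319118f18918117c18600a
    [[0,3], [4], [6], [2], [8], [10], [12], [1], [15], [17], [19], [21], [23], [24], [27], [29]]
    15 5 4 1
    (.leaf 0x800000010000000000040004000000080000001000000020000000400000000200000000040000000800000010000000080000008000000100010001)
    [0x504] 16 16 = true := by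
  decide +kernel

theorem j151 (A : ∀ f : CS, f.ok G = true → Hd (val S) (f.cl G))
    (A2 : ∀ f : CI, f.ok G = true → Hd (val S) (f.cl G)) (hU : ∀ c ∈ units, Hd (val S) c) :
    Hd (val S) [20, 38, 1424, 1426, 1440, 1936, 1943, 2074, 2290] :=
  stu_sound A A2 hU i151

theorem i152 : stu G units []
    [.initX 0 2 2 1]
    [20, 1408, 1410, 1424, 1426, 1432, 1446, 2520] 0x4ec2d32cc2c92c82c12c019118f18918117c18600a
    [[0,3], [4], [6], [2], [8], [10], [12], [1], [15], [17], [19], [21], [23], [25], [27]]
    14 5 4 1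
    (.leaf 0x800000040000002000000100000008000000400000020000000040000000040000002000000100000002000000800000040008001)
    [0x488] 15 15 = true := by
  decide +kernel

theorem j152 (A : ∀ f : CS, f.ok G = true → Hd (val S) (f.cl G))
    (A2 : ∀ f : CI, f.ok G = true → Hd (val S) (f.cl G)) (hU : ∀ c ∈ units, Hd (val S) c) :
    Hd (val S) [20, 1408, 1410, 1424, 1426, 1432, 1446, 2520] :=
  stu_sound A A2 hU i152

theorem i153 : stu G units []
    [.initX 0 2 2 1]
    [20, 1408, 1410, 1424, 1426, 1446, 2201, 2519, 2302] 0x47f4eb44c2d32c92c82c12c019118f18918117c18600a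
    [[0,3], [4], [6], [2], [8], [10], [12], [1], [15], [17], [19], [21], [23], [24], [26], [29]]
    15 5 4 1
    (.leaf 0x800000000002000000040004000000080000001000000020000000400000000200000000040000000800000010000000080000008000000100010001)
    [0x504] 16 16 = true := by
  decide +kernel

theorem j153 (A : ∀ f : CS, f.ok G = true → Hd (val S) (f.cl G))
    (A2 : ∀ f : CI, f.ok G = true → Hd (val S) (f.cl G)) (hU : ∀ c ∈ units, Hd (val S) c) :
    Hd (val S) [20, 1408, 1410, 1424, 1426, 1446, 2201, 2519, 2302] :=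
  stu_sound A A2 hU i153

theorem i154 : stu G units []
    [.initX 0 2 2 1]
    [20, 1408, 1410, 1424, 1426, 1446, 2519, 2300] 0x47e4eb2d32c92c82c12c019118f18918117c18600a
    [[0,3], [4], [6], [2], [8], [10], [12], [1], [15], [17], [19], [21], [23], [24], [27]]
    14 5 4 1
    (.leaf 0x800000000010002000000100000008000000400000020000000040000000040000002000000100000002000000800000040008001)
    [0x488] 15 15 = true := by
  decide +kernel

theorem j154 (A : ∀ f : CS, f.ok G = true → Hd (val S) (f.cl G))
    (A2 : ∀ f : CI, f.ok G = true → Hd (val S) (f.cl G)) (hU : ∀ c ∈ units, Hd (val S) c) :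
    Hd (val S) [20, 1408, 1410, 1424, 1426, 1446, 2519, 2300] :=
  stu_sound A A2 hU i154

theorem i155 : stu G units []
    [.initX 0 2 2 1]
    [20, 1410, 1412, 1422, 1424, 1434, 1438, 1446, 2521] 0x4ec2d32cf2cd2c82c72c22c119118f18918117c18600a
    [[0,3], [4], [6], [2], [8], [10], [12], [1], [15], [17], [19], [21], [23], [25], [27], [28]]
    15 5 4 1
    (.leaf 0x100010000000200000004000000080000001000000020000000400000000200000000040000000800000010000000080000008000000100010001)
    [0x504] 16 16 = true := by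
  decide +kernel

theorem j155 (A : ∀ f : CS, f.ok G = true → Hd (val S) (f.cl G))
    (A2 : ∀ f : CI, f.ok G = true → Hd (val S) (f.cl G)) (hU : ∀ c ∈ units, Hd (val S) c) :
    Hd (val S) [20, 1410, 1412, 1422, 1424, 1434, 1438, 1446, 2521] :=
  stu_sound A A2 hU i155

theorem i156 : stu G units []
    [.initX 0 2 2 1]
    [20, 1412, 1424, 1426, 1793, 2290, 2518] 0x4eb4793802c92c82c219118f18918117c18600a
    [[0,3], [4], [6], [2], [8], [10], [12], [1], [15], [17], [19], [20], [23], [25]]
    13 4 4 1
    (.leaf 0x8000001000000000100040000008000001000000008000000040000008000001000000080000080000010004001)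
    [0x148] 14 14 = true := by
  decide +kernel

theorem j156 (A : ∀ f : CS, f.ok G = true → Hd (val S) (f.cl G))
    (A2 : ∀ f : CI, f.ok G = true → Hd (val S) (f.cl G)) (hU : ∀ c ∈ units, Hd (val S) c) :
    Hd (val S) [20, 1412, 1424, 1426, 1793, 2290, 2518] :=
  stu_sound A A2 hU i156

theorem i157 : stu G units []
    [.initX 0 2 2 1]
    [20, 1412, 1424, 1426, 1793, 2290, 2521, 2294] 0x47b4ec4793802c92c82c219118f18918117c18600a
    [[0,3], [4], [6], [2], [8], [10], [12], [1], [15], [17], [19], [20], [23], [24], [27]]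
    14 5 4 1
    (.leaf 0x800000000010002000000000040008000000400000020000000040000000040000002000000100000002000000800000040008001)
    [0x488] 15 15 = true := by
  decide +kernel

theorem j157 (A : ∀ f : CS, f.ok G = true → Hd (val S) (f.cl G))
    (A2 : ∀ f : CI, f.ok G = true → Hd (val S) (f.cl G)) (hU : ∀ c ∈ units, Hd (val S) c) :
    Hd (val S) [20, 1412, 1424, 1426, 1793, 2290, 2521, 2294] :=
  stu_sound A A2 hU i157

theorem i158 : stu G units []
    [.initX 0 2 2 1]
    [20, 1412, 1424, 1426, 1865, 2290, 2518] 0x4eb4793a42c92c82c219118f18918117c18600a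
    [[0,3], [4], [6], [2], [8], [10], [12], [1], [15], [17], [19], [20], [23], [25]]
    13 4 4 1
    (.leaf 0x8000001000000000100040000008000001000000008000000040000008000001000000080000080000010004001)
    [0x148] 14 14 = true := by
  decide +kernel

theorem j158 (A : ∀ f : CS, f.ok G = true → Hd (val S) (f.cl G))
    (A2 : ∀ f : CI, f.ok G = true → Hd (val S) (f.cl G)) (hU : ∀ c ∈ units, Hd (val S) c) :
    Hd (val S) [20, 1412, 1424, 1426, 1865, 2290, 2518] :=
  stu_sound A A2 hU i158

theorem i159 : stu G units []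
    [.initX 0 2 2 1]
    [20, 1412, 1424, 1426, 1883, 2290, 2518] 0x4eb4793ad2c92c82c219118f18918117c18600a
    [[0,3], [4], [6], [2], [8], [10], [12], [1], [15], [17], [19], [20], [23], [25]]
    13 4 4 1
    (.leaf 0x8000001000000000100040000008000001000000008000000040000008000001000000080000080000010004001)
    [0x148] 14 14 = true := by
  decide +kernel

theorem j159 (A : ∀ f : CS, f.ok G = true → Hd (val S) (f.cl G))
    (A2 : ∀ f : CI, f.ok G = true → Hd (val S) (f.cl G)) (hU : ∀ c ∈ units, Hd (val S) c) :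
    Hd (val S) [20, 1412, 1424, 1426, 1883, 2290, 2518] :=
  stu_sound A A2 hU i159

theorem i160 : stu G units []
    [.initX 0 2 2 1]
    [20, 1412, 1424, 1426, 1883, 2290, 2521, 2294] 0x47b4ec4793ad2c92c82c219118f18918117c18600a
    [[0,3], [4], [6], [2], [8], [10], [12], [1], [15], [17], [19], [20], [23], [24], [27]]
    14 5 4 1
    (.leaf 0x800000000010002000000000040008000000400000020000000040000000040000002000000100000002000000800000040008001)
    [0x488] 15 15 = true := by
  decide +kernel

theorem j160 (A : ∀ f : CS, f.ok G = true → Hd (val S) (f.cl G))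
    (A2 : ∀ f : CI, f.ok G = true → Hd (val S) (f.cl G)) (hU : ∀ c ∈ units, Hd (val S) c) :
    Hd (val S) [20, 1412, 1424, 1426, 1883, 2290, 2521, 2294] :=
  stu_sound A A2 hU i160

theorem i161 : stu G units []
    [.initX 0 2 2 1]
    [20, 1424, 1426, 1432, 1446, 2290, 2520] 0x4ec4792d32cc2c92c819118f18918117c18600a
    [[0,3], [4], [6], [2], [8], [10], [12], [1], [15], [17], [19], [21], [23], [25]]
    13 4 4 1
    (.leaf 0x8000001000000200000040000008000001000000008000000040000008000001000000080000080000010004001)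
    [0x148] 14 14 = true := by
  decide +kernel

theorem j161 (A : ∀ f : CS, f.ok G = true → Hd (val S) (f.cl G))
    (A2 : ∀ f : CI, f.ok G = true → Hd (val S) (f.cl G)) (hU : ∀ c ∈ units, Hd (val S) c) :
    Hd (val S) [20, 1424, 1426, 1432, 1446, 2290, 2520] :=
  stu_sound A A2 hU i161

theorem i162 : stu G units []
    [.initX 0 2 2 1]
    [20, 1424, 1426, 2288, 2518] 0x4eb4782c92c819118f18918117c18600a
    [[0,3], [4], [6], [2], [8], [10], [12], [1], [15], [17], [19], [21]]
    11 4 4 1
    (.leaf 0x800001000002000004000000200000040000080000100000080000800001001001)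
    [0x184] 12 12 = true := by
  decide +kernel

theorem j162 (A : ∀ f : CS, f.ok G = true → Hd (val S) (f.cl G))
    (A2 : ∀ f : CI, f.ok G = true → Hd (val S) (f.cl G)) (hU : ∀ c ∈ units, Hd (val S) c) :
    Hd (val S) [20, 1424, 1426, 2288, 2518] :=
  stu_sound A A2 hU i162

theorem i163 : stu G units []
    [.initX 0 3 1 1]
    [24, 26, 396, 1410, 1412, 1454, 1804] 0x3862d72c22c10c600c19118f18618117c18900d
    [[0,3], [4], [6], [8], [2], [10], [12], [15], [1], [17], [19], [21], [23], [25]]
    13 4 4 1
    (.leaf 0x8000001000000200000040000008000000020000400000000040000008000000200000400000080000010004001)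
    [0x159] 14 14 = true := by
  decide +kernel

theorem j163 (A : ∀ f : CS, f.ok G = true → Hd (val S) (f.cl G))
    (A2 : ∀ f : CI, f.ok G = true → Hd (val S) (f.cl G)) (hU : ∀ c ∈ units, Hd (val S) c) :
    Hd (val S) [24, 26, 396, 1410, 1412, 1454, 1804] :=
  stu_sound A A2 hU i163

theorem i164 : stu G units []
    [.initX 0 3 1 1]
    [24, 26, 397, 1410, 1412, 1454, 1822] 0x38f2d72c22c10c600c19118f18618117c18900d
    [[0,3], [4], [6], [8], [2], [10], [12], [15], [1], [16], [19], [21], [23], [25]]
    13 4 4 1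
    (.leaf 0x8000001000000200000040000000004000020000400000000040000008000000200000400000080000010004001)
    [0x159] 14 14 = true := by
  decide +kernel

theorem j164 (A : ∀ f : CS, f.ok G = true → Hd (val S) (f.cl G))
    (A2 : ∀ f : CI, f.ok G = true → Hd (val S) (f.cl G)) (hU : ∀ c ∈ units, Hd (val S) c) :
    Hd (val S) [24, 26, 397, 1410, 1412, 1454, 1822] :=
  stu_sound A A2 hU i164

theorem i165 : stu G units []
    [.initX 0 3 1 1]
    [24, 26, 397, 1410, 1412, 1454, 1876] 0x3aa2d72c22c10c600c19118f18618117c18900d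
    [[0,3], [4], [6], [8], [2], [10], [12], [15], [1], [16], [19], [21], [23], [25]]
    13 4 4 1
    (.leaf 0x8000001000000200000040000000004000020000400000000040000008000000200000400000080000010004001)
    [0x159] 14 14 = true := by
  decide +kernel

theorem j165 (A : ∀ f : CS, f.ok G = true → Hd (val S) (f.cl G))
    (A2 : ∀ f : CI, f.ok G = true → Hd (val S) (f.cl G)) (hU : ∀ c ∈ units, Hd (val S) c) :
    Hd (val S) [24, 26, 397, 1410, 1412, 1454, 1876] :=
  stu_sound A A2 hU i165

theorem i166 : stu G units []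
    [.initX 0 3 1 1]
    [24, 26, 1410, 1422, 1432, 2296] 0x47c2cc2c72c100c19118f18618117c18900d
    [[0,3], [4], [6], [8], [2], [10], [12], [15], [1], [17], [19], [21], [23]]
    12 4 6 1
    (.leaf 0x1800000400000200000100000001000080000000040000020000002000010000008000004002001)
    [0x9e015] 13 14 = true := by
  decide +kernel

theorem j166 (A : ∀ f : CS, f.ok G = true → Hd (val S) (f.cl G))
    (A2 : ∀ f : CI, f.ok G = true → Hd (val S) (f.cl G)) (hU : ∀ c ∈ units, Hd (val S) c) :
    Hd (val S) [24, 26, 1410, 1422, 1432, 2296] :=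
  stu_sound A A2 hU i166

theorem i167 : stu G units []
    [.initX 0 4 3 1]
    [24, 30, 38, 397, 602, 612, 1365] 0x2aa13212d0c600f00c19118918618117c18f013
    [[0,3], [4], [6], [8], [10], [2], [12], [15], [17], [1], [18], [21], [23], [24]]
    13 4 4 1
    (.leaf 0x4001000000200000000020000080002000000400000000040000000800002000000400000080000010004001)
    [0x16a] 14 14 = true := by
  decide +kernel

theorem j167 (A : ∀ f : CS, f.ok G = true → Hd (val S) (f.cl G))
    (A2 : ∀ f : CI, f.ok G = true → Hd (val S) (f.cl G)) (hU : ∀ c ∈ units, Hd (val S) c) :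
    Hd (val S) [24, 30, 38, 397, 602, 612, 1365] :=
  stu_sound A A2 hU i167

theorem i168 : stu G units []
    [.initX 0 4 3 1]
    [24, 36, 38, 397, 510, 1365] 0x2aa0ff0c601200c19118918618117c18f013
    [[0,3], [4], [6], [8], [10], [2], [12], [15], [17], [1], [18], [21], [22]]
    12 4 6 1
    (.leaf 0x1000800400000000200001000100000080000000040000002000020000010000008000004002001)
    [0xae016] 13 14 = true := by
  decide +kernel

theorem j168 (A : ∀ f : CS, f.ok G = true → Hd (val S) (f.cl G))
    (A2 : ∀ f : CI, f.ok G = true → Hd (val S) (f.cl G)) (hU : ∀ c ∈ units, Hd (val S) c) :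
    Hd (val S) [24, 36, 38, 397, 510, 1365] :=
  stu_sound A A2 hU i168

theorem i169 : stu G units []
    [.initX 0 4 3 1]
    [24, 38, 390, 397, 612, 1315, 1365] 0x2aa2911320c60c300c19118918618117c18f013
    [[0,3], [4], [6], [8], [10], [2], [12], [15], [1], [17], [18], [21], [22], [24]]
    13 4 4 1
    (.leaf 0x4000000800200000000020008000000020000400000000040000000800002000000400000080000010004001)
    [0x169] 14 14 = true := by
  decide +kernel

theorem j169 (A : ∀ f : CS, f.ok G = true → Hd (val S) (f.cl G))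
    (A2 : ∀ f : CI, f.ok G = true → Hd (val S) (f.cl G)) (hU : ∀ c ∈ units, Hd (val S) c) :
    Hd (val S) [24, 38, 390, 397, 612, 1315, 1365] :=
  stu_sound A A2 hU i169

theorem i170 : stu G units []
    [.initX 0 4 3 1]
    [24, 38, 390, 397, 1424, 1426, 1428, 1434, 1436, 1315, 1365, 2308] 0x4822aa2912ce2cd2ca2c92c80c60c300c19118918618117c18f013
    [[0,3], [4], [6], [8], [10], [2], [12], [15], [1], [17], [18], [21], [23], [25], [27], [29], [30], [32], [35]]
    18 5 4 1
    (.leaf 0x800000000000010000000008000100000000080000000040000000020000000010000000000000200004000000000040000002000000000000040000000002000000020000000010000000008000000004000080001)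
    [0x526] 19 19 = true := by
  decide +kernel

theorem j170 (A : ∀ f : CS, f.ok G = true → Hd (val S) (f.cl G))
    (A2 : ∀ f : CI, f.ok G = true → Hd (val S) (f.cl G)) (hU : ∀ c ∈ units, Hd (val S) c) :
    Hd (val S) [24, 38, 390, 397, 1424, 1426, 1428, 1434, 1436, 1315, 1365, 2308] :=
  stu_sound A A2 hU i170

theorem i171 : stu G units []
    [.initX 0 3 1 1]
    [26, 36, 38, 397, 510, 1364] 0x2aa0ff0c601301219118f18618117c18900d
    [[0,3], [4], [6], [8], [2], [10], [12], [1], [15], [17], [18], [21], [23]]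
    12 4 6 1
    (.leaf 0x1800000400000000200100000080000001000000040000020000002000010000008000004002001)
    [0x8e015] 13 14 = true := by
  decide +kernel

theorem j171 (A : ∀ f : CS, f.ok G = true → Hd (val S) (f.cl G))
    (A2 : ∀ f : CI, f.ok G = true → Hd (val S) (f.cl G)) (hU : ∀ c ∈ units, Hd (val S) c) :
    Hd (val S) [26, 36, 38, 397, 510, 1364] :=
  stu_sound A A2 hU i171

theorem i172 : stu G units []
    [.initX 0 3 1 1]
    [26, 38, 390, 397, 612, 1314, 1364] 0x2aa2911320c60c301319118f18618117c18900d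
    [[0,3], [4], [6], [8], [2], [10], [12], [1], [15], [17], [18], [21], [23], [25]]
    13 4 4 1
    (.leaf 0x8000001000000200000000020008000001000000008000000040000008000000200000400000080000010004001)
    [0x158] 14 14 = true := by
  decide +kernel

theorem j172 (A : ∀ f : CS, f.ok G = true → Hd (val S) (f.cl G))
    (A2 : ∀ f : CI, f.ok G = true → Hd (val S) (f.cl G)) (hU : ∀ c ∈ units, Hd (val S) c) :
    Hd (val S) [26, 38, 390, 397, 612, 1314, 1364] :=
  stu_sound A A2 hU i172

theorem i173 : stu G units []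
    [.initX 0 4 3 1]
    [30, 32, 38, 390, 397, 612, 1364] 0x2aa1320c60c301000f19118918618117c18f013
    [[0,3], [4], [6], [8], [10], [2], [12], [15], [17], [1], [19], [20], [23], [25]]
    13 4 4 1
    (.leaf 0x8000001000000000100040000000080002000000400000000040000000800002000000400000080000010004001)
    [0x16a] 14 14 = true := by
  decide +kernel

theorem j173 (A : ∀ f : CS, f.ok G = true → Hd (val S) (f.cl G))
    (A2 : ∀ f : CI, f.ok G = true → Hd (val S) (f.cl G)) (hU : ∀ c ∈ units, Hd (val S) c) :
    Hd (val S) [30, 32, 38, 390, 397, 612, 1364] :=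
  stu_sound A A2 hU i173

theorem i174 : stu G units []
    [.initX 0 4 3 1]
    [30, 34, 38, 396, 408, 618, 1365] 0x2aa1350cc0c601100f19118918618117c18f013
    [[0,3], [4], [6], [8], [10], [2], [12], [15], [17], [1], [19], [21], [23], [24]]
    13 4 4 1
    (.leaf 0x4001000000200000040000000080002000000400000000040000000800002000000400000080000010004001)
    [0x16a] 14 14 = true := by
  decide +kernel

theorem j174 (A : ∀ f : CS, f.ok G = true → Hd (val S) (f.cl G))
    (A2 : ∀ f : CI, f.ok G = true → Hd (val S) (f.cl G)) (hU : ∀ c ∈ units, Hd (val S) c) :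
    Hd (val S) [30, 34, 38, 396, 408, 618, 1365] :=
  stu_sound A A2 hU i174

theorem i175 : stu G units []
    [.initX 0 4 3 1]
    [30, 34, 38, 396, 408, 1424, 1426, 1428, 1365, 2517, 2308] 0x4824ea2aa2ca2c92c80cc0c601100f19118918618117c18f013
    [[0,3], [4], [6], [8], [10], [2], [12], [15], [17], [1], [19], [21], [23], [25], [27], [28], [30], [33]]
    17 5 4 1
    (.leaf 0x800000000000080000000100004000000008000000010000000020000000040000000000800000200000000400000000000040000000008000000200000000400000000800000001000040001)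
    [0x4ca] 18 18 = true := by
  decide +kernel

theorem j175 (A : ∀ f : CS, f.ok G = true → Hd (val S) (f.cl G))
    (A2 : ∀ f : CI, f.ok G = true → Hd (val S) (f.cl G)) (hU : ∀ c ∈ units, Hd (val S) c) :
    Hd (val S) [30, 34, 38, 396, 408, 1424, 1426, 1428, 1365, 2517, 2308] :=
  stu_sound A A2 hU i175

theorem i176 : stu G units [.some 1 0, .some 1 2, .some 1 4, .some 1 5, .legal 1 4 0, .legal 1 5 1, .legal2 0 1 0 0 3, .legal2 0 1 2 2 0, .legal2 0 1 2 2 2, .legal2 0 1 4 3 1, .legal2 0 1 4 3 2, .legal2 0 1 5 1 3, .mix 1 0 3 2, .mix 1 0 3 5, .mix 1 1 3 2, .mix 1 1 3 5, .letlab 1 2 1 2, .letlab 1 5 0 0, .letlab 1 5 0 3]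
    [.initX 0 0 0 1, .initX 0 2 2 1, .initX 0 4 3 1, .initX 0 5 1 1]
    [30, 1408, 1412, 1422, 1426, 1432, 1446, 2519, 2300] 0x47e4eb2cc2c700f18918119118f18617c3b33aa3e038f3e938601501300a0002d72d62d52d42d32d22d12d02cb2ca2c92c82c32c22c12c0
    [[0,2,4,6], [8,10,12,14], [16,18,20,22], [24,26,28,30], [17,25], [3,27], [33,7], [35,9], [35,13], [37,19], [37,21], [39,31], [41,43], [45,47], [49,43], [51,47], [15,46,42], [29,44,50], [29,40,48], [32,53], [34,55], [36,57], [38,59], [52], [60], [54], [62], [56], [58], [65], [1], [5], [67], [11], [69], [23], [70], [73]]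
    37 6 76 1
    (.leaf 0x1000000000000000000080000000000000000000000000020000000004000000000000000000000000000010000000002000000000000000000000000000040000000000000000008000000100000000000000000000000000000020000040000000000000000000000000080000000000200000000000000000040000000000000000000000001000000000000800000000000000000080000000000000000000000020000000000004000000000000000000000001000080000000000000000000000000008000000000000004000000000000800000000000000000000000010000000000040000000000000000000000000200000000000000000020000000000800000000000000000000000000020000000000000000004000000000000000008000000000000000000200000000000000000400000000000000000010000000040000000000080000008000000000010000001000000000002000000200000000000400000000080000011000000000020000009000000000000100000a00000001400000000000000000240000000000000000060000000000000000006000000000000000000440000000000000000080800000000000000020100000000000000004008000000000000001000800000000000000200100000000000000010010000000000000002200000000000000000000000003c000000000000000000f0000000000000000003c000000000000000000f)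
    [0x12dbae4043800ee00473dc04cf376004c32d40174003b6e9000aaae2006c400687e000cbc05dd00bb002ac016700269008a4055a0079c0518] 38 58 = true := by
  decide +kernel

theorem j176 (A : ∀ f : CS, f.ok G = true → Hd (val S) (f.cl G))
    (A2 : ∀ f : CI, f.ok G = true → Hd (val S) (f.cl G)) (hU : ∀ c ∈ units, Hd (val S) c) :
    Hd (val S) [30, 1408, 1412, 1422, 1426, 1432, 1446, 2519, 2300] :=
  stu_sound A A2 hU i176

theorem i177 : stu G units []
    [.initX 0 4 3 1]
    [32, 34, 38, 390, 1442, 1804, 2517, 2308] 0x4824ea3862d10c301101019118918618117c18f013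
    [[0,3], [4], [6], [8], [10], [2], [12], [15], [17], [1], [19], [21], [23], [24], [27]]
    14 5 4 1
    (.leaf 0x800000000010002000000100000008000000004000040000002000000000040000000200000200000010000000800000040008001)
    [0x4ca] 15 15 = true := by
  decide +kernel

theorem j177 (A : ∀ f : CS, f.ok G = true → Hd (val S) (f.cl G))
    (A2 : ∀ f : CI, f.ok G = true → Hd (val S) (f.cl G)) (hU : ∀ c ∈ units, Hd (val S) c) :
    Hd (val S) [32, 34, 38, 390, 1442, 1804, 2517, 2308] :=
  stu_sound A A2 hU i177

theorem i178 : stu G units []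
    [.initX 0 4 3 1]
    [32, 34, 38, 1408, 1410, 1442, 2290] 0x4792d12c12c001101019118918618117c18f013
    [[0,3], [4], [6], [8], [10], [2], [12], [15], [17], [1], [19], [21], [23], [25]]
    13 4 4 1
    (.leaf 0x8000001000000200000040000000080002000000400000000040000000800002000000400000080000010004001)
    [0x16a] 14 14 = true := by
  decide +kernel

theorem j178 (A : ∀ f : CS, f.ok G = true → Hd (val S) (f.cl G))
    (A2 : ∀ f : CI, f.ok G = true → Hd (val S) (f.cl G)) (hU : ∀ c ∈ units, Hd (val S) c) :
    Hd (val S) [32, 34, 38, 1408, 1410, 1442, 2290] :=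
  stu_sound A A2 hU i178

theorem i179 : stu G units []
    [.initX 0 4 3 1]
    [32, 34, 38, 1408, 1436, 1442, 2517, 2290, 2308] 0x4824794ea2d12ce2c001101019118918618117c18f013
    [[0,3], [4], [6], [8], [10], [2], [12], [15], [17], [1], [19], [21], [23], [24], [27], [29]]
    15 5 4 1
    (.leaf 0x800000010000000000040004000000080000001000000000200000800000010000000000040000000080000020000000400000008000000100010001)
    [0x546] 16 16 = true := by
  decide +kernel

theorem j179 (A : ∀ f : CS, f.ok G = true → Hd (val S) (f.cl G))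
    (A2 : ∀ f : CI, f.ok G = true → Hd (val S) (f.cl G)) (hU : ∀ c ∈ units, Hd (val S) c) :
    Hd (val S) [32, 34, 38, 1408, 1436, 1442, 2517, 2290, 2308] :=
  stu_sound A A2 hU i179

theorem i180 : stu G units []
    [.initX 0 4 3 1]
    [32, 34, 38, 1410, 1412, 1452, 2201, 2290] 0x47944c2d62c22c101101019118918618117c18f013
    [[0,3], [4], [6], [8], [10], [2], [12], [15], [17], [1], [19], [21], [23], [24], [27]]
    14 5 4 1
    (.leaf 0x800000000010002000000100000008000000004000040000002000000000040000000200000200000010000000800000040008001)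
    [0x4ca] 15 15 = true := by
  decide +kernel

theorem j180 (A : ∀ f : CS, f.ok G = true → Hd (val S) (f.cl G))
    (A2 : ∀ f : CI, f.ok G = true → Hd (val S) (f.cl G)) (hU : ∀ c ∈ units, Hd (val S) c) :
    Hd (val S) [32, 34, 38, 1410, 1412, 1452, 2201, 2290] :=
  stu_sound A A2 hU i180

theorem i181 : stu G units []
    [.initX 0 4 3 1]
    [32, 34, 38, 1412, 1436, 1442, 1452, 1865, 2308, 2519, 2521] 0x4ec4eb4823a42d62d12ce2c201101019118918618117c18f013
    [[0,3], [4], [6], [8], [10], [2], [12], [15], [17], [1], [19], [21], [23], [25], [26], [29], [30], [32]]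
    17 5 4 1
    (.leaf 0x40000000080002000000000000200008000000010000000020000000040000000000800000200000000400000000000040000000008000000200000000400000000800000001000040001)
    [0x4ca] 18 18 = true := by
  decide +kernel

theorem j181 (A : ∀ f : CS, f.ok G = true → Hd (val S) (f.cl G))
    (A2 : ∀ f : CI, f.ok G = true → Hd (val S) (f.cl G)) (hU : ∀ c ∈ units, Hd (val S) c) :
    Hd (val S) [32, 34, 38, 1412, 1436, 1442, 1452, 1865, 2308, 2519, 2521] :=
  stu_sound A A2 hU i181

theorem i182 : stu G units []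
    [.initX 0 4 3 1]
    [32, 34, 38, 1424, 1436, 1442, 1452, 1936, 1972, 2308, 2521] 0x4ec4823da3c82d62d12ce2c801101019118918618117c18f013
    [[0,3], [4], [6], [8], [10], [2], [12], [15], [17], [1], [19], [21], [23], [25], [27], [29], [31], [32]]
    17 5 4 1
    (.leaf 0x40001000000002000000004000000008000000010000000020000000040000000000800000200000000400000000000040000000008000000200000000400000000800000001000040001)
    [0x4ca] 18 18 = true := by
  decide +kernel

theorem j182 (A : ∀ f : CS, f.ok G = true → Hd (val S) (f.cl G))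
    (A2 : ∀ f : CI, f.ok G = true → Hd (val S) (f.cl G)) (hU : ∀ c ∈ units, Hd (val S) c) :
    Hd (val S) [32, 34, 38, 1424, 1436, 1442, 1452, 1936, 1972, 2308, 2521] :=
  stu_sound A A2 hU i182

theorem i183 : stu G units []
    [.initX 0 4 3 1]
    [32, 34, 38, 1436, 1442, 1452, 1793, 2308, 2521] 0x4ec4823802d62d12ce01101019118918618117c18f013
    [[0,3], [4], [6], [8], [10], [2], [12], [15], [17], [1], [19], [21], [23], [24], [27], [28]]
    15 5 4 1
    (.leaf 0x100010000000000040004000000080000001000000000200000800000010000000000040000000080000020000000400000008000000100010001)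
    [0x546] 16 16 = true := by
  decide +kernel

theorem j183 (A : ∀ f : CS, f.ok G = true → Hd (val S) (f.cl G))
    (A2 : ∀ f : CI, f.ok G = true → Hd (val S) (f.cl G)) (hU : ∀ c ∈ units, Hd (val S) c) :
    Hd (val S) [32, 34, 38, 1436, 1442, 1452, 1793, 2308, 2521] :=
  stu_sound A A2 hU i183

theorem i184 : stu G units []
    [.initX 0 4 3 1]
    [38, 44, 396, 1410, 1422, 1440, 1804] 0x3862d02c72c10c601619118918618117c18f013
    [[0,3], [4], [6], [8], [10], [2], [12], [1], [15], [17], [19], [21], [23], [25]]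
    13 4 4 1
    (.leaf 0x8000001000000200000040000008000001000000008000000040000000800002000000400000080000010004001)
    [0x168] 14 14 = true := by
  decide +kernel

theorem j184 (A : ∀ f : CS, f.ok G = true → Hd (val S) (f.cl G))
    (A2 : ∀ f : CI, f.ok G = true → Hd (val S) (f.cl G)) (hU : ∀ c ∈ units, Hd (val S) c) :
    Hd (val S) [38, 44, 396, 1410, 1422, 1440, 1804] :=
  stu_sound A A2 hU i184

theorem i185 : stu G units []
    [.initX 0 4 3 1]
    [38, 44, 397, 1410, 1422, 1440, 1822] 0x38f2d02c72c10c601619118918618117c18f013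
    [[0,3], [4], [6], [8], [10], [2], [12], [1], [15], [16], [19], [21], [23], [25]]
    13 4 4 1
    (.leaf 0x8000001000000200000040000000004001000000008000000040000000800002000000400000080000010004001)
    [0x168] 14 14 = true := by
  decide +kernel

theorem j185 (A : ∀ f : CS, f.ok G = true → Hd (val S) (f.cl G))
    (A2 : ∀ f : CI, f.ok G = true → Hd (val S) (f.cl G)) (hU : ∀ c ∈ units, Hd (val S) c) :
    Hd (val S) [38, 44, 397, 1410, 1422, 1440, 1822] :=
  stu_sound A A2 hU i185

theorem i186 : stu G units []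
    [.initX 0 4 3 1]
    [38, 44, 397, 1410, 1422, 1440, 1876] 0x3aa2d02c72c10c601619118918618117c18f013
    [[0,3], [4], [6], [8], [10], [2], [12], [1], [15], [16], [19], [21], [23], [25]]
    13 4 4 1
    (.leaf 0x8000001000000200000040000000004001000000008000000040000000800002000000400000080000010004001)
    [0x168] 14 14 = true := by
  decide +kernel

theorem j186 (A : ∀ f : CS, f.ok G = true → Hd (val S) (f.cl G))
    (A2 : ∀ f : CI, f.ok G = true → Hd (val S) (f.cl G)) (hU : ∀ c ∈ units, Hd (val S) c) :
    Hd (val S) [38, 44, 397, 1410, 1422, 1440, 1876] :=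
  stu_sound A A2 hU i186

theorem i187 : stu G units []
    [.initX 0 4 3 1]
    [38, 44, 415, 1410, 1422, 1440, 1894] 0x3b32d02c72c10cf01619118918618117c18f013
    [[0,3], [4], [6], [8], [10], [2], [12], [1], [15], [16], [19], [21], [23], [25]]
    13 4 4 1
    (.leaf 0x8000001000000200000040000000004001000000008000000040000000800002000000400000080000010004001)
    [0x168] 14 14 = true := by
  decide +kernel

theorem j187 (A : ∀ f : CS, f.ok G = true → Hd (val S) (f.cl G))
    (A2 : ∀ f : CI, f.ok G = true → Hd (val S) (f.cl G)) (hU : ∀ c ∈ units, Hd (val S) c) :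
    Hd (val S) [38, 44, 415, 1410, 1422, 1440, 1894] :=
  stu_sound A A2 hU i187

theorem i188 : stu G units []
    [.initX 0 4 3 1]
    [38, 44, 1408, 1412, 1422, 1436, 1452, 1865, 1942, 1972, 2519] 0x4eb3da3cb3a42d62ce2c72c22c001619118918618117c18f013
    [[0,3], [4], [6], [8], [10], [2], [12], [1], [15], [17], [19], [21], [23], [25], [26], [29], [31], [32]]
    17 5 4 1
    (.leaf 0x40001000000002000000000000200008000000010000000020000000040000000080000000100000000008000000000040000000008000000200000000400000000800000001000040001)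
    [0x4c8] 18 18 = true := by
  decide +kernel

theorem j188 (A : ∀ f : CS, f.ok G = true → Hd (val S) (f.cl G))
    (A2 : ∀ f : CI, f.ok G = true → Hd (val S) (f.cl G)) (hU : ∀ c ∈ units, Hd (val S) c) :
    Hd (val S) [38, 44, 1408, 1412, 1422, 1436, 1452, 1865, 1942, 1972, 2519] :=
  stu_sound A A2 hU i188

theorem i189 : stu G units []
    [.initX 0 4 3 1]
    [38, 44, 1408, 1422, 1426, 1440, 2290, 2302] 0x47f4792d02c92c72c001619118918618117c18f013
    [[0,3], [4], [6], [8], [10], [2], [12], [1], [15], [17], [19], [21], [23], [25], [27]]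
    14 5 4 1
    (.leaf 0x800000040000002000000100000008000000400000020000000040000000040000000200000200000010000000800000040008001)
    [0x4c8] 15 15 = true := by
  decide +kernel

theorem j189 (A : ∀ f : CS, f.ok G = true → Hd (val S) (f.cl G))
    (A2 : ∀ f : CI, f.ok G = true → Hd (val S) (f.cl G)) (hU : ∀ c ∈ units, Hd (val S) c) :
    Hd (val S) [38, 44, 1408, 1422, 1426, 1440, 2290, 2302] :=
  stu_sound A A2 hU i189

theorem i190 : stu G units []
    [.initX 0 4 3 1]
    [38, 44, 1422, 1424, 1428, 1430, 1436, 1452, 1793, 1936, 1972, 2519] 0x4eb3da3c83802d62ce2cb2ca2c82c701619118918618117c18f013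
    [[0,3], [4], [6], [8], [10], [2], [12], [1], [15], [17], [19], [21], [23], [25], [27], [28], [31], [33], [34]]
    18 5 4 1
    (.leaf 0x20000400000000200000000000004000080000000040000000020000000010000000008000000004000000002000000000040000000000040000000002000000020000000010000000008000000004000080001)
    [0x506] 19 19 = true := by
  decide +kernel

theorem j190 (A : ∀ f : CS, f.ok G = true → Hd (val S) (f.cl G))
    (A2 : ∀ f : CI, f.ok G = true → Hd (val S) (f.cl G)) (hU : ∀ c ∈ units, Hd (val S) c) :
    Hd (val S) [38, 44, 1422, 1424, 1428, 1430, 1436, 1452, 1793, 1936, 1972, 2519] :=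
  stu_sound A A2 hU i190

theorem i191 : stu G units []
    [.initX 0 4 3 1]
    [38, 44, 1422, 1424, 1428, 1430, 1436, 1452, 1865, 1936, 1972, 2519] 0x4eb3da3c83a42d62ce2cb2ca2c82c701619118918618117c18f013
    [[0,3], [4], [6], [8], [10], [2], [12], [1], [15], [17], [19], [21], [23], [25], [27], [28], [31], [33], [34]]
    18 5 4 1
    (.leaf 0x20000400000000200000000000004000080000000040000000020000000010000000008000000004000000002000000000040000000000040000000002000000020000000010000000008000000004000080001)
    [0x506] 19 19 = true := by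
  decide +kernel

theorem j191 (A : ∀ f : CS, f.ok G = true → Hd (val S) (f.cl G))
    (A2 : ∀ f : CI, f.ok G = true → Hd (val S) (f.cl G)) (hU : ∀ c ∈ units, Hd (val S) c) :
    Hd (val S) [38, 44, 1422, 1424, 1428, 1430, 1436, 1452, 1865, 1936, 1972, 2519] :=
  stu_sound A A2 hU i191

theorem i192 : stu G units []
    [.initX 0 4 3 1]
    [38, 44, 1424, 1426, 1440, 2169, 2178] 0x44143c2d02c92c801619118918618117c18f013
    [[0,3], [4], [6], [8], [10], [2], [12], [1], [15], [17], [19], [21], [22], [25]]
    13 4 4 1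
    (.leaf 0x8000000000800200000040000008000001000000008000000040000000800002000000400000080000010004001)
    [0x168] 14 14 = true := by
  decide +kernel

theorem j192 (A : ∀ f : CS, f.ok G = true → Hd (val S) (f.cl G))
    (A2 : ∀ f : CI, f.ok G = true → Hd (val S) (f.cl G)) (hU : ∀ c ∈ units, Hd (val S) c) :
    Hd (val S) [38, 44, 1424, 1426, 1440, 2169, 2178] :=
  stu_sound A A2 hU i192

theorem i193 : stu G units []
    [.initX 0 4 3 1]
    [38, 44, 1424, 1428, 1430, 1436, 1942, 2062, 2068, 2290] 0x47940a4073cb2ce2cb2ca2c801619118918618117c18f013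
    [[0,3], [4], [6], [8], [10], [2], [12], [1], [15], [17], [19], [21], [23], [25], [27], [29], [31]]
    16 5 4 1
    (.leaf 0x8000000040000000200000001000000008000000040000000200000001000000008000000001000000000040000000020000002000000010000000080000000400020001)
    [0x506] 17 17 = true := by
  decide +kernel

theorem j193 (A : ∀ f : CS, f.ok G = true → Hd (val S) (f.cl G))
    (A2 : ∀ f : CI, f.ok G = true → Hd (val S) (f.cl G)) (hU : ∀ c ∈ units, Hd (val S) c) :
    Hd (val S) [38, 44, 1424, 1428, 1430, 1436, 1942, 2062, 2068, 2290] :=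
  stu_sound A A2 hU i193

theorem i194 : stu G units []
    [.initX 0 4 3 1]
    [38, 44, 1434, 1436, 1943, 2056, 2074, 2290] 0x47940d4043cb2ce2cd01619118918618117c18f013
    [[0,3], [4], [6], [8], [10], [2], [12], [1], [15], [17], [19], [20], [23], [25], [27]]
    14 5 4 1
    (.leaf 0x800000040000002000000000040008000000400000020000000040000000040000000200000200000010000000800000040008001)
    [0x4c8] 15 15 = true := by
  decide +kernel

theorem j194 (A : ∀ f : CS, f.ok G = true → Hd (val S) (f.cl G))
    (A2 : ∀ f : CI, f.ok G = true → Hd (val S) (f.cl G)) (hU : ∀ c ∈ units, Hd (val S) c) :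
    Hd (val S) [38, 44, 1434, 1436, 1943, 2056, 2074, 2290] :=
  stu_sound A A2 hU i194

theorem i195 : stu G units []
    [.initX 0 4 3 1]
    [38, 44, 1434, 1436, 2290, 2518] 0x4eb4792ce2cd01619118918618117c18f013
    [[0,3], [4], [6], [8], [10], [2], [12], [1], [15], [17], [19], [21], [23]]
    12 4 6 1
    (.leaf 0x1800000400000200000100000080000001000000040000002000020000010000008000004002001)
    [0x8e016] 13 14 = true := by
  decide +kernel

theorem j195 (A : ∀ f : CS, f.ok G = true → Hd (val S) (f.cl G))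
    (A2 : ∀ f : CI, f.ok G = true → Hd (val S) (f.cl G)) (hU : ∀ c ∈ units, Hd (val S) c) :
    Hd (val S) [38, 44, 1434, 1436, 2290, 2518] :=
  stu_sound A A2 hU i195

theorem i196 : stu G units []
    [.initX 0 4 3 1]
    [38, 44, 1440, 2169, 2178, 2290] 0x47944143c2d001619118918618117c18f013
    [[0,3], [4], [6], [8], [10], [2], [12], [1], [15], [17], [18], [21], [23]]
    12 4 6 1
    (.leaf 0x1800000400000000200100000080000001000000040000002000020000010000008000004002001)
    [0x8e016] 13 14 = true := by
  decide +kernel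

theorem j196 (A : ∀ f : CS, f.ok G = true → Hd (val S) (f.cl G))
    (A2 : ∀ f : CI, f.ok G = true → Hd (val S) (f.cl G)) (hU : ∀ c ∈ units, Hd (val S) c) :
    Hd (val S) [38, 44, 1440, 2169, 2178, 2290] :=
  stu_sound A A2 hU i196

theorem i197 : stu G units []
    [.initX 0 4 3 1]
    [38, 397, 1422, 1436, 1452, 2201, 2519, 2302] 0x47f4eb44c2d62ce2c70c619118918618117c18f013
    [[0,3], [4], [6], [8], [10], [2], [12], [1], [14], [17], [19], [21], [22], [24], [27]]
    14 5 4 1
    (.leaf 0x800000000010000000800100000008000000400000000008000040000000040000000200000200000010000000800000040008001)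
    [0x4c8] 15 15 = true := by
  decide +kernel

theorem j197 (A : ∀ f : CS, f.ok G = true → Hd (val S) (f.cl G))
    (A2 : ∀ f : CI, f.ok G = true → Hd (val S) (f.cl G)) (hU : ∀ c ∈ units, Hd (val S) c) :
    Hd (val S) [38, 397, 1422, 1436, 1452, 2201, 2519, 2302] :=
  stu_sound A A2 hU i197

theorem i198 : stu G units []
    [.initX 0 4 3 1]
    [38, 397, 1876, 2519, 2300] 0x47e4eb3aa0c619118918618117c18f013
    [[0,3], [4], [6], [8], [10], [2], [12], [1], [14], [17], [18], [21]]
    11 4 4 1
    (.leaf 0x800000002002000000008000200000040000008000200000400000800001001001)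
    [0x186] 12 12 = true := by
  decide +kernel

theorem j198 (A : ∀ f : CS, f.ok G = true → Hd (val S) (f.cl G))
    (A2 : ∀ f : CI, f.ok G = true → Hd (val S) (f.cl G)) (hU : ∀ c ∈ units, Hd (val S) c) :
    Hd (val S) [38, 397, 1876, 2519, 2300] :=
  stu_sound A A2 hU i198

theorem i199 : stu G units []
    [.initX 0 4 3 1]
    [38, 1408, 1410, 1424, 1436, 2201, 2519, 2302] 0x47f4eb44c2ce2c82c12c019118918618117c18f013
    [[0,3], [4], [6], [8], [10], [2], [12], [1], [15], [17], [19], [21], [22], [24], [27]]
    14 5 4 1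
    (.leaf 0x800000000010000000800100000008000000400000020000000040000000040000000200000200000010000000800000040008001)
    [0x4c8] 15 15 = true := by
  decide +kernel

theorem j199 (A : ∀ f : CS, f.ok G = true → Hd (val S) (f.cl G))
    (A2 : ∀ f : CI, f.ok G = true → Hd (val S) (f.cl G)) (hU : ∀ c ∈ units, Hd (val S) c) :
    Hd (val S) [38, 1408, 1410, 1424, 1436, 2201, 2519, 2302] :=
  stu_sound A A2 hU i199

theorem i200 : stu G units []
    [.initX 0 4 3 1]
    [38, 1408, 1424, 1436, 1440, 1452, 1811, 1865, 2520] 0x4ec3a43892d62d02ce2c82c019118918618117c18f013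
    [[0,3], [4], [6], [8], [10], [2], [12], [1], [15], [17], [19], [21], [23], [24], [26], [29]]
    15 5 4 1
    (.leaf 0x800000000002000000040004000000080000001000000020000000400000000200000000040000000080000020000000400000008000000100010001)
    [0x506] 16 16 = true := by
  decide +kernel

theorem j200 (A : ∀ f : CS, f.ok G = true → Hd (val S) (f.cl G))
    (A2 : ∀ f : CI, f.ok G = true → Hd (val S) (f.cl G)) (hU : ∀ c ∈ units, Hd (val S) c) :
    Hd (val S) [38, 1408, 1424, 1436, 1440, 1452, 1811, 1865, 2520] :=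
  stu_sound A A2 hU i200

theorem i201 : stu G units []
    [.initX 0 4 3 1]
    [38, 1410, 1412, 1422, 1436, 2519, 2521, 2300] 0x47e4ec4eb2ce2c72c22c119118918618117c18f013
    [[0,3], [4], [6], [8], [10], [2], [12], [1], [15], [17], [19], [21], [22], [24], [27]]
    14 5 4 1
    (.leaf 0x800000000010000000800100000008000000400000020000000040000000040000000200000200000010000000800000040008001)
    [0x4c8] 15 15 = true := by
  decide +kernel

theorem j201 (A : ∀ f : CS, f.ok G = true → Hd (val S) (f.cl G))
    (A2 : ∀ f : CI, f.ok G = true → Hd (val S) (f.cl G)) (hU : ∀ c ∈ units, Hd (val S) c) :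
    Hd (val S) [38, 1410, 1412, 1422, 1436, 2519, 2521, 2300] :=
  stu_sound A A2 hU i201

theorem i202 : stu G units []
    [.initX 0 4 3 1]
    [38, 1422, 1436, 1440, 2288] 0x4782d02ce2c719118918618117c18f013
    [[0,3], [4], [6], [8], [10], [2], [12], [1], [15], [17], [19], [21]]
    11 4 4 1
    (.leaf 0x800001000002000004000000200000040000008000200000400000800001001001)
    [0x186] 12 12 = true := by
  decide +kernel

theorem j202 (A : ∀ f : CS, f.ok G = true → Hd (val S) (f.cl G))
    (A2 : ∀ f : CI, f.ok G = true → Hd (val S) (f.cl G)) (hU : ∀ c ∈ units, Hd (val S) c) :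
    Hd (val S) [38, 1422, 1436, 1440, 2288] :=
  stu_sound A A2 hU i202

theorem i203 : stu G units []
    [.initX 0 4 3 1]
    [38, 1424, 1426, 1430, 1440, 1793, 2518] 0x4eb3802d02cb2c92c819118918618117c18f013
    [[0,3], [4], [6], [8], [10], [2], [12], [1], [15], [17], [19], [21], [22], [25]]
    13 4 4 1
    (.leaf 0x8000000000800200000040000008000001000000008000000040000000800002000000400000080000010004001)
    [0x168] 14 14 = true := by
  decide +kernel

theorem j203 (A : ∀ f : CS, f.ok G = true → Hd (val S) (f.cl G))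
    (A2 : ∀ f : CI, f.ok G = true → Hd (val S) (f.cl G)) (hU : ∀ c ∈ units, Hd (val S) c) :
    Hd (val S) [38, 1424, 1426, 1430, 1440, 1793, 2518] :=
  stu_sound A A2 hU i203

theorem i204 : stu G units []
    [.initX 0 4 3 1]
    [38, 1424, 1436, 1442, 2290, 2520] 0x4ec4792d12ce2c819118918618117c18f013
    [[0,3], [4], [6], [8], [10], [2], [12], [1], [15], [17], [19], [21], [23]]
    12 4 6 1
    (.leaf 0x1800000400000200000100000080000001000000040000002000020000010000008000004002001)
    [0x8e016] 13 14 = true := by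
  decide +kernel

theorem j204 (A : ∀ f : CS, f.ok G = true → Hd (val S) (f.cl G))
    (A2 : ∀ f : CI, f.ok G = true → Hd (val S) (f.cl G)) (hU : ∀ c ∈ units, Hd (val S) c) :
    Hd (val S) [38, 1424, 1436, 1442, 2290, 2520] :=
  stu_sound A A2 hU i204

theorem i205 : stu G units []
    [.initX 0 4 3 1]
    [38, 1434, 1436, 2516, 2302] 0x47f4ea2ce2cd19118918618117c18f013
    [[0,3], [4], [6], [8], [10], [2], [12], [1], [15], [17], [19], [21]]
    11 4 4 1
    (.leaf 0x800001000002000004000000200000040000008000200000400000800001001001)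
    [0x186] 12 12 = true := by
  decide +kernel

theorem j205 (A : ∀ f : CS, f.ok G = true → Hd (val S) (f.cl G))
    (A2 : ∀ f : CI, f.ok G = true → Hd (val S) (f.cl G)) (hU : ∀ c ∈ units, Hd (val S) c) :
    Hd (val S) [38, 1434, 1436, 2516, 2302] :=
  stu_sound A A2 hU i205

theorem i206 : stu G units []
    [.initX 0 5 1 1]
    [40, 42, 1430, 1450, 2517, 2308] 0x4824ea2d52cb01418f18918618117c191015
    [[0,3], [4], [6], [8], [10], [12], [2], [15], [1], [17], [19], [20], [23]]
    12 4 6 1
    (.leaf 0x1800000000400200000100000001000080000000002000040000020000010000008000004002001)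
    [0x9e017] 13 14 = true := by
  decide +kernel

theorem j206 (A : ∀ f : CS, f.ok G = true → Hd (val S) (f.cl G))
    (A2 : ∀ f : CI, f.ok G = true → Hd (val S) (f.cl G)) (hU : ∀ c ∈ units, Hd (val S) c) :
    Hd (val S) [40, 42, 1430, 1450, 2517, 2308] :=
  stu_sound A A2 hU i206

theorem i207 : stu G units [.some 1 1, .legal 1 0 0, .legal2 0 1 1 1 3]
    [.initX 0 1 1 1, .initX 1 0 0 1, .initX 1 1 1 0]
    [396, 1420, 2034, 2169, 2178] 0x3f90c619118f18918617c44143c1810052c02c72c62c52c4
    [[0,2,4,6], [9,1], [11,7], [10,13], [8,15], [3,16], [18], [12], [20], [22], [24], [26], [29], [5], [31], [14], [17]]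
    16 5 23 1
    (.leaf 0x1000000000200010000000000100008000000000020010000000000008080000000000400004000000000002000000010000000080000000400000000400000020000020100008000100040002000280000001100000000000f)
    [0x23701ac00cdd500a802c00390088] 17 23 = true := by
  decide +kernel

theorem j207 (A : ∀ f : CS, f.ok G = true → Hd (val S) (f.cl G))
    (A2 : ∀ f : CI, f.ok G = true → Hd (val S) (f.cl G)) (hU : ∀ c ∈ units, Hd (val S) c) :
    Hd (val S) [396, 1420, 2034, 2169, 2178] :=
  stu_sound A A2 hU i207

theorem i208 : stu G units [.some 1 0, .legal2 0 1 0 0 3]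
    [.initX 0 0 0 1]
    [1408, 1410, 1412, 1434, 1446] 0x2d32cd19118f18918618117c0002c32c22c12c0
    [[0,2,4,6], [9,7], [8,11], [10], [12], [14], [16], [18], [20], [1], [3], [5], [23], [25]]
    13 5 14 1
    (.leaf 0x4004000000001080000010000000020000004000000800000040000008000001000000200000040000008004001000c000000000f)
    [0xc8803052c0278064] 14 17 = true := by
  decide +kernel

theorem j208 (A : ∀ f : CS, f.ok G = true → Hd (val S) (f.cl G))
    (A2 : ∀ f : CI, f.ok G = true → Hd (val S) (f.cl G)) (hU : ∀ c ∈ units, Hd (val S) c) :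
    Hd (val S) [1408, 1410, 1412, 1434, 1446] :=
  stu_sound A A2 hU i208

theorem i209 : stu G units [.some 1 0, .legal2 0 1 0 0 3]
    [.initX 0 0 0 1]
    [1408, 1410, 1412, 1446, 2519, 2302] 0x47f4eb2d319118f18918618117c0002c32c22c12c0
    [[0,2,4,6], [9,7], [8,11], [10], [12], [14], [16], [18], [20], [1], [3], [5], [23], [24], [27]]
    14 5 12 1
    (.leaf 0x20000000001080000000001000200000000100000008000000400000004000000200000010000000800000040000002000800100060000000000f)
    [0x58b8a80280064] 15 17 = true := by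
  decide +kernel

theorem j209 (A : ∀ f : CS, f.ok G = true → Hd (val S) (f.cl G))
    (A2 : ∀ f : CI, f.ok G = true → Hd (val S) (f.cl G)) (hU : ∀ c ∈ units, Hd (val S) c) :
    Hd (val S) [1408, 1410, 1412, 1446, 2519, 2302] :=
  stu_sound A A2 hU i209

theorem i210 : stu G units [.some 1 0, .some 1 2, .some 1 3, .some 1 4, .some 1 5, .legal 1 2 1, .legal 1 4 0, .legal 1 5 1, .legal2 0 1 0 0 3, .legal2 0 1 2 2 0, .legal2 0 1 2 2 2, .legal2 0 1 3 1 3, .legal2 0 1 4 3 1, .legal2 0 1 4 3 2, .legal2 0 1 5 1 3, .mix 1 0 3 2, .mix 1 0 3 5, .mix 1 1 3 2, .mix 1 1 3 5, .letlab 1 2 1 2, .letlab 1 5 0 0, .letlab 1 5 0 3]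
    [.initX 0 0 0 1, .initX 0 2 2 1, .initX 0 3 1 1, .initX 0 4 3 1, .initX 0 5 1 1]
    [1408, 1412, 1422, 1432, 1436, 1446, 2520] 0x4ec2c718119118f18918617c3b33aa3e038f3e938601501300d00a0002d72d62d52d42d32d22d12d02cf2ce2cd2cc2cb2ca2c92c82c32c22c12c0
    [[0,2,4,6], [8,10,12,14], [16,18,20,22], [24,26,28,30], [32,34,36,38], [11,19], [25,33], [3,35], [41,7], [43,9], [43,13], [45,23], [47,27], [47,29], [49,39], [51,53], [55,57], [59,53], [61,57], [15,56,52], [37,54,60], [37,50,58], [40,63], [42,65], [44,67], [46,69], [48,71], [62], [72], [64], [66], [68], [70], [1], [5], [75], [17], [21], [31], [77]]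
    39 7 90 1
    (.leaf 0x80000000000000000000400000000000000000000000000004000000000200000000000000000000000000000010000000000800000000000000000000000000000400000000000000000000800000000040000000000000000000000000002000000040000000000000000000000000000000020000100000000000000000000000000010000000000008000000000000000000100000000000000000000000000200000000000040000000000000000000000000100000000000002000000000000000000020000000000000000000000002000000000000010000000000000000000000001000008000000000000000000000000400000000000000000000800000000000000000008000000000004000000000000000000000000000200000000000000000002000000000000000000008000000000000000000100000000000000000002000000000000000000040000000000000000010000000000000000000020000000040000000000010000000800000000000200000010000000000004000000200000000000080000004000000000001000000000080000008800000000002000000480000000000000100005000000002800000000000000000048000000000000000000c0000000000000000000c000000000000000000084000000000000000001008000000000000000040100000000000000000801000000000000000010002000000000000000400020000000000000008000400000000000000040004000000000000000880000000000000000000440000000000000000000000000f00000000000000000003c0000000000000000000f00000000000000000003c0000000000000000000f)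
    [0x157901f8026f80117c00a397a00b1220f000568d9d800ee800462c938004b16b80019b8006bd2a60021a8002a9123003d980368400e60006b0006900018b80193e005ab002958030780095200b9c] 40 64 = true := by
  decide +kernel

theorem j210 (A : ∀ f : CS, f.ok G = true → Hd (val S) (f.cl G))
    (A2 : ∀ f : CI, f.ok G = true → Hd (val S) (f.cl G)) (hU : ∀ c ∈ units, Hd (val S) c) :
    Hd (val S) [1408, 1412, 1422, 1432, 1436, 1446, 2520] :=
  stu_sound A A2 hU i210

theorem i211 : stu G units [.some 1 1, .some 1 2, .legal 1 0 0, .legal 1 1 1, .legal2 0 1 1 1 3, .legal2 0 1 2 2 0, .legal2 0 1 2 2 2]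
    [.initX 0 1 1 1, .initX 0 2 2 1, .initX 1 0 0 1]
    [1412, 1420, 1430, 1446, 1454, 2169, 2178, 2290] 0x4794412d72d32c219118f18917c43c18618100a0052c02cb2ca2c92c82c72c62c52c4
    [[0,2,4,6], [8,10,12,14], [17,1], [3,11], [19,7], [21,9], [21,13], [18,23], [20,25], [16,27], [28], [22], [24], [30], [32], [34], [37], [5], [15], [39], [41], [26], [43], [45]]
    23 6 35 1
    (.leaf 0x100000400000000000000000200000200000000000000100000010000000000000002000000800000000000000040080000000000100000000000000000008000800000000001000000000000004000000000000800000020000000000000000080000000000100000000000200000000000100000000000200000000004000004000000400008000004000010000008000022000000000082000000000104000000000044000000000808000000000000003c00000000000f)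
    [0x1a16400936a00047c005271e0037402960056c020c00764024d] 24 33 = true := by
  decide +kernel

theorem j211 (A : ∀ f : CS, f.ok G = true → Hd (val S) (f.cl G))
    (A2 : ∀ f : CI, f.ok G = true → Hd (val S) (f.cl G)) (hU : ∀ c ∈ units, Hd (val S) c) :
    Hd (val S) [1412, 1420, 1430, 1446, 1454, 2169, 2178, 2290] :=
  stu_sound A A2 hU i211

theorem i212 : stu G units [.some 1 1, .some 1 2, .legal 1 0 0, .legal 1 1 1, .legal2 0 1 1 1 3, .legal2 0 1 2 2 0, .legal2 0 1 2 2 2]
    [.initX 0 1 1 1, .initX 0 2 2 1, .initX 1 0 0 1]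
    [1420, 1430, 2169, 2178, 2288] 0x47844119118f18917c43c18618100a0052c02cb2ca2c92c82c72c62c52c4
    [[0,2,4,6], [8,10,12,14], [17,1], [3,11], [19,7], [21,9], [21,13], [18,23], [20,25], [16,27], [28], [22], [24], [30], [32], [34], [5], [15], [26], [37], [39]]
    20 6 37 1
    (.leaf 0x200000000001000000000000000010000200000000000002000040000000001000000000000040000008000000000000200800000000040000000000000002000000800000000004000000000020000000001000000000080000000001000000000080000000040000200000100010000040000800002000044000000004100000000208000000002200000001010000000000000f0000000000f)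
    [0x4df00a7800dd0015d170011b00265a4801d800660024d00558020c] 21 31 = true := by
  decide +kernel

theorem j212 (A : ∀ f : CS, f.ok G = true → Hd (val S) (f.cl G))
    (A2 : ∀ f : CI, f.ok G = true → Hd (val S) (f.cl G)) (hU : ∀ c ∈ units, Hd (val S) c) :
    Hd (val S) [1420, 1430, 2169, 2178, 2288] :=
  stu_sound A A2 hU i212

theorem i213 : stu G units [.some 1 2, .some 1 5, .legal2 0 1 2 2 0, .legal2 0 1 2 2 2, .legal2 0 1 5 1 3, .mix 1 0 3 2, .mix 1 0 3 5, .mix 1 1 3 2, .mix 1 1 3 5, .letlab 1 2 1 2, .letlab 1 5 0 0, .letlab 1 5 0 3]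
    [.initX 0 2 2 1, .initX 0 5 1 1]
    [1424, 1426, 1428, 1448, 1450, 2517, 2306] 0x4814ea18f18918117c1911863b33aa3e038f3e938601500a2d72d62d52d42cb2ca2c92c8
    [[0,2,4,6], [8,10,12,14], [17,1], [17,5], [19,15], [21,23], [25,27], [29,23], [31,27], [7,26,22], [13,24,30], [13,20,28], [16,33], [18,35], [36], [38], [32], [40], [42], [34], [1], [3], [5], [9], [11], [44], [47]]
    24 6 45 1
    (.leaf 0x800000000000100000000000000000200000080000000000000000004000000000000800008000000000000000020000000400000000000100000000000000010080000000000000000040000000002000000000001000000000000400000000000200000000000100000000000002000000000020000000000010000000000001000000000008000000000004000002000000020001000000010000004000440000004000900000000800280000a000000000004800000000003000000000000c000000000002800000000001040000000001010000000000000000f000000000000f)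
    [0x2e29a50099001e400a86300c2068800a061900175e58015f00e50011c003700351] 27 38 = true := by
  decide +kernel

theorem j213 (A : ∀ f : CS, f.ok G = true → Hd (val S) (f.cl G))
    (A2 : ∀ f : CI, f.ok G = true → Hd (val S) (f.cl G)) (hU : ∀ c ∈ units, Hd (val S) c) :
    Hd (val S) [1424, 1426, 1428, 1448, 1450, 2517, 2306] :=
  stu_sound A A2 hU i213

theorem i214 : stu G units [.some 1 2, .some 1 4, .some 1 5, .legal 1 4 0, .legal2 0 1 2 2 0, .legal2 0 1 2 2 2, .legal2 0 1 4 3 1, .legal2 0 1 4 3 2, .legal2 0 1 5 1 3, .mix 1 0 3 2, .mix 1 0 3 5, .mix 1 1 3 2, .mix 1 1 3 5, .letlab 1 2 1 2, .letlab 1 5 0 0, .letlab 1 5 0 3]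
    [.initX 0 2 2 1, .initX 0 4 3 1, .initX 0 5 1 1]
    [1426, 1446, 1450, 2522] 0x4ed18918117c19118f1863b33aa3e038f3e938601501300a2d72d62d52d42d32d22d12d02cb2ca2c92c8
    [[0,2,4,6], [8,10,12,14], [16,18,20,22], [9,17], [25,1], [25,5], [27,11], [27,13], [29,23], [31,33], [35,37], [39,33], [41,37], [7,36,32], [21,34,40], [21,30,38], [24,43], [26,45], [28,47], [48], [50], [42], [52], [44], [46], [3], [15], [19], [55]]
    28 6 62 1
    (.leaf 0x1000000000000002000000000000000000004000000100000000000000000000004000000100000000000000000000010000000000000080000800000000000000000004000000004000000000000020000000000000000002000000000400000000000001000000000000000001000800000000000000000200000000000000800000000000000200000000000000080000000000000400000000000040000000000000020000000000002000000000000010000000800000000400004000000002000020000000010000000400008800000004000120000000000800500000140000000000000900000000000006000000000000018000000000000048000000000000204000000000002020000000000010040000000000100100000000000110000000000000000000f00000000000000f00000000000000f)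
    [0xfa6db0036b00bac03a6a8040c2a90039687001270028a36c005f81a0099004d90088401e101260019e005780456] 29 45 = true := by
  decide +kernel

theorem j214 (A : ∀ f : CS, f.ok G = true → Hd (val S) (f.cl G))
    (A2 : ∀ f : CI, f.ok G = true → Hd (val S) (f.cl G)) (hU : ∀ c ∈ units, Hd (val S) c) :
    Hd (val S) [1426, 1446, 1450, 2522] :=
  stu_sound A A2 hU i214

theorem i215 : stu G units [.some 1 3, .legal2 0 1 3 1 3]
    [.initX 0 3 1 1]
    [1432, 1434, 1436, 2290, 2519, 2302] 0x47f4eb47919118f18618117c18900d2cf2ce2cd2cc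
    [[0,2,4,6], [9,7], [8,11], [12], [14], [16], [10], [18], [20], [1], [3], [5], [23], [24], [27]]
    14 5 12 1
    (.leaf 0x20000000001080000000001000200000000100000008000000400000004000000200000002000001000000080000004000800100060000000000f)
    [0x58b8a80280067] 15 17 = true := by
  decide +kernel

theorem j215 (A : ∀ f : CS, f.ok G = true → Hd (val S) (f.cl G))
    (A2 : ∀ f : CI, f.ok G = true → Hd (val S) (f.cl G)) (hU : ∀ c ∈ units, Hd (val S) c) :
    Hd (val S) [1432, 1434, 1436, 2290, 2519, 2302] :=
  stu_sound A A2 hU i215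

theorem i216 : stu G units []
    [.initX 0 0 0 1]
    [0, 2, 1408, 2201, 2519, 2302] 0x47f4eb44c2c000119118f18918618117c000
    [[0,3], [2], [4], [6], [8], [10], [12], [1], [15], [17], [18], [20], [23]]
    12 4 6 1
    (.leaf 0x1800000000400000200100000080000001000000040000020000010000008000004000002002001)
    [0x8e012] 13 14 = true := by
  decide +kernel

theorem j216 (A : ∀ f : CS, f.ok G = true → Hd (val S) (f.cl G))
    (A2 : ∀ f : CI, f.ok G = true → Hd (val S) (f.cl G)) (hU : ∀ c ∈ units, Hd (val S) c) :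
    Hd (val S) [0, 2, 1408, 2201, 2519, 2302] :=
  stu_sound A A2 hU i216

theorem i217 : stu G units []
    [.initX 0 0 0 1]
    [0, 2, 1408, 2520] 0x4ec2c000119118f18918618117c000
    [[0,3], [2], [4], [6], [8], [10], [12], [1], [15], [17], [19]]
    10 4 4 1
    (.leaf 0x8000040000200000040000040000200001000008000040000200801)
    [0x182] 11 11 = true := by
  decide +kernel

theorem j217 (A : ∀ f : CS, f.ok G = true → Hd (val S) (f.cl G))
    (A2 : ∀ f : CI, f.ok G = true → Hd (val S) (f.cl G)) (hU : ∀ c ∈ units, Hd (val S) c) :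
    Hd (val S) [0, 2, 1408, 2520] :=
  stu_sound A A2 hU i217

theorem i218 : stu G units []
    [.initX 0 0 0 1]
    [0, 6, 8, 12, 1412, 1416, 1428, 1432, 1448, 2290, 2519, 2300] 0x47e4eb4792d42cc2ca2c42c200600400319118f18918618117c000
    [[0,3], [2], [4], [6], [8], [10], [12], [1], [15], [17], [19], [21], [23], [25], [27], [29], [31], [32], [35]]
    18 5 4 1
    (.leaf 0x800000000000010000200000000100000000080000000040000000020000000010000000008000000004000000002000000000040000000000040000000020000000010000000008000000004000000002000080001)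
    [0x502] 19 19 = true := by
  decide +kernel

theorem j218 (A : ∀ f : CS, f.ok G = true → Hd (val S) (f.cl G))
    (A2 : ∀ f : CI, f.ok G = true → Hd (val S) (f.cl G)) (hU : ∀ c ∈ units, Hd (val S) c) :
    Hd (val S) [0, 6, 8, 12, 1412, 1416, 1428, 1432, 1448, 2290, 2519, 2300] :=
  stu_sound A A2 hU i218

theorem i219 : stu G units []
    [.initX 0 0 0 1]
    [0, 6, 8, 14, 26, 30, 1412, 1428, 1436, 1448, 1364, 2519, 2521, 2296] 0x47c4ec4eb2aa2d42ce2ca2c200f00d00700400319118f18918618117c000
    [[0,3], [2], [4], [6], [8], [10], [12], [1], [15], [17], [19], [21], [23], [25], [27], [29], [31], [33], [34], [36], [39]]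
    20 5 6 1
    (.leaf 0x1800000000000000400000000020000100000000008000000000400000000020000000001000000000080000000004000000000200000000010000000000800000000001000000000000040000000002000000000100000000008000000000400000000020000200001)
    [0x8b0022] 21 22 = true := by
  decide +kernel

theorem j219 (A : ∀ f : CS, f.ok G = true → Hd (val S) (f.cl G))
    (A2 : ∀ f : CI, f.ok G = true → Hd (val S) (f.cl G)) (hU : ∀ c ∈ units, Hd (val S) c) :
    Hd (val S) [0, 6, 8, 14, 26, 30, 1412, 1428, 1436, 1448, 1364, 2519, 2521, 2296] :=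
  stu_sound A A2 hU i219

theorem i220 : stu G units []
    [.initX 0 0 0 1]
    [0, 6, 8, 14, 1408, 1412, 1442, 1452, 2290] 0x4792d62d12c22c000700400319118f18918618117c000
    [[0,3], [2], [4], [6], [8], [10], [12], [1], [15], [17], [19], [21], [23], [25], [27], [29]]
    15 5 4 1
    (.leaf 0x800000010000000200000004000000080000001000000020000000400000000200000000040000000800000010000000200000004000000080010001)
    [0x502] 16 16 = true := by
  decide +kernel

theorem j220 (A : ∀ f : CS, f.ok G = true → Hd (val S) (f.cl G))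
    (A2 : ∀ f : CI, f.ok G = true → Hd (val S) (f.cl G)) (hU : ∀ c ∈ units, Hd (val S) c) :
    Hd (val S) [0, 6, 8, 14, 1408, 1412, 1442, 1452, 2290] :=
  stu_sound A A2 hU i220

theorem i221 : stu G units []
    [.initX 0 0 0 1]
    [0, 6, 12, 38, 396, 432, 1408, 1410, 1436, 1364] 0x2aa2ce2c12c00d80c601300600319118f18918618117c000
    [[0,3], [2], [4], [6], [8], [10], [12], [1], [15], [17], [19], [21], [23], [25], [27], [29], [31]]
    16 5 4 1
    (.leaf 0x8000000040000000200000001000000008000000040000000200000001000000008000000001000000000040000000200000001000000008000000040000000200020001)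
    [0x502] 17 17 = true := by
  decide +kernel

theorem j221 (A : ∀ f : CS, f.ok G = true → Hd (val S) (f.cl G))
    (A2 : ∀ f : CI, f.ok G = true → Hd (val S) (f.cl G)) (hU : ∀ c ∈ units, Hd (val S) c) :
    Hd (val S) [0, 6, 12, 38, 396, 432, 1408, 1410, 1436, 1364] :=
  stu_sound A A2 hU i221

theorem i222 : stu G units []
    [.initX 0 0 0 1]
    [0, 6, 14, 20, 38, 390, 408, 1416, 1428, 1364, 2519, 2302] 0x47f4eb2aa2ca2c40cc0c301300a00700319118f18918618117c000
    [[0,3], [2], [4], [6], [8], [10], [12], [1], [15], [17], [19], [21], [23], [25], [27], [29], [31], [32], [35]]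
    18 5 4 1
    (.leaf 0x800000000000010000200000000100000000080000000040000000020000000010000000008000000004000000002000000000040000000000040000000020000000010000000008000000004000000002000080001)
    [0x502] 19 19 = true := by
  decide +kernel

theorem j222 (A : ∀ f : CS, f.ok G = true → Hd (val S) (f.cl G))
    (A2 : ∀ f : CI, f.ok G = true → Hd (val S) (f.cl G)) (hU : ∀ c ∈ units, Hd (val S) c) :
    Hd (val S) [0, 6, 14, 20, 38, 390, 408, 1416, 1428, 1364, 2519, 2302] :=
  stu_sound A A2 hU i222

theorem i223 : stu G units []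
    [.initX 0 0 0 1]
    [0, 6, 14, 20, 38, 390, 608, 1408, 1416, 1428, 1364, 2290, 2519] 0x4eb4792aa2ca2c42c01300c301300a00700319118f18918618117c000
    [[0,3], [2], [4], [6], [8], [10], [12], [1], [15], [17], [19], [21], [23], [25], [27], [29], [31], [33], [35], [36]]
    19 5 4 1
    (.leaf 0x100001000000000200000000040000000008000000001000000000200000000040000000008000000001000000000200000000040000000000200000000000040000000008000000001000000000200000000040000000008000100001)
    [0x502] 20 20 = true := by
  decide +kernel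

theorem j223 (A : ∀ f : CS, f.ok G = true → Hd (val S) (f.cl G))
    (A2 : ∀ f : CI, f.ok G = true → Hd (val S) (f.cl G)) (hU : ∀ c ∈ units, Hd (val S) c) :
    Hd (val S) [0, 6, 14, 20, 38, 390, 608, 1408, 1416, 1428, 1364, 2290, 2519] :=
  stu_sound A A2 hU i223

theorem i224 : stu G units []
    [.initX 0 0 0 1]
    [0, 6, 14, 20, 38, 481, 1408, 1416, 1428, 1364, 2290, 2519] 0x4eb4792aa2ca2c42c00f001300a00700319118f18918618117c000
    [[0,3], [2], [4], [6], [8], [10], [12], [1], [15], [17], [19], [21], [22], [25], [27], [29], [31], [33], [34]]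
    18 5 4 1
    (.leaf 0x20000400000000200000000100000000080000000040000000000000800010000000008000000004000000002000000000040000000000040000000020000000010000000008000000004000000002000080001)
    [0x502] 19 19 = true := by
  decide +kernel

theorem j224 (A : ∀ f : CS, f.ok G = true → Hd (val S) (f.cl G))
    (A2 : ∀ f : CI, f.ok G = true → Hd (val S) (f.cl G)) (hU : ∀ c ∈ units, Hd (val S) c) :
    Hd (val S) [0, 6, 14, 20, 38, 481, 1408, 1416, 1428, 1364, 2290, 2519] :=
  stu_sound A A2 hU i224

theorem i225 : stu G units []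
    [.initX 0 0 0 1]
    [0, 6, 30, 38, 396, 432, 499, 1364] 0x2aa0f90d80c601300f00319118f18918618117c000
    [[0,3], [2], [4], [6], [8], [10], [12], [1], [15], [17], [19], [21], [23], [24], [27]]
    14 5 4 1
    (.leaf 0x800000000010002000000100000008000000400000020000000040000000040000002000000100000008000000400000020008001)
    [0x448] 15 15 = true := by
  decide +kernel

theorem j225 (A : ∀ f : CS, f.ok G = true → Hd (val S) (f.cl G))
    (A2 : ∀ f : CI, f.ok G = true → Hd (val S) (f.cl G)) (hU : ∀ c ∈ units, Hd (val S) c) :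
    Hd (val S) [0, 6, 30, 38, 396, 432, 499, 1364] :=
  stu_sound A A2 hU i225

theorem i226 : stu G units []
    [.initX 0 0 0 1]
    [0, 6, 38, 390, 397, 1422, 1432, 1364, 2520] 0x4ec2aa2cc2c70c60c301300319118f18918618117c000
    [[0,3], [2], [4], [6], [8], [10], [12], [1], [15], [17], [19], [20], [23], [25], [27], [29]]
    15 5 4 1
    (.leaf 0x800000010000000200000004000000000010001000000020000000400000000200000000040000000800000010000000200000004000000080010001)
    [0x502] 16 16 = true := by
  decide +kernel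

theorem j226 (A : ∀ f : CS, f.ok G = true → Hd (val S) (f.cl G))
    (A2 : ∀ f : CI, f.ok G = true → Hd (val S) (f.cl G)) (hU : ∀ c ∈ units, Hd (val S) c) :
    Hd (val S) [0, 6, 38, 390, 397, 1422, 1432, 1364, 2520] :=
  stu_sound A A2 hU i226

theorem i227 : stu G units []
    [.initX 0 0 0 1]
    [0, 8, 14, 24, 26, 1432, 2201, 2290] 0x47944c2cc00d00c00700419118f18918618117c000
    [[0,3], [2], [4], [6], [8], [10], [12], [1], [15], [17], [19], [21], [23], [24], [27]]
    14 5 4 1
    (.leaf 0x800000000010002000000100000008000000400000020000000040000000040000002000000100000008000000400000020008001)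
    [0x448] 15 15 = true := by
  decide +kernel

theorem j227 (A : ∀ f : CS, f.ok G = true → Hd (val S) (f.cl G))
    (A2 : ∀ f : CI, f.ok G = true → Hd (val S) (f.cl G)) (hU : ∀ c ∈ units, Hd (val S) c) :
    Hd (val S) [0, 8, 14, 24, 26, 1432, 2201, 2290] :=
  stu_sound A A2 hU i227

theorem i228 : stu G units []
    [.initX 0 0 0 1]
    [0, 12, 38, 1408, 1364, 2290, 2520] 0x4ec4792aa2c001300619118f18918618117c000
    [[0,3], [2], [4], [6], [8], [10], [12], [1], [15], [17], [19], [21], [23], [25]]
    13 4 4 1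
    (.leaf 0x8000001000000200000040000008000001000000008000000040000008000001000000200000040000008004001)
    [0x128] 14 14 = true := by
  decide +kernel

theorem j228 (A : ∀ f : CS, f.ok G = true → Hd (val S) (f.cl G))
    (A2 : ∀ f : CI, f.ok G = true → Hd (val S) (f.cl G)) (hU : ∀ c ∈ units, Hd (val S) c) :
    Hd (val S) [0, 12, 38, 1408, 1364, 2290, 2520] :=
  stu_sound A A2 hU i228

theorem i229 : stu G units []
    [.initX 0 0 0 1]
    [0, 16, 20, 34, 38, 1408, 1410, 1416, 1428, 1442, 2201] 0x44c2d12ca2c42c12c001301100a00819118f18918618117c000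
    [[0,3], [2], [4], [6], [8], [10], [12], [1], [15], [17], [19], [21], [23], [25], [27], [29], [31], [32]]
    17 5 4 1
    (.leaf 0x40001000000002000000004000000008000000010000000020000000040000000080000000100000000008000000000040000000080000000100000000200000000400000000800040001)
    [0x448] 18 18 = true := by
  decide +kernel

theorem j229 (A : ∀ f : CS, f.ok G = true → Hd (val S) (f.cl G))
    (A2 : ∀ f : CI, f.ok G = true → Hd (val S) (f.cl G)) (hU : ∀ c ∈ units, Hd (val S) c) :
    Hd (val S) [0, 16, 20, 34, 38, 1408, 1410, 1416, 1428, 1442, 2201] :=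
  stu_sound A A2 hU i229

theorem i230 : stu G units []
    [.initX 0 0 0 1]
    [0, 32, 391, 510, 1364] 0x2aa0ff0c301019118f18918618117c000
    [[0,3], [2], [4], [6], [8], [10], [12], [1], [15], [16], [19], [21]]
    11 4 4 1
    (.leaf 0x800001000000004004000000200000040000080000100000200000400000801001)
    [0x182] 12 12 = true := by
  decide +kernel

theorem j230 (A : ∀ f : CS, f.ok G = true → Hd (val S) (f.cl G))
    (A2 : ∀ f : CI, f.ok G = true → Hd (val S) (f.cl G)) (hU : ∀ c ∈ units, Hd (val S) c) :
    Hd (val S) [0, 32, 391, 510, 1364] :=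
  stu_sound A A2 hU i230

theorem i231 : stu G units []
    [.initX 0 0 0 1]
    [0, 38, 396, 499, 1418, 1422, 1452, 1364, 2520] 0x4ec2aa2d62c72c50f90c601319118f18918618117c000
    [[0,3], [2], [4], [6], [8], [10], [12], [1], [15], [17], [18], [21], [23], [25], [27], [29]]
    15 5 4 1
    (.leaf 0x800000010000000200000004000000080000000000200020000000400000000200000000040000000800000010000000200000004000000080010001)
    [0x502] 16 16 = true := by
  decide +kernel

theorem j231 (A : ∀ f : CS, f.ok G = true → Hd (val S) (f.cl G))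
    (A2 : ∀ f : CI, f.ok G = true → Hd (val S) (f.cl G)) (hU : ∀ c ∈ units, Hd (val S) c) :
    Hd (val S) [0, 38, 396, 499, 1418, 1422, 1452, 1364, 2520] :=
  stu_sound A A2 hU i231

theorem i232 : stu G units []
    [.initX 0 1 1 1]
    [2, 6, 10, 14, 1408, 1412, 1442, 1452, 2290] 0x4792d62d12c22c000700300119118f18918617c181005
    [[0,3], [4], [2], [6], [8], [10], [12], [15], [17], [1], [19], [21], [23], [25], [27], [29]]
    15 5 4 1
    (.leaf 0x800000010000000200000004000000080000001000000000200000800000010000000000040000000800000010000000200000002000000100010001)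
    [0x543] 16 16 = true := by
  decide +kernel

theorem j232 (A : ∀ f : CS, f.ok G = true → Hd (val S) (f.cl G))
    (A2 : ∀ f : CI, f.ok G = true → Hd (val S) (f.cl G)) (hU : ∀ c ∈ units, Hd (val S) c) :
    Hd (val S) [2, 6, 10, 14, 1408, 1412, 1442, 1452, 2290] :=
  stu_sound A A2 hU i232

theorem i233 : stu G units []
    [.initX 0 2 2 1]
    [2, 6, 14, 20, 38, 499, 1416, 1428, 1365, 2519, 2302] 0x47f4eb2aa2ca2c40f901300700300119118f18918117c18600a
    [[0,3], [4], [6], [2], [8], [10], [12], [15], [17], [19], [1], [21], [22], [25], [27], [28], [30], [33]]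
    17 5 4 1
    (.leaf 0x800000000000080000000100004000000008000000000000800020000000000200000100000000200000000400000000000040000000080000000100000000080000000800000001000040001)
    [0x48b] 18 18 = true := by
  decide +kernel

theorem j233 (A : ∀ f : CS, f.ok G = true → Hd (val S) (f.cl G))
    (A2 : ∀ f : CI, f.ok G = true → Hd (val S) (f.cl G)) (hU : ∀ c ∈ units, Hd (val S) c) :
    Hd (val S) [2, 6, 14, 20, 38, 499, 1416, 1428, 1365, 2519, 2302] :=
  stu_sound A A2 hU i233

theorem i234 : stu G units []
    [.initX 0 4 3 1]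
    [2, 6, 38, 390, 397, 451, 1412, 1422, 1365, 2520] 0x4ec2aa2c72c20e10c60c300300119118918618117c18f013
    [[0,3], [4], [6], [8], [10], [2], [12], [15], [17], [1], [19], [20], [22], [25], [27], [28], [31]]
    16 5 4 1
    (.leaf 0x8000000000004000200000001000000000000800000004000200000000010000010000000080000000000040000000020000002000000010000000080000000400020001)
    [0x546] 17 17 = true := by
  decide +kernel

theorem j234 (A : ∀ f : CS, f.ok G = true → Hd (val S) (f.cl G))
    (A2 : ∀ f : CI, f.ok G = true → Hd (val S) (f.cl G)) (hU : ∀ c ∈ units, Hd (val S) c) :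
    Hd (val S) [2, 6, 38, 390, 397, 451, 1412, 1422, 1365, 2520] :=
  stu_sound A A2 hU i234

theorem i235 : stu G units []
    [.initX 0 1 1 1]
    [2, 10, 14, 16, 30, 1408, 1412, 1432, 1434, 1452, 1364, 2521, 2296] 0x47c4ec2aa2d62cd2cc2c22c000f00800700119118f18918617c181005
    [[0,3], [4], [2], [6], [8], [10], [12], [15], [1], [17], [19], [21], [23], [25], [27], [29], [31], [33], [34], [37]]
    19 5 4 1
    (.leaf 0x8000000000000020000200000000040000000008000000001000000000200000000040000000008000000001000000000200000000000800000010000000000000040000000008000000001000000000200000000020000000010000100001)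
    [0x523] 20 20 = true := by
  decide +kernel

theorem j235 (A : ∀ f : CS, f.ok G = true → Hd (val S) (f.cl G))
    (A2 : ∀ f : CI, f.ok G = true → Hd (val S) (f.cl G)) (hU : ∀ c ∈ units, Hd (val S) c) :
    Hd (val S) [2, 10, 14, 16, 30, 1408, 1412, 1432, 1434, 1452, 1364, 2521, 2296] :=
  stu_sound A A2 hU i235

theorem i236 : stu G units []
    [.initX 0 1 1 1]
    [2, 10, 14, 1432, 1434, 1436, 1314, 1364, 2296] 0x47c2aa2912ce2cd2cc00700119118f18918617c181005
    [[0,3], [4], [2], [6], [8], [10], [12], [15], [1], [17], [19], [21], [23], [25], [27], [29]]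
    15 5 4 1
    (.leaf 0x800000010000000200000004000000080000001000000020000000008000010000000000040000000800000010000000200000002000000100010001)
    [0x523] 16 16 = true := by
  decide +kernel

theorem j236 (A : ∀ f : CS, f.ok G = true → Hd (val S) (f.cl G))
    (A2 : ∀ f : CI, f.ok G = true → Hd (val S) (f.cl G)) (hU : ∀ c ∈ units, Hd (val S) c) :
    Hd (val S) [2, 10, 14, 1432, 1434, 1436, 1314, 1364, 2296] :=
  stu_sound A A2 hU i236

theorem i237 : stu G units [.mix 0 0 2 1, .mix 0 0 3 1, .letlab 0 4 1 0]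
    [.initX 0 4 3 1]
    [2, 12, 391, 451, 1408, 1412, 1448, 1365, 2520] 0x4ec2aa2d42c22c00e100600119118918618117c18f0131020f00c3
    [[1,3], [1,5], [7,2,4], [6,9], [10], [12], [14], [16], [8], [18], [21], [23], [0], [24], [27], [29], [31], [32], [35]]
    18 5 14 1
    (.leaf 0x1000000000800000000000088000000000000100002000000001000000000800000000000010000000000010200000000100000000000002000000000100000001000000000800000000400000000200004000080002000060001400000000c0000)
    [0x3a5aa01340168089] 19 22 = true := by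
  decide +kernel

theorem j237 (A : ∀ f : CS, f.ok G = true → Hd (val S) (f.cl G))
    (A2 : ∀ f : CI, f.ok G = true → Hd (val S) (f.cl G)) (hU : ∀ c ∈ units, Hd (val S) c) :
    Hd (val S) [2, 12, 391, 451, 1408, 1412, 1448, 1365, 2520] :=
  stu_sound A A2 hU i237

theorem i238 : stu G units []
    [.initX 0 3 1 1]
    [2, 24, 26, 44, 390, 1452, 1793, 1883, 1314] 0x2913ad3802d60c301600c00119118f18618117c18900d
    [[0,3], [4], [6], [8], [2], [10], [12], [15], [17], [1], [19], [21], [23], [24], [26], [29]]
    15 5 4 1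
    (.leaf 0x800000000002000000040004000000080000001000000000200000800000010000000000040000000800000002000000400000008000000100010001)
    [0x545] 16 16 = true := by
  decide +kernel

theorem j238 (A : ∀ f : CS, f.ok G = true → Hd (val S) (f.cl G))
    (A2 : ∀ f : CI, f.ok G = true → Hd (val S) (f.cl G)) (hU : ∀ c ∈ units, Hd (val S) c) :
    Hd (val S) [2, 24, 26, 44, 390, 1452, 1793, 1883, 1314] :=
  stu_sound A A2 hU i238

theorem i239 : stu G units []
    [.initX 0 4 3 1]
    [2, 38, 390, 408, 1418, 1422, 1452, 1365, 2520] 0x4ec2aa2d62c72c50cc0c300119118918618117c18f013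
    [[0,3], [4], [6], [8], [10], [2], [12], [15], [1], [17], [19], [21], [23], [25], [26], [29]]
    15 5 4 1
    (.leaf 0x800000000002000200000004000000080000001000000020000000008000010000000000040000000080000020000000400000008000000100010001)
    [0x526] 16 16 = true := by
  decide +kernel

theorem j239 (A : ∀ f : CS, f.ok G = true → Hd (val S) (f.cl G))
    (A2 : ∀ f : CI, f.ok G = true → Hd (val S) (f.cl G)) (hU : ∀ c ∈ units, Hd (val S) c) :
    Hd (val S) [2, 38, 390, 408, 1418, 1422, 1452, 1365, 2520] :=
  stu_sound A A2 hU i239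

theorem i240 : stu G units []
    [.initX 0 2 2 1]
    [6, 12, 14, 20, 1408, 1412, 1426, 2290, 2518] 0x4eb4792c92c22c000700600319118f18918117c18600a
    [[0,3], [4], [6], [2], [8], [10], [12], [15], [17], [19], [1], [21], [23], [25], [27], [29]]
    15 5 4 1
    (.leaf 0x800000010000000200000004000000080000000008000040000000800000010000000000040000000800000010000000080000008000000100010001)
    [0x564] 16 16 = true := by
  decide +kernel

theorem j240 (A : ∀ f : CS, f.ok G = true → Hd (val S) (f.cl G))
    (A2 : ∀ f : CI, f.ok G = true → Hd (val S) (f.cl G)) (hU : ∀ c ∈ units, Hd (val S) c) :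
    Hd (val S) [6, 12, 14, 20, 1408, 1412, 1426, 2290, 2518] :=
  stu_sound A A2 hU i240

theorem i241 : stu G units []
    [.initX 0 4 3 1]
    [6, 12, 38, 44, 1408, 1410, 1440, 2290, 2302] 0x47f4792d02c12c001600600319118918618117c18f013
    [[0,3], [4], [6], [8], [10], [2], [12], [15], [17], [1], [19], [21], [23], [25], [27], [29]]
    15 5 4 1
    (.leaf 0x800000010000000200000004000000080000001000000000200000800000010000000000040000000080000020000000400000008000000100010001)
    [0x546] 16 16 = true := by
  decide +kernel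

theorem j241 (A : ∀ f : CS, f.ok G = true → Hd (val S) (f.cl G))
    (A2 : ∀ f : CI, f.ok G = true → Hd (val S) (f.cl G)) (hU : ∀ c ∈ units, Hd (val S) c) :
    Hd (val S) [6, 12, 38, 44, 1408, 1410, 1440, 2290, 2302] :=
  stu_sound A A2 hU i241

theorem i242 : stu G units []
    [.initX 0 2 2 1]
    [6, 14, 16, 20, 38, 1408, 1410, 1416, 1428, 1436, 1364, 2290, 2519, 2296] 0x47c4eb4792aa2ce2ca2c42c12c001300800700319118f18918117c18600a
    [[0,3], [4], [6], [2], [8], [10], [12], [15], [17], [19], [1], [21], [23], [25], [27], [29], [31], [33], [35], [36], [39]]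
    20 5 6 1
    (.leaf 0x1800000000000000400002000000000100000000008000000000400000000020000000001000000000080000000004000000000001000000020000000001000000000080000000000000040000000002000000000100000000002000000000800000000040000200001)
    [0xbb0024] 21 22 = true := by
  decide +kernel

theorem j242 (A : ∀ f : CS, f.ok G = true → Hd (val S) (f.cl G))
    (A2 : ∀ f : CI, f.ok G = true → Hd (val S) (f.cl G)) (hU : ∀ c ∈ units, Hd (val S) c) :
    Hd (val S) [6, 14, 16, 20, 38, 1408, 1410, 1416, 1428, 1436, 1364, 2290, 2519, 2296] :=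
  stu_sound A A2 hU i242

theorem i243 : stu G units []
    [.initX 0 2 2 1]
    [6, 14, 20, 38, 1408, 1410, 1416, 1440, 2521, 2296] 0x47c4ec2d02c42c12c001300700319118f18918117c18600a
    [[0,3], [4], [6], [2], [8], [10], [12], [15], [17], [1], [19], [21], [23], [25], [27], [28], [31]]
    16 5 4 1
    (.leaf 0x8000000000004000200000001000000008000000040000000200000000010000010000000080000000000040000000200000001000000002000000080000000400020001)
    [0x544] 17 17 = true := by
  decide +kernel

theorem j243 (A : ∀ f : CS, f.ok G = true → Hd (val S) (f.cl G))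
    (A2 : ∀ f : CI, f.ok G = true → Hd (val S) (f.cl G)) (hU : ∀ c ∈ units, Hd (val S) c) :
    Hd (val S) [6, 14, 20, 38, 1408, 1410, 1416, 1440, 2521, 2296] :=
  stu_sound A A2 hU i243

theorem i244 : stu G units []
    [.initX 0 4 3 1]
    [6, 14, 38, 44, 396, 1408, 1412, 1894, 2519] 0x4eb3b32c22c00c601600700319118918618117c18f013
    [[0,3], [4], [6], [8], [10], [2], [12], [15], [17], [1], [19], [21], [23], [25], [27], [28]]
    15 5 4 1
    (.leaf 0x100010000000200000004000000080000001000000000200000800000010000000000040000000080000020000000400000008000000100010001)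
    [0x546] 16 16 = true := by
  decide +kernel

theorem j244 (A : ∀ f : CS, f.ok G = true → Hd (val S) (f.cl G))
    (A2 : ∀ f : CI, f.ok G = true → Hd (val S) (f.cl G)) (hU : ∀ c ∈ units, Hd (val S) c) :
    Hd (val S) [6, 14, 38, 44, 396, 1408, 1412, 1894, 2519] :=
  stu_sound A A2 hU i244

theorem i245 : stu G units []
    [.initX 0 2 2 1]
    [6, 20, 30, 44, 1408, 1412, 1426, 1436, 1452, 2290, 2521, 2294] 0x47b4ec4792d62ce2c92c22c001600f00319118f18918117c18600a
    [[0,3], [4], [6], [2], [8], [10], [12], [15], [1], [17], [19], [21], [23], [25], [27], [29], [31], [32], [35]]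
    18 5 4 1
    (.leaf 0x800000000000010000200000000100000000080000000040000000020000000010000000008000000004000000000040000002000000000000040000000020000000010000000002000000008000000004000080001)
    [0x524] 19 19 = true := by
  decide +kernel

theorem j245 (A : ∀ f : CS, f.ok G = true → Hd (val S) (f.cl G))
    (A2 : ∀ f : CI, f.ok G = true → Hd (val S) (f.cl G)) (hU : ∀ c ∈ units, Hd (val S) c) :
    Hd (val S) [6, 20, 30, 44, 1408, 1412, 1426, 1436, 1452, 2290, 2521, 2294] :=
  stu_sound A A2 hU i245

theorem i246 : stu G units []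
    [.initX 0 4 3 1]
    [6, 38, 44, 396, 1408, 1412, 1422, 1894, 2519] 0x4eb3b32c72c22c00c601600319118918618117c18f013
    [[0,3], [4], [6], [8], [10], [2], [12], [15], [1], [17], [19], [21], [23], [25], [27], [28]]
    15 5 4 1
    (.leaf 0x100010000000200000004000000080000001000000020000000008000010000000000040000000080000020000000400000008000000100010001)
    [0x526] 16 16 = true := by
  decide +kernel

theorem j246 (A : ∀ f : CS, f.ok G = true → Hd (val S) (f.cl G))
    (A2 : ∀ f : CI, f.ok G = true → Hd (val S) (f.cl G)) (hU : ∀ c ∈ units, Hd (val S) c) :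
    Hd (val S) [6, 38, 44, 396, 1408, 1412, 1422, 1894, 2519] :=
  stu_sound A A2 hU i246

theorem i247 : stu G units []
    [.initX 0 4 3 1]
    [6, 38, 44, 397, 1408, 1412, 1422, 1822, 2519] 0x4eb38f2c72c22c00c601600319118918618117c18f013
    [[0,3], [4], [6], [8], [10], [2], [12], [15], [1], [17], [18], [21], [23], [25], [27], [28]]
    15 5 4 1
    (.leaf 0x100010000000200000004000000080000000000200020000000008000010000000000040000000080000020000000400000008000000100010001)
    [0x526] 16 16 = true := by
  decide +kernel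

theorem j247 (A : ∀ f : CS, f.ok G = true → Hd (val S) (f.cl G))
    (A2 : ∀ f : CI, f.ok G = true → Hd (val S) (f.cl G)) (hU : ∀ c ∈ units, Hd (val S) c) :
    Hd (val S) [6, 38, 44, 397, 1408, 1412, 1422, 1822, 2519] :=
  stu_sound A A2 hU i247

theorem i248 : stu G units []
    [.initX 0 4 3 1]
    [6, 38, 44, 397, 1408, 1412, 1422, 1876, 2519] 0x4eb3aa2c72c22c00c601600319118918618117c18f013
    [[0,3], [4], [6], [8], [10], [2], [12], [15], [1], [17], [18], [21], [23], [25], [27], [28]]
    15 5 4 1
    (.leaf 0x100010000000200000004000000080000000000200020000000008000010000000000040000000080000020000000400000008000000100010001)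
    [0x526] 16 16 = true := by
  decide +kernel

theorem j248 (A : ∀ f : CS, f.ok G = true → Hd (val S) (f.cl G))
    (A2 : ∀ f : CI, f.ok G = true → Hd (val S) (f.cl G)) (hU : ∀ c ∈ units, Hd (val S) c) :
    Hd (val S) [6, 38, 44, 397, 1408, 1412, 1422, 1876, 2519] :=
  stu_sound A A2 hU i248

theorem i249 : stu G units []
    [.initX 0 1 1 1]
    [8, 10, 12, 38, 1412, 1436, 1454, 2290, 2518] 0x4eb4792d72ce2c201300600419118f18918617c181005
    [[0,3], [4], [2], [6], [8], [10], [12], [15], [1], [17], [19], [21], [23], [25], [27], [29]]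
    15 5 4 1
    (.leaf 0x800000010000000200000004000000080000001000000020000000008000010000000000040000000800000010000000200000002000000100010001)
    [0x523] 16 16 = true := by
  decide +kernel

theorem j249 (A : ∀ f : CS, f.ok G = true → Hd (val S) (f.cl G))
    (A2 : ∀ f : CI, f.ok G = true → Hd (val S) (f.cl G)) (hU : ∀ c ∈ units, Hd (val S) c) :
    Hd (val S) [8, 10, 12, 38, 1412, 1436, 1454, 2290, 2518] :=
  stu_sound A A2 hU i249

theorem i250 : stu G units []
    [.initX 0 1 1 1]
    [8, 10, 12, 397, 1416, 1446, 1822, 2519, 2302] 0x47f4eb38f2d32c40c600600419118f18918617c181005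
    [[0,3], [4], [2], [6], [8], [10], [12], [15], [1], [17], [18], [21], [23], [25], [26], [29]]
    15 5 4 1
    (.leaf 0x800000000002000200000004000000080000000000200020000000008000010000000000040000000800000010000000200000002000000100010001)
    [0x523] 16 16 = true := by
  decide +kernel

theorem j250 (A : ∀ f : CS, f.ok G = true → Hd (val S) (f.cl G))
    (A2 : ∀ f : CI, f.ok G = true → Hd (val S) (f.cl G)) (hU : ∀ c ∈ units, Hd (val S) c) :
    Hd (val S) [8, 10, 12, 397, 1416, 1446, 1822, 2519, 2302] :=
  stu_sound A A2 hU i250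

theorem i251 : stu G units []
    [.initX 0 1 1 1]
    [8, 10, 12, 397, 1416, 1876, 2519, 2300] 0x47e4eb3aa2c40c600600419118f18918617c181005
    [[0,3], [4], [2], [6], [8], [10], [12], [15], [1], [17], [18], [21], [23], [24], [27]]
    14 5 4 1
    (.leaf 0x800000000010002000000100000000002000400000000400002000000000040000002000000100000008000000200000040008001)
    [0x469] 15 15 = true := by
  decide +kernel

theorem j251 (A : ∀ f : CS, f.ok G = true → Hd (val S) (f.cl G))
    (A2 : ∀ f : CI, f.ok G = true → Hd (val S) (f.cl G)) (hU : ∀ c ∈ units, Hd (val S) c) :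
    Hd (val S) [8, 10, 12, 397, 1416, 1876, 2519, 2300] :=
  stu_sound A A2 hU i251

theorem i252 : stu G units []
    [.initX 0 1 1 1]
    [8, 10, 12, 397, 1416, 1876, 2520] 0x4ec3aa2c40c600600419118f18918617c181005
    [[0,3], [4], [2], [6], [8], [10], [12], [15], [1], [17], [18], [21], [23], [25]]
    13 4 4 1
    (.leaf 0x8000001000000200000000020008000000020000400000000040000008000001000000200000020000010004001)
    [0x139] 14 14 = true := by
  decide +kernel

theorem j252 (A : ∀ f : CS, f.ok G = true → Hd (val S) (f.cl G))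
    (A2 : ∀ f : CI, f.ok G = true → Hd (val S) (f.cl G)) (hU : ∀ c ∈ units, Hd (val S) c) :
    Hd (val S) [8, 10, 12, 397, 1416, 1876, 2520] :=
  stu_sound A A2 hU i252

theorem i253 : stu G units []
    [.initX 0 1 1 1]
    [8, 10, 12, 1408, 1410, 1442, 1446, 2520] 0x4ec2d32d12c12c000600419118f18918617c181005
    [[0,3], [4], [2], [6], [8], [10], [12], [15], [1], [17], [19], [21], [23], [25], [27]]
    14 5 4 1
    (.leaf 0x800000040000002000000100000008000000400000000400002000000000040000002000000100000008000000200000040008001)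
    [0x469] 15 15 = true := by
  decide +kernel

theorem j253 (A : ∀ f : CS, f.ok G = true → Hd (val S) (f.cl G))
    (A2 : ∀ f : CI, f.ok G = true → Hd (val S) (f.cl G)) (hU : ∀ c ∈ units, Hd (val S) c) :
    Hd (val S) [8, 10, 12, 1408, 1410, 1442, 1446, 2520] :=
  stu_sound A A2 hU i253

theorem i254 : stu G units []
    [.initX 0 1 1 1]
    [8, 10, 12, 1412, 1416, 1428, 1432, 1448, 2290, 2520] 0x4ec4792d42cc2ca2c42c200600419118f18918617c181005
    [[0,3], [4], [2], [6], [8], [10], [12], [15], [1], [17], [19], [21], [23], [25], [27], [29], [31]]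
    16 5 4 1
    (.leaf 0x8000000040000000200000001000000008000000040000000200000001000000000100000080000000000040000000200000001000000008000000020000000400020001)
    [0x523] 17 17 = true := by
  decide +kernel

theorem j254 (A : ∀ f : CS, f.ok G = true → Hd (val S) (f.cl G))
    (A2 : ∀ f : CI, f.ok G = true → Hd (val S) (f.cl G)) (hU : ∀ c ∈ units, Hd (val S) c) :
    Hd (val S) [8, 10, 12, 1412, 1416, 1428, 1432, 1448, 2290, 2520] :=
  stu_sound A A2 hU i254

theorem i255 : stu G units []
    [.initX 0 1 1 1]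
    [8, 10, 12, 1416, 1446, 2290, 2520] 0x4ec4792d32c400600419118f18918617c181005
    [[0,3], [4], [2], [6], [8], [10], [12], [15], [1], [17], [19], [21], [23], [25]]
    13 4 4 1
    (.leaf 0x8000001000000200000040000008000000020000400000000040000008000001000000200000020000010004001)
    [0x139] 14 14 = true := by
  decide +kernel

theorem j255 (A : ∀ f : CS, f.ok G = true → Hd (val S) (f.cl G))
    (A2 : ∀ f : CI, f.ok G = true → Hd (val S) (f.cl G)) (hU : ∀ c ∈ units, Hd (val S) c) :
    Hd (val S) [8, 10, 12, 1416, 1446, 2290, 2520] :=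
  stu_sound A A2 hU i255

theorem i256 : stu G units []
    [.initX 0 1 1 1]
    [8, 10, 14, 16, 30, 34, 1426, 1428, 1436, 2290, 2521] 0x4ec4792ce2ca2c901100f00800700419118f18918617c181005
    [[0,3], [4], [2], [6], [8], [10], [12], [15], [1], [17], [19], [21], [23], [25], [27], [29], [31], [32]]
    17 5 4 1
    (.leaf 0x40001000000002000000004000000008000000010000000020000000040000000080000000002000000400000000000040000000080000000100000000200000000200000001000040001)
    [0x469] 18 18 = true := by
  decide +kernel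

theorem j256 (A : ∀ f : CS, f.ok G = true → Hd (val S) (f.cl G))
    (A2 : ∀ f : CI, f.ok G = true → Hd (val S) (f.cl G)) (hU : ∀ c ∈ units, Hd (val S) c) :
    Hd (val S) [8, 10, 14, 16, 30, 34, 1426, 1428, 1436, 2290, 2521] :=
  stu_sound A A2 hU i256

theorem i257 : stu G units []
    [.initX 0 1 1 1]
    [8, 10, 14, 16, 30, 390, 618, 1428, 1432, 1364] 0x2aa2cc2ca1350c300f00800700419118f18918617c181005
    [[0,3], [4], [2], [6], [8], [10], [12], [15], [1], [17], [19], [21], [23], [25], [27], [29], [31]]
    16 5 4 1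
    (.leaf 0x8000000040000000200000001000000008000000040000000200000001000000000100000080000000000040000000200000001000000008000000020000000400020001)
    [0x523] 17 17 = true := by
  decide +kernel

theorem j257 (A : ∀ f : CS, f.ok G = true → Hd (val S) (f.cl G))
    (A2 : ∀ f : CI, f.ok G = true → Hd (val S) (f.cl G)) (hU : ∀ c ∈ units, Hd (val S) c) :
    Hd (val S) [8, 10, 14, 16, 30, 390, 618, 1428, 1432, 1364] :=
  stu_sound A A2 hU i257

theorem i258 : stu G units []
    [.initX 0 1 1 1]
    [8, 10, 14, 16, 30, 1412, 1424, 1426, 1432, 1364, 2290] 0x4792aa2cc2c92c82c200f00800700419118f18918617c181005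
    [[0,3], [4], [2], [6], [8], [10], [12], [15], [1], [17], [19], [21], [23], [25], [27], [29], [31], [33]]
    17 5 4 1
    (.leaf 0x800000001000000002000000004000000008000000010000000020000000040000000080000000002000000400000000000040000000080000000100000000200000000200000001000040001)
    [0x469] 18 18 = true := by
  decide +kernel

theorem j258 (A : ∀ f : CS, f.ok G = true → Hd (val S) (f.cl G))
    (A2 : ∀ f : CI, f.ok G = true → Hd (val S) (f.cl G)) (hU : ∀ c ∈ units, Hd (val S) c) :
    Hd (val S) [8, 10, 14, 16, 30, 1412, 1424, 1426, 1432, 1364, 2290] :=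
  stu_sound A A2 hU i258

theorem i259 : stu G units []
    [.initX 0 1 1 1]
    [8, 10, 14, 16, 34, 1426, 1428, 1436, 2201, 2296] 0x47c44c2ce2ca2c901100800700419118f18918617c181005
    [[0,3], [4], [2], [6], [8], [10], [12], [15], [1], [17], [19], [21], [23], [25], [27], [28], [31]]
    16 5 4 1
    (.leaf 0x8000000000004000200000001000000008000000040000000200000001000000000100000080000000000040000000200000001000000008000000020000000400020001)
    [0x523] 17 17 = true := by
  decide +kernel

theorem j259 (A : ∀ f : CS, f.ok G = true → Hd (val S) (f.cl G))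
    (A2 : ∀ f : CI, f.ok G = true → Hd (val S) (f.cl G)) (hU : ∀ c ∈ units, Hd (val S) c) :
    Hd (val S) [8, 10, 14, 16, 34, 1426, 1428, 1436, 2201, 2296] :=
  stu_sound A A2 hU i259

theorem i260 : stu G units []
    [.initX 0 1 1 1]
    [8, 10, 14, 18, 30, 32, 1426, 1428, 1436, 2290, 2521] 0x4ec4792ce2ca2c901000f00900700419118f18918617c181005
    [[0,3], [4], [2], [6], [8], [10], [12], [15], [1], [17], [19], [21], [23], [25], [27], [29], [31], [32]]
    17 5 4 1
    (.leaf 0x40001000000002000000004000000008000000010000000020000000040000000080000000002000000400000000000040000000080000000100000000200000000200000001000040001)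
    [0x469] 18 18 = true := by
  decide +kernel

theorem j260 (A : ∀ f : CS, f.ok G = true → Hd (val S) (f.cl G))
    (A2 : ∀ f : CI, f.ok G = true → Hd (val S) (f.cl G)) (hU : ∀ c ∈ units, Hd (val S) c) :
    Hd (val S) [8, 10, 14, 18, 30, 32, 1426, 1428, 1436, 2290, 2521] :=
  stu_sound A A2 hU i260

theorem i261 : stu G units []
    [.initX 0 1 1 1]
    [8, 10, 14, 24, 26, 1432, 2201, 2296] 0x47c44c2cc00d00c00700419118f18918617c181005
    [[0,3], [4], [2], [6], [8], [10], [12], [15], [1], [17], [19], [21], [23], [24], [27]]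
    14 5 4 1
    (.leaf 0x800000000010002000000100000008000000400000000400002000000000040000002000000100000008000000200000040008001)
    [0x469] 15 15 = true := by
  decide +kernel

theorem j261 (A : ∀ f : CS, f.ok G = true → Hd (val S) (f.cl G))
    (A2 : ∀ f : CI, f.ok G = true → Hd (val S) (f.cl G)) (hU : ∀ c ∈ units, Hd (val S) c) :
    Hd (val S) [8, 10, 14, 24, 26, 1432, 2201, 2296] :=
  stu_sound A A2 hU i261

theorem i262 : stu G units []
    [.initX 0 1 1 1]
    [8, 10, 14, 24, 390, 618, 1315, 1365, 2290] 0x4792aa2911350c300c00700419118f18918617c181005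
    [[0,3], [4], [2], [6], [8], [10], [12], [15], [1], [17], [19], [21], [23], [24], [26], [29]]
    15 5 4 1
    (.leaf 0x800000000002000000040004000000080000001000000020000000008000010000000000040000000800000010000000200000002000000100010001)
    [0x523] 16 16 = true := by
  decide +kernel

theorem j262 (A : ∀ f : CS, f.ok G = true → Hd (val S) (f.cl G))
    (A2 : ∀ f : CI, f.ok G = true → Hd (val S) (f.cl G)) (hU : ∀ c ∈ units, Hd (val S) c) :
    Hd (val S) [8, 10, 14, 24, 390, 618, 1315, 1365, 2290] :=
  stu_sound A A2 hU i262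

theorem i263 : stu G units []
    [.initX 0 1 1 1]
    [8, 10, 14, 24, 1412, 1424, 1436, 2201, 1315, 1365, 2290] 0x4792aa29144c2ce2c82c200c00700419118f18918617c181005
    [[0,3], [4], [2], [6], [8], [10], [12], [15], [1], [17], [19], [21], [23], [25], [26], [28], [30], [33]]
    17 5 4 1
    (.leaf 0x800000000000080000000100000000200008000000010000000020000000040000000080000000002000000400000000000040000000080000000100000000200000000200000001000040001)
    [0x469] 18 18 = true := by
  decide +kernel

theorem j263 (A : ∀ f : CS, f.ok G = true → Hd (val S) (f.cl G))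
    (A2 : ∀ f : CI, f.ok G = true → Hd (val S) (f.cl G)) (hU : ∀ c ∈ units, Hd (val S) c) :
    Hd (val S) [8, 10, 14, 24, 1412, 1424, 1436, 2201, 1315, 1365, 2290] :=
  stu_sound A A2 hU i263

theorem i264 : stu G units []
    [.initX 0 1 1 1]
    [8, 10, 14, 26, 30, 390, 618, 1412, 1418, 1446, 1364] 0x2aa2d32c52c21350c300f00d00700419118f18918617c181005
    [[0,3], [4], [2], [6], [8], [10], [12], [15], [1], [17], [19], [21], [23], [25], [27], [29], [31], [33]]
    17 5 4 1
    (.leaf 0x800000001000000002000000004000000008000000010000000020000000040000000080000000002000000400000000000040000000080000000100000000200000000200000001000040001)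
    [0x469] 18 18 = true := by
  decide +kernel

theorem j264 (A : ∀ f : CS, f.ok G = true → Hd (val S) (f.cl G))
    (A2 : ∀ f : CI, f.ok G = true → Hd (val S) (f.cl G)) (hU : ∀ c ∈ units, Hd (val S) c) :
    Hd (val S) [8, 10, 14, 26, 30, 390, 618, 1412, 1418, 1446, 1364] :=
  stu_sound A A2 hU i264

theorem i265 : stu G units []
    [.initX 0 1 1 1]
    [8, 10, 14, 26, 390, 618, 1412, 1418, 1446, 1314, 1364] 0x2aa2912d32c52c21350c300d00700419118f18918617c181005
    [[0,3], [4], [2], [6], [8], [10], [12], [15], [1], [17], [19], [21], [23], [25], [27], [29], [31], [33]]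
    17 5 4 1
    (.leaf 0x800000001000000002000000004000000008000000010000000020000000040000000080000000002000000400000000000040000000080000000100000000200000000200000001000040001)
    [0x469] 18 18 = true := by
  decide +kernel

theorem j265 (A : ∀ f : CS, f.ok G = true → Hd (val S) (f.cl G))
    (A2 : ∀ f : CI, f.ok G = true → Hd (val S) (f.cl G)) (hU : ∀ c ∈ units, Hd (val S) c) :
    Hd (val S) [8, 10, 14, 26, 390, 618, 1412, 1418, 1446, 1314, 1364] :=
  stu_sound A A2 hU i265

theorem i266 : stu G units []
    [.initX 0 1 1 1]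
    [8, 10, 14, 390, 1418, 1804, 2517, 2308] 0x4824ea3862c50c300700419118f18918617c181005
    [[0,3], [4], [2], [6], [8], [10], [12], [15], [1], [17], [19], [21], [23], [24], [27]]
    14 5 4 1
    (.leaf 0x800000000010002000000100000008000000400000000400002000000000040000002000000100000008000000200000040008001)
    [0x469] 15 15 = true := by
  decide +kernel

theorem j266 (A : ∀ f : CS, f.ok G = true → Hd (val S) (f.cl G))
    (A2 : ∀ f : CI, f.ok G = true → Hd (val S) (f.cl G)) (hU : ∀ c ∈ units, Hd (val S) c) :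
    Hd (val S) [8, 10, 14, 390, 1418, 1804, 2517, 2308] :=
  stu_sound A A2 hU i266

theorem i267 : stu G units []
    [.initX 0 1 1 1]
    [8, 10, 14, 1412, 1418, 1428, 2517, 2290, 2308] 0x4824794ea2ca2c52c200700419118f18918617c181005
    [[0,3], [4], [2], [6], [8], [10], [12], [15], [1], [17], [19], [21], [23], [24], [27], [29]]
    15 5 4 1
    (.leaf 0x800000010000000000040004000000080000001000000020000000008000010000000000040000000800000010000000200000002000000100010001)
    [0x523] 16 16 = true := by
  decide +kernel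

theorem j267 (A : ∀ f : CS, f.ok G = true → Hd (val S) (f.cl G))
    (A2 : ∀ f : CI, f.ok G = true → Hd (val S) (f.cl G)) (hU : ∀ c ∈ units, Hd (val S) c) :
    Hd (val S) [8, 10, 14, 1412, 1418, 1428, 2517, 2290, 2308] :=
  stu_sound A A2 hU i267

theorem i268 : stu G units []
    [.initX 0 1 1 1]
    [8, 10, 14, 1412, 1418, 1428, 2517, 2308, 2294] 0x47b4824ea2ca2c52c200700419118f18918617c181005
    [[0,3], [4], [2], [6], [8], [10], [12], [15], [1], [17], [19], [21], [23], [24], [27], [29]]
    15 5 4 1
    (.leaf 0x800000010000000000040004000000080000001000000020000000008000010000000000040000000800000010000000200000002000000100010001)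
    [0x523] 16 16 = true := by
  decide +kernel

theorem j268 (A : ∀ f : CS, f.ok G = true → Hd (val S) (f.cl G))
    (A2 : ∀ f : CI, f.ok G = true → Hd (val S) (f.cl G)) (hU : ∀ c ∈ units, Hd (val S) c) :
    Hd (val S) [8, 10, 14, 1412, 1418, 1428, 2517, 2308, 2294] :=
  stu_sound A A2 hU i268

theorem i269 : stu G units []
    [.initX 0 1 1 1]
    [8, 10, 14, 1412, 1418, 1434, 2290, 2308] 0x4824792cd2c52c200700419118f18918617c181005
    [[0,3], [4], [2], [6], [8], [10], [12], [15], [1], [17], [19], [21], [23], [25], [27]]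
    14 5 4 1
    (.leaf 0x800000040000002000000100000008000000400000000400002000000000040000002000000100000008000000200000040008001)
    [0x469] 15 15 = true := by
  decide +kernel

theorem j269 (A : ∀ f : CS, f.ok G = true → Hd (val S) (f.cl G))
    (A2 : ∀ f : CI, f.ok G = true → Hd (val S) (f.cl G)) (hU : ∀ c ∈ units, Hd (val S) c) :
    Hd (val S) [8, 10, 14, 1412, 1418, 1434, 2290, 2308] :=
  stu_sound A A2 hU i269

theorem i270 : stu G units []
    [.initX 0 1 1 1]
    [8, 10, 14, 1418, 1424, 1426, 1434, 1438, 2521, 2296] 0x47c4ec2cf2cd2c92c82c500700419118f18918617c181005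
    [[0,3], [4], [2], [6], [8], [10], [12], [15], [1], [17], [19], [21], [23], [25], [27], [28], [31]]
    16 5 4 1
    (.leaf 0x8000000000004000200000001000000008000000040000000200000001000000000100000080000000000040000000200000001000000008000000020000000400020001)
    [0x523] 17 17 = true := by
  decide +kernel

theorem j270 (A : ∀ f : CS, f.ok G = true → Hd (val S) (f.cl G))
    (A2 : ∀ f : CI, f.ok G = true → Hd (val S) (f.cl G)) (hU : ∀ c ∈ units, Hd (val S) c) :
    Hd (val S) [8, 10, 14, 1418, 1424, 1426, 1434, 1438, 2521, 2296] :=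
  stu_sound A A2 hU i270

theorem i271 : stu G units []
    [.initX 0 1 1 1]
    [8, 10, 14, 1418, 1428, 1450, 2517, 2308, 2296] 0x47c4824ea2d52ca2c500700419118f18918617c181005
    [[0,3], [4], [2], [6], [8], [10], [12], [15], [1], [17], [19], [21], [23], [24], [27], [29]]
    15 5 4 1
    (.leaf 0x800000010000000000040004000000080000001000000020000000008000010000000000040000000800000010000000200000002000000100010001)
    [0x523] 16 16 = true := by
  decide +kernel

theorem j271 (A : ∀ f : CS, f.ok G = true → Hd (val S) (f.cl G))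
    (A2 : ∀ f : CI, f.ok G = true → Hd (val S) (f.cl G)) (hU : ∀ c ∈ units, Hd (val S) c) :
    Hd (val S) [8, 10, 14, 1418, 1428, 1450, 2517, 2308, 2296] :=
  stu_sound A A2 hU i271

theorem i272 : stu G units []
    [.initX 0 1 1 1]
    [8, 10, 14, 1418, 1428, 2517, 2290, 2308, 2294] 0x47b4824794ea2ca2c500700419118f18918617c181005
    [[0,3], [4], [2], [6], [8], [10], [12], [15], [1], [17], [19], [21], [22], [25], [27], [29]]
    15 5 4 1
    (.leaf 0x800000010000000200000000000800080000001000000020000000008000010000000000040000000800000010000000200000002000000100010001)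
    [0x523] 16 16 = true := by
  decide +kernel

theorem j272 (A : ∀ f : CS, f.ok G = true → Hd (val S) (f.cl G))
    (A2 : ∀ f : CI, f.ok G = true → Hd (val S) (f.cl G)) (hU : ∀ c ∈ units, Hd (val S) c) :
    Hd (val S) [8, 10, 14, 1418, 1428, 2517, 2290, 2308, 2294] :=
  stu_sound A A2 hU i272

theorem i273 : stu G units []
    [.initX 0 1 1 1]
    [8, 10, 14, 2201, 2519, 2296, 2302] 0x47f47c4eb44c00700419118f18918617c181005
    [[0,3], [4], [2], [6], [8], [10], [12], [15], [1], [17], [18], [20], [23], [25]]
    13 4 4 1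
    (.leaf 0x8000001000000000100000020008000000020000400000000040000008000001000000200000020000010004001)
    [0x139] 14 14 = true := by
  decide +kernel

theorem j273 (A : ∀ f : CS, f.ok G = true → Hd (val S) (f.cl G))
    (A2 : ∀ f : CI, f.ok G = true → Hd (val S) (f.cl G)) (hU : ∀ c ∈ units, Hd (val S) c) :
    Hd (val S) [8, 10, 14, 2201, 2519, 2296, 2302] :=
  stu_sound A A2 hU i273

theorem i274 : stu G units []
    [.initX 0 1 1 1]
    [8, 10, 16, 30, 391, 612, 1412, 1418, 1446, 1364] 0x2aa2d32c52c21320c300f00800419118f18918617c181005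
    [[0,3], [4], [2], [6], [8], [10], [12], [15], [1], [17], [19], [20], [23], [25], [27], [29], [31]]
    16 5 4 1
    (.leaf 0x8000000040000000200000001000000008000000000004000200000001000000000100000080000000000040000000200000001000000008000000020000000400020001)
    [0x523] 17 17 = true := by
  decide +kernel

theorem j274 (A : ∀ f : CS, f.ok G = true → Hd (val S) (f.cl G))
    (A2 : ∀ f : CI, f.ok G = true → Hd (val S) (f.cl G)) (hU : ∀ c ∈ units, Hd (val S) c) :
    Hd (val S) [8, 10, 16, 30, 391, 612, 1412, 1418, 1446, 1364] :=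
  stu_sound A A2 hU i274

theorem i275 : stu G units []
    [.initX 0 1 1 1]
    [8, 10, 16, 30, 391, 612, 1428, 1432, 1364] 0x2aa2cc2ca1320c300f00800419118f18918617c181005
    [[0,3], [4], [2], [6], [8], [10], [12], [15], [1], [17], [19], [20], [23], [25], [27], [29]]
    15 5 4 1
    (.leaf 0x800000010000000200000004000000000010001000000020000000008000010000000000040000000800000010000000200000002000000100010001)
    [0x523] 16 16 = true := by
  decide +kernel

theorem j275 (A : ∀ f : CS, f.ok G = true → Hd (val S) (f.cl G))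
    (A2 : ∀ f : CI, f.ok G = true → Hd (val S) (f.cl G)) (hU : ∀ c ∈ units, Hd (val S) c) :
    Hd (val S) [8, 10, 16, 30, 391, 612, 1428, 1432, 1364] :=
  stu_sound A A2 hU i275

theorem i276 : stu G units []
    [.initX 0 1 1 1]
    [8, 10, 26, 391, 612, 1412, 1418, 1446, 1314, 1364] 0x2aa2912d32c52c21320c300d00419118f18918617c181005
    [[0,3], [4], [2], [6], [8], [10], [12], [15], [1], [17], [18], [21], [23], [25], [27], [29], [31]]
    16 5 4 1
    (.leaf 0x8000000040000000200000001000000008000000040000000000020001000000000100000080000000000040000000200000001000000008000000020000000400020001)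
    [0x523] 17 17 = true := by
  decide +kernel

theorem j276 (A : ∀ f : CS, f.ok G = true → Hd (val S) (f.cl G))
    (A2 : ∀ f : CI, f.ok G = true → Hd (val S) (f.cl G)) (hU : ∀ c ∈ units, Hd (val S) c) :
    Hd (val S) [8, 10, 26, 391, 612, 1412, 1418, 1446, 1314, 1364] :=
  stu_sound A A2 hU i276

theorem i277 : stu G units []
    [.initX 0 1 1 1]
    [8, 10, 396, 1416, 1804, 2519, 2300] 0x47e4eb3862c40c600419118f18918617c181005
    [[0,3], [4], [2], [6], [8], [10], [12], [15], [1], [17], [19], [21], [22], [25]]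
    13 4 4 1
    (.leaf 0x8000000000800200000040000008000000020000400000000040000008000001000000200000020000010004001)
    [0x139] 14 14 = true := by
  decide +kernel

theorem j277 (A : ∀ f : CS, f.ok G = true → Hd (val S) (f.cl G))
    (A2 : ∀ f : CI, f.ok G = true → Hd (val S) (f.cl G)) (hU : ∀ c ∈ units, Hd (val S) c) :
    Hd (val S) [8, 10, 396, 1416, 1804, 2519, 2300] :=
  stu_sound A A2 hU i277

theorem i278 : stu G units []
    [.initX 0 1 1 1]
    [8, 10, 1412, 1416, 1448, 2516, 2519, 2300] 0x47e4eb4ea2d42c42c200419118f18918617c181005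
    [[0,3], [4], [2], [6], [8], [10], [12], [15], [1], [17], [19], [21], [23], [24], [27]]
    14 5 4 1
    (.leaf 0x800000000010002000000100000008000000400000000400002000000000040000002000000100000008000000200000040008001)
    [0x469] 15 15 = true := by
  decide +kernel

theorem j278 (A : ∀ f : CS, f.ok G = true → Hd (val S) (f.cl G))
    (A2 : ∀ f : CI, f.ok G = true → Hd (val S) (f.cl G)) (hU : ∀ c ∈ units, Hd (val S) c) :
    Hd (val S) [8, 10, 1412, 1416, 1448, 2516, 2519, 2300] :=
  stu_sound A A2 hU i278

theorem i279 : stu G units []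
    [.initX 0 1 1 1]
    [8, 10, 1412, 1428, 1432, 1447, 1448, 2288, 2519, 2302] 0x47f4eb4782d42d32cc2ca2c200419118f18918617c181005
    [[0,3], [4], [2], [6], [8], [10], [12], [15], [1], [17], [19], [21], [22], [25], [27], [28], [31]]
    16 5 4 1
    (.leaf 0x8000000000004000200000001000000000000800040000000200000001000000000100000080000000000040000000200000001000000008000000020000000400020001)
    [0x523] 17 17 = true := by
  decide +kernel

theorem j279 (A : ∀ f : CS, f.ok G = true → Hd (val S) (f.cl G))
    (A2 : ∀ f : CI, f.ok G = true → Hd (val S) (f.cl G)) (hU : ∀ c ∈ units, Hd (val S) c) :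
    Hd (val S) [8, 10, 1412, 1428, 1432, 1447, 1448, 2288, 2519, 2302] :=
  stu_sound A A2 hU i279

theorem i280 : stu G units []
    [.initX 0 1 1 1]
    [8, 10, 1412, 1447, 1448, 2517, 2288] 0x4784ea2d42d32c200419118f18918617c181005
    [[0,3], [4], [2], [6], [8], [10], [12], [15], [1], [17], [18], [21], [22], [25]]
    13 4 4 1
    (.leaf 0x8000000000800200000000020008000000020000400000000040000008000001000000200000020000010004001)
    [0x139] 14 14 = true := by
  decide +kernel

theorem j280 (A : ∀ f : CS, f.ok G = true → Hd (val S) (f.cl G))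
    (A2 : ∀ f : CI, f.ok G = true → Hd (val S) (f.cl G)) (hU : ∀ c ∈ units, Hd (val S) c) :
    Hd (val S) [8, 10, 1412, 1447, 1448, 2517, 2288] :=
  stu_sound A A2 hU i280

theorem i281 : stu G units []
    [.initX 0 1 1 1]
    [8, 10, 1416, 1428, 1432, 2288, 2519, 2300] 0x47e4eb4782cc2ca2c400419118f18918617c181005
    [[0,3], [4], [2], [6], [8], [10], [12], [15], [1], [17], [19], [21], [23], [24], [27]]
    14 5 4 1
    (.leaf 0x800000000010002000000100000008000000400000000400002000000000040000002000000100000008000000200000040008001)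
    [0x469] 15 15 = true := by
  decide +kernel

theorem j281 (A : ∀ f : CS, f.ok G = true → Hd (val S) (f.cl G))
    (A2 : ∀ f : CI, f.ok G = true → Hd (val S) (f.cl G)) (hU : ∀ c ∈ units, Hd (val S) c) :
    Hd (val S) [8, 10, 1416, 1428, 1432, 2288, 2519, 2300] :=
  stu_sound A A2 hU i281

theorem i282 : stu G units []
    [.initX 0 1 1 1]
    [8, 10, 1416, 1428, 1432, 2288, 2520] 0x4ec4782cc2ca2c400419118f18918617c181005
    [[0,3], [4], [2], [6], [8], [10], [12], [15], [1], [17], [19], [21], [23], [25]]
    13 4 4 1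
    (.leaf 0x8000001000000200000040000008000000020000400000000040000008000001000000200000020000010004001)
    [0x139] 14 14 = true := by
  decide +kernel

theorem j282 (A : ∀ f : CS, f.ok G = true → Hd (val S) (f.cl G))
    (A2 : ∀ f : CI, f.ok G = true → Hd (val S) (f.cl G)) (hU : ∀ c ∈ units, Hd (val S) c) :
    Hd (val S) [8, 10, 1416, 1428, 1432, 2288, 2520] :=
  stu_sound A A2 hU i282

theorem i283 : stu G units []
    [.initX 0 2 2 1]
    [8, 14, 20, 38, 390, 608, 1410, 1412, 1428, 1365, 2519, 2302] 0x47f4eb2aa2ca2c22c11300c301300700419118f18918117c18600a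
    [[0,3], [4], [6], [2], [8], [10], [12], [15], [17], [1], [19], [21], [23], [25], [27], [29], [30], [32], [35]]
    18 5 4 1
    (.leaf 0x800000000000010000000008000100000000080000000040000000020000000010000000008000000000040000004000000002000000000000040000000020000000010000000002000000008000000004000080001)
    [0x544] 19 19 = true := by
  decide +kernel

theorem j283 (A : ∀ f : CS, f.ok G = true → Hd (val S) (f.cl G))
    (A2 : ∀ f : CI, f.ok G = true → Hd (val S) (f.cl G)) (hU : ∀ c ∈ units, Hd (val S) c) :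
    Hd (val S) [8, 14, 20, 38, 390, 608, 1410, 1412, 1428, 1365, 2519, 2302] :=
  stu_sound A A2 hU i283

theorem i284 : stu G units []
    [.initX 0 2 2 1]
    [8, 14, 20, 38, 390, 608, 1416, 1428, 1365, 2290, 2519] 0x4eb4792aa2ca2c41300c301300700419118f18918117c18600a
    [[0,3], [4], [6], [2], [8], [10], [12], [15], [17], [1], [19], [21], [23], [25], [27], [28], [31], [32]]
    17 5 4 1
    (.leaf 0x40001000000000000100004000000008000000010000000020000000040000000000800000200000000400000000000040000000080000000100000000080000000800000001000040001)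
    [0x48a] 18 18 = true := by
  decide +kernel

theorem j284 (A : ∀ f : CS, f.ok G = true → Hd (val S) (f.cl G))
    (A2 : ∀ f : CI, f.ok G = true → Hd (val S) (f.cl G)) (hU : ∀ c ∈ units, Hd (val S) c) :
    Hd (val S) [8, 14, 20, 38, 390, 608, 1416, 1428, 1365, 2290, 2519] :=
  stu_sound A A2 hU i284

theorem i285 : stu G units []
    [.initX 0 2 2 1]
    [8, 14, 20, 38, 390, 1410, 1412, 1428, 1436, 1450, 1883, 2201, 1365] 0x2aa44c3ad2d52ce2ca2c22c10c301300700419118f18918117c18600a
    [[0,3], [4], [6], [2], [8], [10], [12], [15], [17], [1], [19], [21], [23], [25], [27], [29], [31], [32], [34], [36]]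
    19 5 4 1
    (.leaf 0x100000000020000000004000040000000008000000001000000000200000000040000000008000000001000000000002000000080000000010000000000000040000000008000000001000000000080000000080000000010000100001)
    [0x544] 20 20 = true := by
  decide +kernel

theorem j285 (A : ∀ f : CS, f.ok G = true → Hd (val S) (f.cl G))
    (A2 : ∀ f : CI, f.ok G = true → Hd (val S) (f.cl G)) (hU : ∀ c ∈ units, Hd (val S) c) :
    Hd (val S) [8, 14, 20, 38, 390, 1410, 1412, 1428, 1436, 1450, 1883, 2201, 1365] :=
  stu_sound A A2 hU i285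

theorem i286 : stu G units []
    [.initX 0 2 2 1]
    [8, 14, 20, 38, 481, 1410, 1412, 1434, 1365, 2290] 0x4792aa2cd2c22c10f001300700419118f18918117c18600a
    [[0,3], [4], [6], [2], [8], [10], [12], [15], [17], [1], [19], [20], [23], [25], [27], [28], [31]]
    16 5 4 1
    (.leaf 0x8000000000004000200000001000000008000000000004000200000000010000010000000080000000000040000000200000001000000002000000080000000400020001)
    [0x544] 17 17 = true := by
  decide +kernel

theorem j286 (A : ∀ f : CS, f.ok G = true → Hd (val S) (f.cl G))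
    (A2 : ∀ f : CI, f.ok G = true → Hd (val S) (f.cl G)) (hU : ∀ c ∈ units, Hd (val S) c) :
    Hd (val S) [8, 14, 20, 38, 481, 1410, 1412, 1434, 1365, 2290] :=
  stu_sound A A2 hU i286

theorem i287 : stu G units []
    [.initX 0 4 3 1]
    [8, 14, 38, 390, 397, 1410, 1365, 2520] 0x4ec2aa2c10c60c300700419118918618117c18f013
    [[0,3], [4], [6], [8], [10], [2], [12], [15], [17], [1], [19], [20], [23], [24], [27]]
    14 5 4 1
    (.leaf 0x800000000010002000000000040008000000004000040000002000000000040000000200000200000010000000800000040008001)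
    [0x4ca] 15 15 = true := by
  decide +kernel

theorem j287 (A : ∀ f : CS, f.ok G = true → Hd (val S) (f.cl G))
    (A2 : ∀ f : CI, f.ok G = true → Hd (val S) (f.cl G)) (hU : ∀ c ∈ units, Hd (val S) c) :
    Hd (val S) [8, 14, 38, 390, 397, 1410, 1365, 2520] :=
  stu_sound A A2 hU i287

theorem i288 : stu G units []
    [.initX 0 4 3 1]
    [8, 14, 38, 481, 1410, 1412, 1365, 2519, 2300] 0x47e4eb2aa2c22c10f000700419118918618117c18f013
    [[0,3], [4], [6], [8], [10], [2], [12], [15], [17], [1], [18], [21], [23], [24], [26], [29]]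
    15 5 4 1
    (.leaf 0x800000000002000000040004000000080000000000200000200000800000010000000000040000000080000020000000400000008000000100010001)
    [0x546] 16 16 = true := by
  decide +kernel

theorem j288 (A : ∀ f : CS, f.ok G = true → Hd (val S) (f.cl G))
    (A2 : ∀ f : CI, f.ok G = true → Hd (val S) (f.cl G)) (hU : ∀ c ∈ units, Hd (val S) c) :
    Hd (val S) [8, 14, 38, 481, 1410, 1412, 1365, 2519, 2300] :=
  stu_sound A A2 hU i288

theorem i289 : stu G units [.mix 0 0 2 1, .mix 0 0 3 1, .letlab 0 4 1 0]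
    [.initX 0 4 3 1]
    [8, 391, 444, 1410, 1412, 1365, 2520] 0x4ec2aa2c22c10de00419118918618117c18f0131020f00c3
    [[1,3], [1,5], [7,2,4], [6,9], [10], [12], [14], [16], [8], [18], [21], [0], [23], [25], [27], [28], [31]]
    16 5 14 1
    (.leaf 0x4000000020000000000088000000000004000200000001000000008000000000000010400000000000200000000100000010000000080000000400000002000100008000800060005000000030000)
    [0x3952601300160089] 17 20 = true := by
  decide +kernel

theorem j289 (A : ∀ f : CS, f.ok G = true → Hd (val S) (f.cl G))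
    (A2 : ∀ f : CI, f.ok G = true → Hd (val S) (f.cl G)) (hU : ∀ c ∈ units, Hd (val S) c) :
    Hd (val S) [8, 391, 444, 1410, 1412, 1365, 2520] :=
  stu_sound A A2 hU i289

theorem i290 : stu G units []
    [.initX 0 1 1 1]
    [10, 14, 20, 24, 396, 426, 1410, 1412, 1428] 0x2ca2c22c10d50c600c00a00719118f18918617c181005
    [[0,3], [4], [2], [6], [8], [10], [12], [1], [15], [17], [19], [21], [23], [25], [27], [29]]
    15 5 4 1
    (.leaf 0x800000010000000200000004000000080000001000000020000000400000000200000000040000000800000010000000200000002000000100010001)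
    [0x503] 16 16 = true := by
  decide +kernel

theorem j290 (A : ∀ f : CS, f.ok G = true → Hd (val S) (f.cl G))
    (A2 : ∀ f : CI, f.ok G = true → Hd (val S) (f.cl G)) (hU : ∀ c ∈ units, Hd (val S) c) :
    Hd (val S) [10, 14, 20, 24, 396, 426, 1410, 1412, 1428] :=
  stu_sound A A2 hU i290

theorem i291 : stu G units []
    [.initX 0 1 1 1]
    [10, 14, 20, 38, 390, 397, 1410, 1412, 1428, 1936, 1954, 1364, 2290] 0x4792aa3d13c82ca2c22c10c60c301300a00719118f18918617c181005
    [[0,3], [4], [2], [6], [8], [10], [12], [1], [15], [17], [19], [21], [22], [25], [27], [29], [31], [33], [35], [37]]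
    19 5 4 1
    (.leaf 0x8000000001000000000200000000040000000008000000001000000000200000000000000800008000000001000000000200000000040000000000200000000000040000000008000000001000000000200000000020000000010000100001)
    [0x503] 20 20 = true := by
  decide +kernel

theorem j291 (A : ∀ f : CS, f.ok G = true → Hd (val S) (f.cl G))
    (A2 : ∀ f : CI, f.ok G = true → Hd (val S) (f.cl G)) (hU : ∀ c ∈ units, Hd (val S) c) :
    Hd (val S) [10, 14, 20, 38, 390, 397, 1410, 1412, 1428, 1936, 1954, 1364, 2290] :=
  stu_sound A A2 hU i291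

theorem i292 : stu G units []
    [.initX 0 1 1 1]
    [10, 14, 20, 38, 390, 397, 1410, 1412, 1428, 1942, 1972, 1364, 2290] 0x4792aa3da3cb2ca2c22c10c60c301300a00719118f18918617c181005
    [[0,3], [4], [2], [6], [8], [10], [12], [1], [15], [17], [19], [21], [22], [25], [27], [29], [31], [33], [35], [37]]
    19 5 4 1
    (.leaf 0x8000000001000000000200000000040000000008000000001000000000200000000000000800008000000001000000000200000000040000000000200000000000040000000008000000001000000000200000000020000000010000100001)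
    [0x503] 20 20 = true := by
  decide +kernel

theorem j292 (A : ∀ f : CS, f.ok G = true → Hd (val S) (f.cl G))
    (A2 : ∀ f : CI, f.ok G = true → Hd (val S) (f.cl G)) (hU : ∀ c ∈ units, Hd (val S) c) :
    Hd (val S) [10, 14, 20, 38, 390, 397, 1410, 1412, 1428, 1942, 1972, 1364, 2290] :=
  stu_sound A A2 hU i292

theorem i293 : stu G units []
    [.initX 0 1 1 1]
    [10, 14, 20, 38, 463, 1410, 1412, 1364, 2290, 2519, 2302] 0x47f4eb4792aa2c22c10e701300a00719118f18918617c181005
    [[0,3], [4], [2], [6], [8], [10], [12], [1], [15], [17], [19], [20], [23], [25], [27], [29], [30], [33]]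
    17 5 4 1
    (.leaf 0x800000000000080002000000004000000008000000010000000000001000040000000080000000100000000008000000000040000000080000000100000000200000000200000001000040001)
    [0x468] 18 18 = true := by
  decide +kernel

theorem j293 (A : ∀ f : CS, f.ok G = true → Hd (val S) (f.cl G))
    (A2 : ∀ f : CI, f.ok G = true → Hd (val S) (f.cl G)) (hU : ∀ c ∈ units, Hd (val S) c) :
    Hd (val S) [10, 14, 20, 38, 463, 1410, 1412, 1364, 2290, 2519, 2302] :=
  stu_sound A A2 hU i293

theorem i294 : stu G units []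
    [.initX 0 1 1 1]
    [10, 14, 20, 38, 463, 1412, 1416, 1428, 1364, 2519, 2296] 0x47c4eb2aa2ca2c42c20e701300a00719118f18918617c181005
    [[0,3], [4], [2], [6], [8], [10], [12], [1], [15], [17], [19], [20], [23], [25], [27], [29], [30], [33]]
    17 5 4 1
    (.leaf 0x800000000000080002000000004000000008000000010000000000001000040000000080000000100000000008000000000040000000080000000100000000200000000200000001000040001)
    [0x468] 18 18 = true := by
  decide +kernel

theorem j294 (A : ∀ f : CS, f.ok G = true → Hd (val S) (f.cl G))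
    (A2 : ∀ f : CI, f.ok G = true → Hd (val S) (f.cl G)) (hU : ∀ c ∈ units, Hd (val S) c) :
    Hd (val S) [10, 14, 20, 38, 463, 1412, 1416, 1428, 1364, 2519, 2296] :=
  stu_sound A A2 hU i294

theorem i295 : stu G units []
    [.initX 0 1 1 1]
    [10, 14, 38, 390, 608, 1410, 1364, 2520] 0x4ec2aa2c11300c301300719118f18918617c181005
    [[0,3], [4], [2], [6], [8], [10], [12], [1], [15], [17], [19], [21], [23], [25], [27]]
    14 5 4 1
    (.leaf 0x800000040000002000000100000008000000400000020000000040000000040000002000000100000008000000200000040008001)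
    [0x468] 15 15 = true := by
  decide +kernel

theorem j295 (A : ∀ f : CS, f.ok G = true → Hd (val S) (f.cl G))
    (A2 : ∀ f : CI, f.ok G = true → Hd (val S) (f.cl G)) (hU : ∀ c ∈ units, Hd (val S) c) :
    Hd (val S) [10, 14, 38, 390, 608, 1410, 1364, 2520] :=
  stu_sound A A2 hU i295

theorem i296 : stu G units []
    [.initX 0 2 2 1]
    [12, 14, 20, 34, 38, 1410, 1412, 1424, 1365, 2290] 0x4792aa2c82c22c101301100700619118f18918117c18600a
    [[0,3], [4], [6], [2], [8], [10], [12], [15], [17], [1], [19], [21], [23], [25], [27], [28], [31]]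
    16 5 4 1
    (.leaf 0x8000000000004000200000001000000008000000040000000200000000010000010000000080000000000040000000200000001000000002000000080000000400020001)
    [0x544] 17 17 = true := by
  decide +kernel

theorem j296 (A : ∀ f : CS, f.ok G = true → Hd (val S) (f.cl G))
    (A2 : ∀ f : CI, f.ok G = true → Hd (val S) (f.cl G)) (hU : ∀ c ∈ units, Hd (val S) c) :
    Hd (val S) [12, 14, 20, 34, 38, 1410, 1412, 1424, 1365, 2290] :=
  stu_sound A A2 hU i296

theorem i297 : stu G units []
    [.initX 0 4 3 1]
    [12, 38, 44, 1408, 1412, 1436, 1452, 1793, 1942, 1972, 2519, 2302] 0x47f4eb3da3cb3802d62ce2c22c001600619118918618117c18f013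
    [[0,3], [4], [6], [8], [10], [2], [12], [15], [1], [17], [19], [21], [23], [25], [26], [29], [31], [32], [35]]
    18 5 4 1
    (.leaf 0x800000000000010000200000000100000000000002000040000000020000000010000000008000000004000000000040000002000000000000040000000002000000020000000010000000008000000004000080001)
    [0x526] 19 19 = true := by
  decide +kernel

theorem j297 (A : ∀ f : CS, f.ok G = true → Hd (val S) (f.cl G))
    (A2 : ∀ f : CI, f.ok G = true → Hd (val S) (f.cl G)) (hU : ∀ c ∈ units, Hd (val S) c) :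
    Hd (val S) [12, 38, 44, 1408, 1412, 1436, 1452, 1793, 1942, 1972, 2519, 2302] :=
  stu_sound A A2 hU i297

theorem i298 : stu G units []
    [.initX 0 4 3 1]
    [12, 38, 44, 1408, 1412, 1436, 1452, 1865, 1942, 1972, 2519, 2302] 0x47f4eb3da3cb3a42d62ce2c22c001600619118918618117c18f013
    [[0,3], [4], [6], [8], [10], [2], [12], [15], [1], [17], [19], [21], [23], [25], [26], [29], [31], [32], [35]]
    18 5 4 1
    (.leaf 0x800000000000010000200000000100000000000002000040000000020000000010000000008000000004000000000040000002000000000000040000000002000000020000000010000000008000000004000080001)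
    [0x526] 19 19 = true := by
  decide +kernel

theorem j298 (A : ∀ f : CS, f.ok G = true → Hd (val S) (f.cl G))
    (A2 : ∀ f : CI, f.ok G = true → Hd (val S) (f.cl G)) (hU : ∀ c ∈ units, Hd (val S) c) :
    Hd (val S) [12, 38, 44, 1408, 1412, 1436, 1452, 1865, 1942, 1972, 2519, 2302] :=
  stu_sound A A2 hU i298

theorem i299 : stu G units []
    [.initX 0 4 3 1]
    [12, 38, 44, 1408, 1412, 1436, 1452, 1936, 1943, 1990, 2519, 2302] 0x47f4eb3e33cb3c82d62ce2c22c001600619118918618117c18f013
    [[0,3], [4], [6], [8], [10], [2], [12], [15], [1], [17], [19], [21], [23], [25], [27], [28], [31], [32], [35]]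
    18 5 4 1
    (.leaf 0x800000000000010000200000000000004000080000000040000000020000000010000000008000000004000000000040000002000000000000040000000002000000020000000010000000008000000004000080001)
    [0x526] 19 19 = true := by
  decide +kernel

theorem j299 (A : ∀ f : CS, f.ok G = true → Hd (val S) (f.cl G))
    (A2 : ∀ f : CI, f.ok G = true → Hd (val S) (f.cl G)) (hU : ∀ c ∈ units, Hd (val S) c) :
    Hd (val S) [12, 38, 44, 1408, 1412, 1436, 1452, 1936, 1943, 1990, 2519, 2302] :=
  stu_sound A A2 hU i299

theorem i300 : stu G units [.some 1 2, .some 1 3, .legal 1 2 1, .legal2 0 1 2 2 0, .legal2 0 1 2 2 2, .legal2 0 1 3 1 3]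
    [.initX 0 2 2 1, .initX 0 3 1 1]
    [12, 1418, 1430, 1432, 1436, 2288, 2518] 0x4eb4782c500619118f18117c18918600d00a2cf2ce2cd2cc2cb2ca2c92c8
    [[0,2,4,6], [8,10,12,14], [3,11], [17,1], [17,5], [19,15], [16,21], [18,23], [24], [26], [20], [22], [28], [30], [33], [35], [7], [9], [13], [37], [39]]
    20 5 31 1
    (.leaf 0x400002000000000000000200080000000000000200000040000000001000000000000100800000000040000000000004000000000100000000008000002000000000100000000000000080000000004000000000080000000004000000002000000000100000800002000040000100002800000000104000000010100000000220000000000000f0000000000f)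
    [0x27d00b5c9007b006f8880d9021802d804b00eb] 21 29 = true := by
  decide +kernel

theorem j300 (A : ∀ f : CS, f.ok G = true → Hd (val S) (f.cl G))
    (A2 : ∀ f : CI, f.ok G = true → Hd (val S) (f.cl G)) (hU : ∀ c ∈ units, Hd (val S) c) :
    Hd (val S) [12, 1418, 1430, 1432, 1436, 2288, 2518] :=
  stu_sound A A2 hU i300

theorem i301 : stu G units []
    [.initX 0 2 2 1]
    [14, 16, 20, 38, 390, 608, 1412, 1416, 1434, 1452, 1364] 0x2aa2d62cd2c42c21300c301300800719118f18918117c18600a
    [[0,3], [4], [6], [2], [8], [10], [12], [15], [17], [1], [19], [21], [23], [25], [27], [29], [31], [33]]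
    17 5 4 1
    (.leaf 0x800000001000000002000000004000000008000000010000000020000000040000000000800000200000000400000000000040000000080000000100000000080000000800000001000040001)
    [0x48a] 18 18 = true := by
  decide +kernel

theorem j301 (A : ∀ f : CS, f.ok G = true → Hd (val S) (f.cl G))
    (A2 : ∀ f : CI, f.ok G = true → Hd (val S) (f.cl G)) (hU : ∀ c ∈ units, Hd (val S) c) :
    Hd (val S) [14, 16, 20, 38, 390, 608, 1412, 1416, 1434, 1452, 1364] :=
  stu_sound A A2 hU i301

theorem i302 : stu G units []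
    [.initX 0 2 2 1]
    [14, 18, 20, 38, 612, 1408, 1410, 1416, 1428, 1793, 1365, 2308] 0x4822aa3802ca2c42c12c013201300900719118f18918117c18600a
    [[0,3], [4], [6], [2], [8], [10], [12], [15], [17], [1], [19], [21], [23], [25], [27], [29], [30], [32], [35]]
    18 5 4 1
    (.leaf 0x800000000000010000000008000100000000080000000040000000020000000010000000008000000000040000004000000002000000000000040000000020000000010000000002000000008000000004000080001)
    [0x544] 19 19 = true := by
  decide +kernel

theorem j302 (A : ∀ f : CS, f.ok G = true → Hd (val S) (f.cl G))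
    (A2 : ∀ f : CI, f.ok G = true → Hd (val S) (f.cl G)) (hU : ∀ c ∈ units, Hd (val S) c) :
    Hd (val S) [14, 18, 20, 38, 612, 1408, 1410, 1416, 1428, 1793, 1365, 2308] :=
  stu_sound A A2 hU i302

theorem i303 : stu G units []
    [.initX 0 2 2 1]
    [14, 18, 20, 38, 1408, 1410, 1416, 1428, 1436, 1365, 2290, 2519, 2296] 0x47c4eb4792aa2ce2ca2c42c12c001300900719118f18918117c18600a
    [[0,3], [4], [6], [2], [8], [10], [12], [15], [17], [1], [19], [21], [23], [25], [27], [29], [30], [33], [34], [37]]
    19 5 4 1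
    (.leaf 0x8000000000000020000200000000000000800008000000001000000000200000000040000000008000000001000000000002000000080000000010000000000000040000000008000000001000000000080000000080000000010000100001)
    [0x544] 20 20 = true := by
  decide +kernel

theorem j303 (A : ∀ f : CS, f.ok G = true → Hd (val S) (f.cl G))
    (A2 : ∀ f : CI, f.ok G = true → Hd (val S) (f.cl G)) (hU : ∀ c ∈ units, Hd (val S) c) :
    Hd (val S) [14, 18, 20, 38, 1408, 1410, 1416, 1428, 1436, 1365, 2290, 2519, 2296] :=
  stu_sound A A2 hU i303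

theorem i304 : stu G units []
    [.initX 0 2 2 1]
    [14, 18, 20, 38, 1410, 1412, 1424, 1426, 1793, 1883, 1365, 2290] 0x4792aa3ad3802c92c82c22c101300900719118f18918117c18600a
    [[0,3], [4], [6], [2], [8], [10], [12], [15], [17], [1], [19], [21], [23], [25], [27], [28], [30], [32], [35]]
    18 5 4 1
    (.leaf 0x800000000000010000000008000000004000080000000040000000020000000010000000008000000000040000004000000002000000000000040000000020000000010000000002000000008000000004000080001)
    [0x544] 19 19 = true := by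
  decide +kernel

theorem j304 (A : ∀ f : CS, f.ok G = true → Hd (val S) (f.cl G))
    (A2 : ∀ f : CI, f.ok G = true → Hd (val S) (f.cl G)) (hU : ∀ c ∈ units, Hd (val S) c) :
    Hd (val S) [14, 18, 20, 38, 1410, 1412, 1424, 1426, 1793, 1883, 1365, 2290] :=
  stu_sound A A2 hU i304

theorem i305 : stu G units []
    [.initX 0 2 2 1]
    [14, 18, 20, 38, 1410, 1412, 1365, 2288, 2519] 0x4eb4782aa2c22c101300900719118f18918117c18600a
    [[0,3], [4], [6], [2], [8], [10], [12], [15], [17], [1], [19], [21], [23], [24], [27], [28]]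
    15 5 4 1
    (.leaf 0x100010000000000040004000000080000001000000000200000800000010000000000040000000800000010000000080000008000000100010001)
    [0x544] 16 16 = true := by
  decide +kernel

theorem j305 (A : ∀ f : CS, f.ok G = true → Hd (val S) (f.cl G))
    (A2 : ∀ f : CI, f.ok G = true → Hd (val S) (f.cl G)) (hU : ∀ c ∈ units, Hd (val S) c) :
    Hd (val S) [14, 18, 20, 38, 1410, 1412, 1365, 2288, 2519] :=
  stu_sound A A2 hU i305

theorem i306 : stu G units []
    [.initX 0 2 2 1]
    [14, 20, 38, 1416, 1434, 2521, 2294] 0x47b4ec2cd2c401300719118f18918117c18600a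
    [[0,3], [4], [6], [2], [8], [10], [12], [15], [1], [17], [19], [21], [22], [25]]
    13 4 4 1
    (.leaf 0x8000000000800200000040000008000000020000400000000040000008000001000000080000080000010004001)
    [0x149] 14 14 = true := by
  decide +kernel

theorem j306 (A : ∀ f : CS, f.ok G = true → Hd (val S) (f.cl G))
    (A2 : ∀ f : CI, f.ok G = true → Hd (val S) (f.cl G)) (hU : ∀ c ∈ units, Hd (val S) c) :
    Hd (val S) [14, 20, 38, 1416, 1434, 2521, 2294] :=
  stu_sound A A2 hU i306

theorem i307 : stu G units []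
    [.initX 0 2 2 1]
    [14, 20, 421, 1412, 1416, 1428, 2516] 0x4ea2ca2c42c20d200719118f18918117c18600a
    [[0,3], [4], [6], [2], [8], [10], [12], [15], [1], [16], [19], [21], [23], [25]]
    13 4 4 1
    (.leaf 0x8000001000000200000040000000004000020000400000000040000008000001000000080000080000010004001)
    [0x149] 14 14 = true := by
  decide +kernel

theorem j307 (A : ∀ f : CS, f.ok G = true → Hd (val S) (f.cl G))
    (A2 : ∀ f : CI, f.ok G = true → Hd (val S) (f.cl G)) (hU : ∀ c ∈ units, Hd (val S) c) :
    Hd (val S) [14, 20, 421, 1412, 1416, 1428, 2516] :=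
  stu_sound A A2 hU i307

theorem i308 : stu G units []
    [.initX 0 2 2 1]
    [14, 20, 1412, 1416, 1428, 1936, 1954, 2288] 0x4783d13c82ca2c42c200719118f18918117c18600a
    [[0,3], [4], [6], [2], [8], [10], [12], [15], [1], [17], [19], [21], [23], [25], [27]]
    14 5 4 1
    (.leaf 0x800000040000002000000100000008000000400000000400002000000000040000002000000100000002000000800000040008001)
    [0x489] 15 15 = true := by
  decide +kernel

theorem j308 (A : ∀ f : CS, f.ok G = true → Hd (val S) (f.cl G))
    (A2 : ∀ f : CI, f.ok G = true → Hd (val S) (f.cl G)) (hU : ∀ c ∈ units, Hd (val S) c) :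
    Hd (val S) [14, 20, 1412, 1416, 1428, 1936, 1954, 2288] :=
  stu_sound A A2 hU i308

theorem i309 : stu G units []
    [.initX 0 2 2 1]
    [14, 20, 1412, 1416, 1450, 1811, 2518] 0x4eb3892d52c42c200719118f18918117c18600a
    [[0,3], [4], [6], [2], [8], [10], [12], [15], [1], [17], [19], [21], [22], [25]]
    13 4 4 1
    (.leaf 0x8000000000800200000040000008000000020000400000000040000008000001000000080000080000010004001)
    [0x149] 14 14 = true := by
  decide +kernel

theorem j309 (A : ∀ f : CS, f.ok G = true → Hd (val S) (f.cl G))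
    (A2 : ∀ f : CI, f.ok G = true → Hd (val S) (f.cl G)) (hU : ∀ c ∈ units, Hd (val S) c) :
    Hd (val S) [14, 20, 1412, 1416, 1450, 1811, 2518] :=
  stu_sound A A2 hU i309

theorem i310 : stu G units []
    [.initX 0 2 2 1]
    [14, 20, 1412, 1416, 1450, 1865, 2521, 2294] 0x47b4ec3a42d52c42c200719118f18918117c18600a
    [[0,3], [4], [6], [2], [8], [10], [12], [15], [1], [17], [19], [21], [22], [24], [27]]
    14 5 4 1
    (.leaf 0x800000000010000000800100000008000000400000000400002000000000040000002000000100000002000000800000040008001)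
    [0x489] 15 15 = true := by
  decide +kernel

theorem j310 (A : ∀ f : CS, f.ok G = true → Hd (val S) (f.cl G))
    (A2 : ∀ f : CI, f.ok G = true → Hd (val S) (f.cl G)) (hU : ∀ c ∈ units, Hd (val S) c) :
    Hd (val S) [14, 20, 1412, 1416, 1450, 1865, 2521, 2294] :=
  stu_sound A A2 hU i310

theorem i311 : stu G units []
    [.initX 0 2 2 1]
    [14, 20, 1416, 1418, 1428, 2517, 2288, 2308] 0x4824784ea2ca2c52c400719118f18918117c18600a
    [[0,3], [4], [6], [2], [8], [10], [12], [15], [1], [17], [19], [21], [22], [25], [27]]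
    14 5 4 1
    (.leaf 0x800000040000000000800100000008000000400000000400002000000000040000002000000100000002000000800000040008001)
    [0x489] 15 15 = true := by
  decide +kernel

theorem j311 (A : ∀ f : CS, f.ok G = true → Hd (val S) (f.cl G))
    (A2 : ∀ f : CI, f.ok G = true → Hd (val S) (f.cl G)) (hU : ∀ c ∈ units, Hd (val S) c) :
    Hd (val S) [14, 20, 1416, 1418, 1428, 2517, 2288, 2308] :=
  stu_sound A A2 hU i311

theorem i312 : stu G units []
    [.initX 0 2 2 1]
    [14, 20, 1416, 1418, 1434, 2517, 2290, 2308, 2296] 0x47c4824794ea2cd2c52c400719118f18918117c18600a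
    [[0,3], [4], [6], [2], [8], [10], [12], [15], [1], [17], [19], [21], [22], [25], [27], [29]]
    15 5 4 1
    (.leaf 0x800000010000000200000000000800080000001000000020000000008000010000000000040000000800000010000000080000008000000100010001)
    [0x524] 16 16 = true := by
  decide +kernel

theorem j312 (A : ∀ f : CS, f.ok G = true → Hd (val S) (f.cl G))
    (A2 : ∀ f : CI, f.ok G = true → Hd (val S) (f.cl G)) (hU : ∀ c ∈ units, Hd (val S) c) :
    Hd (val S) [14, 20, 1416, 1418, 1434, 2517, 2290, 2308, 2296] :=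
  stu_sound A A2 hU i312

theorem i313 : stu G units []
    [.initX 0 2 2 1]
    [14, 20, 1416, 1418, 1450, 2517, 2290, 2308, 2296] 0x47c4824794ea2d52c52c400719118f18918117c18600a
    [[0,3], [4], [6], [2], [8], [10], [12], [15], [1], [17], [19], [21], [22], [25], [27], [29]]
    15 5 4 1
    (.leaf 0x800000010000000200000000000800080000001000000020000000008000010000000000040000000800000010000000080000008000000100010001)
    [0x524] 16 16 = true := by
  decide +kernel

theorem j313 (A : ∀ f : CS, f.ok G = true → Hd (val S) (f.cl G))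
    (A2 : ∀ f : CI, f.ok G = true → Hd (val S) (f.cl G)) (hU : ∀ c ∈ units, Hd (val S) c) :
    Hd (val S) [14, 20, 1416, 1418, 1450, 2517, 2290, 2308, 2296] :=
  stu_sound A A2 hU i313

theorem i314 : stu G units []
    [.initX 0 2 2 1]
    [14, 20, 1416, 1428, 1937, 1990, 2288] 0x4783e33c82ca2c400719118f18918117c18600a
    [[0,3], [4], [6], [2], [8], [10], [12], [15], [1], [17], [19], [20], [23], [25]]
    13 4 4 1
    (.leaf 0x8000001000000000100040000008000000020000400000000040000008000001000000080000080000010004001)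
    [0x149] 14 14 = true := by
  decide +kernel

theorem j314 (A : ∀ f : CS, f.ok G = true → Hd (val S) (f.cl G))
    (A2 : ∀ f : CI, f.ok G = true → Hd (val S) (f.cl G)) (hU : ∀ c ∈ units, Hd (val S) c) :
    Hd (val S) [14, 20, 1416, 1428, 1937, 1990, 2288] :=
  stu_sound A A2 hU i314

theorem i315 : stu G units []
    [.initX 0 2 2 1]
    [14, 20, 1416, 1434, 1446, 2518] 0x4eb2d32cd2c400719118f18918117c18600a
    [[0,3], [4], [6], [2], [8], [10], [12], [15], [1], [17], [19], [21], [23]]
    12 4 6 1
    (.leaf 0x1800000400000200000100000001000080000000040000020000010000002000008000004002001)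
    [0x9e014] 13 14 = true := by
  decide +kernel

theorem j315 (A : ∀ f : CS, f.ok G = true → Hd (val S) (f.cl G))
    (A2 : ∀ f : CI, f.ok G = true → Hd (val S) (f.cl G)) (hU : ∀ c ∈ units, Hd (val S) c) :
    Hd (val S) [14, 20, 1416, 1434, 1446, 2518] :=
  stu_sound A A2 hU i315

theorem i316 : stu G units []
    [.initX 0 2 2 1]
    [14, 20, 1416, 1446, 2519, 2521, 2296, 2300] 0x47e47c4ec4eb2d32c400719118f18918117c18600a
    [[0,3], [4], [6], [2], [8], [10], [12], [15], [1], [17], [19], [20], [22], [25], [27]]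
    14 5 4 1
    (.leaf 0x800000040000000000800000040008000000400000000400002000000000040000002000000100000002000000800000040008001)
    [0x489] 15 15 = true := by
  decide +kernel

theorem j316 (A : ∀ f : CS, f.ok G = true → Hd (val S) (f.cl G))
    (A2 : ∀ f : CI, f.ok G = true → Hd (val S) (f.cl G)) (hU : ∀ c ∈ units, Hd (val S) c) :
    Hd (val S) [14, 20, 1416, 1446, 2519, 2521, 2296, 2300] :=
  stu_sound A A2 hU i316

theorem i317 : stu G units []
    [.initX 0 2 2 1]
    [14, 20, 1416, 1448, 1450, 1793, 2518] 0x4eb3802d52d42c400719118f18918117c18600a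
    [[0,3], [4], [6], [2], [8], [10], [12], [15], [1], [17], [19], [21], [22], [25]]
    13 4 4 1
    (.leaf 0x8000000000800200000040000008000000020000400000000040000008000001000000080000080000010004001)
    [0x149] 14 14 = true := by
  decide +kernel

theorem j317 (A : ∀ f : CS, f.ok G = true → Hd (val S) (f.cl G))
    (A2 : ∀ f : CI, f.ok G = true → Hd (val S) (f.cl G)) (hU : ∀ c ∈ units, Hd (val S) c) :
    Hd (val S) [14, 20, 1416, 1448, 1450, 1793, 2518] :=
  stu_sound A A2 hU i317

theorem i318 : stu G units []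
    [.initX 0 2 2 1]
    [14, 20, 1416, 1448, 1450, 1865, 2518] 0x4eb3a42d52d42c400719118f18918117c18600a
    [[0,3], [4], [6], [2], [8], [10], [12], [15], [1], [17], [19], [21], [22], [25]]
    13 4 4 1
    (.leaf 0x8000000000800200000040000008000000020000400000000040000008000001000000080000080000010004001)
    [0x149] 14 14 = true := by
  decide +kernel

theorem j318 (A : ∀ f : CS, f.ok G = true → Hd (val S) (f.cl G))
    (A2 : ∀ f : CI, f.ok G = true → Hd (val S) (f.cl G)) (hU : ∀ c ∈ units, Hd (val S) c) :
    Hd (val S) [14, 20, 1416, 1448, 1450, 1865, 2518] :=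
  stu_sound A A2 hU i318

theorem i319 : stu G units []
    [.initX 0 2 2 1]
    [14, 20, 1446, 1452, 2290, 2519, 2521, 2300] 0x47e4ec4eb4792d62d300719118f18918117c18600a
    [[0,3], [4], [6], [2], [8], [10], [12], [15], [1], [17], [19], [21], [22], [24], [27]]
    14 5 4 1
    (.leaf 0x800000000010000000800100000008000000400000000400002000000000040000002000000100000002000000800000040008001)
    [0x489] 15 15 = true := by
  decide +kernel

theorem j319 (A : ∀ f : CS, f.ok G = true → Hd (val S) (f.cl G))
    (A2 : ∀ f : CI, f.ok G = true → Hd (val S) (f.cl G)) (hU : ∀ c ∈ units, Hd (val S) c) :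
    Hd (val S) [14, 20, 1446, 1452, 2290, 2519, 2521, 2300] :=
  stu_sound A A2 hU i319

theorem i320 : stu G units []
    [.initX 0 3 1 1]
    [14, 24, 26, 1416, 1432, 2296, 2302] 0x47f47c2cc2c400c00719118f18618117c18900d
    [[0,3], [4], [6], [8], [2], [10], [12], [15], [17], [1], [19], [21], [23], [25]]
    13 4 4 1
    (.leaf 0x8000001000000200000040000000080002000000400000000040000008000000200000400000080000010004001)
    [0x15a] 14 14 = true := by
  decide +kernel

theorem j320 (A : ∀ f : CS, f.ok G = true → Hd (val S) (f.cl G))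
    (A2 : ∀ f : CI, f.ok G = true → Hd (val S) (f.cl G)) (hU : ∀ c ∈ units, Hd (val S) c) :
    Hd (val S) [14, 24, 26, 1416, 1432, 2296, 2302] :=
  stu_sound A A2 hU i320

theorem i321 : stu G units []
    [.initX 0 4 3 1]
    [14, 30, 38, 1416, 1418, 1432, 1434, 1450, 2308] 0x4822d52cd2cc2c52c400f00719118918618117c18f013
    [[0,3], [4], [6], [8], [10], [2], [12], [15], [17], [1], [19], [21], [23], [25], [27], [29]]
    15 5 4 1
    (.leaf 0x800000010000000200000004000000080000001000000000200000800000010000000000040000000080000020000000400000008000000100010001)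
    [0x546] 16 16 = true := by
  decide +kernel

theorem j321 (A : ∀ f : CS, f.ok G = true → Hd (val S) (f.cl G))
    (A2 : ∀ f : CI, f.ok G = true → Hd (val S) (f.cl G)) (hU : ∀ c ∈ units, Hd (val S) c) :
    Hd (val S) [14, 30, 38, 1416, 1418, 1432, 1434, 1450, 2308] :=
  stu_sound A A2 hU i321

theorem i322 : stu G units []
    [.initX 0 4 3 1]
    [14, 38, 44, 1416, 1440, 2516] 0x4ea2d02c401600719118918618117c18f013
    [[0,3], [4], [6], [8], [10], [2], [12], [15], [1], [17], [19], [21], [23]]
    12 4 6 1
    (.leaf 0x1800000400000200000100000001000080000000040000002000020000010000008000004002001)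
    [0x9e016] 13 14 = true := by
  decide +kernel

theorem j322 (A : ∀ f : CS, f.ok G = true → Hd (val S) (f.cl G))
    (A2 : ∀ f : CI, f.ok G = true → Hd (val S) (f.cl G)) (hU : ∀ c ∈ units, Hd (val S) c) :
    Hd (val S) [14, 38, 44, 1416, 1440, 2516] :=
  stu_sound A A2 hU i322

theorem i323 : stu G units []
    [.initX 0 4 3 1]
    [14, 38, 1416, 1436, 2201, 2308, 2519, 2302] 0x47f4eb48244c2ce2c400719118918618117c18f013
    [[0,3], [4], [6], [8], [10], [2], [12], [15], [1], [17], [19], [20], [23], [24], [27]]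
    14 5 4 1
    (.leaf 0x800000000010002000000000040008000000400000000400002000000000040000000200000200000010000000800000040008001)
    [0x4c9] 15 15 = true := by
  decide +kernel

theorem j323 (A : ∀ f : CS, f.ok G = true → Hd (val S) (f.cl G))
    (A2 : ∀ f : CI, f.ok G = true → Hd (val S) (f.cl G)) (hU : ∀ c ∈ units, Hd (val S) c) :
    Hd (val S) [14, 38, 1416, 1436, 2201, 2308, 2519, 2302] :=
  stu_sound A A2 hU i323

theorem i324 : stu G units []
    [.initX 0 4 3 1]
    [14, 38, 1416, 2519, 2521, 2296, 2300] 0x47e47c4ec4eb2c400719118918618117c18f013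
    [[0,3], [4], [6], [8], [10], [2], [12], [15], [1], [17], [18], [20], [23], [25]]
    13 4 4 1
    (.leaf 0x8000001000000000100000020008000000020000400000000040000000800002000000400000080000010004001)
    [0x169] 14 14 = true := by
  decide +kernel

theorem j324 (A : ∀ f : CS, f.ok G = true → Hd (val S) (f.cl G))
    (A2 : ∀ f : CI, f.ok G = true → Hd (val S) (f.cl G)) (hU : ∀ c ∈ units, Hd (val S) c) :
    Hd (val S) [14, 38, 1416, 2519, 2521, 2296, 2300] :=
  stu_sound A A2 hU i324

theorem i325 : stu G units []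
    [.initX 0 4 3 1]
    [14, 38, 1436, 2201, 2290, 2519, 2302] 0x47f4eb47944c2ce00719118918618117c18f013
    [[0,3], [4], [6], [8], [10], [2], [12], [15], [1], [17], [18], [21], [22], [25]]
    13 4 4 1
    (.leaf 0x8000000000800200000000020008000000020000400000000040000000800002000000400000080000010004001)
    [0x169] 14 14 = true := by
  decide +kernel

theorem j325 (A : ∀ f : CS, f.ok G = true → Hd (val S) (f.cl G))
    (A2 : ∀ f : CI, f.ok G = true → Hd (val S) (f.cl G)) (hU : ∀ c ∈ units, Hd (val S) c) :
    Hd (val S) [14, 38, 1436, 2201, 2290, 2519, 2302] :=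
  stu_sound A A2 hU i325

theorem i326 : stu G units []
    [.initX 0 4 3 1]
    [16, 18, 24, 38, 396, 408, 1426, 1434, 1436, 1315, 1365] 0x2aa2912ce2cd2c90cc0c600c00900819118918618117c18f013
    [[0,3], [4], [6], [8], [10], [2], [12], [15], [17], [19], [1], [21], [23], [25], [27], [29], [30], [32]]
    17 5 4 1
    (.leaf 0x40000000080002000000004000000008000000010000000020000000000200000100000000200000000400000000000040000000008000000200000000400000000800000001000040001)
    [0x4cb] 18 18 = true := by
  decide +kernel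

theorem j326 (A : ∀ f : CS, f.ok G = true → Hd (val S) (f.cl G))
    (A2 : ∀ f : CI, f.ok G = true → Hd (val S) (f.cl G)) (hU : ∀ c ∈ units, Hd (val S) c) :
    Hd (val S) [16, 18, 24, 38, 396, 408, 1426, 1434, 1436, 1315, 1365] :=
  stu_sound A A2 hU i326

theorem i327 : stu G units []
    [.initX 0 2 2 1]
    [16, 20, 30, 34, 38, 1410, 1412, 1414, 1422, 1428, 1436, 2521] 0x4ec2ce2ca2c72c32c22c101301100f00819118f18918117c18600a
    [[0,3], [4], [6], [2], [8], [10], [12], [15], [1], [17], [19], [21], [23], [25], [27], [29], [31], [33], [34]]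
    18 5 4 1
    (.leaf 0x20000400000000200000000100000000080000000040000000020000000010000000008000000004000000000040000002000000000000040000000020000000010000000002000000008000000004000080001)
    [0x524] 19 19 = true := by
  decide +kernel

theorem j327 (A : ∀ f : CS, f.ok G = true → Hd (val S) (f.cl G))
    (A2 : ∀ f : CI, f.ok G = true → Hd (val S) (f.cl G)) (hU : ∀ c ∈ units, Hd (val S) c) :
    Hd (val S) [16, 20, 30, 34, 38, 1410, 1412, 1414, 1422, 1428, 1436, 2521] :=
  stu_sound A A2 hU i327

theorem i328 : stu G units []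
    [.initX 0 2 2 1]
    [16, 20, 30, 36, 38, 396, 618, 1410, 1412, 1422, 1432, 1364] 0x2aa2cc2c72c22c11350c601301200f00819118f18918117c18600a
    [[0,3], [4], [6], [2], [8], [10], [12], [15], [1], [17], [19], [21], [23], [25], [27], [29], [31], [33], [35]]
    18 5 4 1
    (.leaf 0x800000000400000000200000000100000000080000000040000000020000000010000000008000000004000000000040000002000000000000040000000020000000010000000002000000008000000004000080001)
    [0x524] 19 19 = true := by
  decide +kernel

theorem j328 (A : ∀ f : CS, f.ok G = true → Hd (val S) (f.cl G))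
    (A2 : ∀ f : CI, f.ok G = true → Hd (val S) (f.cl G)) (hU : ∀ c ∈ units, Hd (val S) c) :
    Hd (val S) [16, 20, 30, 36, 38, 396, 618, 1410, 1412, 1422, 1432, 1364] :=
  stu_sound A A2 hU i328

theorem i329 : stu G units []
    [.initX 0 2 2 1]
    [16, 20, 34, 38, 1410, 1412, 1422, 1436, 1793, 2521] 0x4ec3802ce2c72c22c101301100819118f18918117c18600a
    [[0,3], [4], [6], [2], [8], [10], [12], [15], [1], [17], [19], [21], [23], [25], [27], [28], [30]]
    16 5 4 1
    (.leaf 0x800000004000200000001000000008000000040000000200000001000000000100000080000000000040000000200000001000000002000000080000000400020001)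
    [0x524] 17 17 = true := by
  decide +kernel

theorem j329 (A : ∀ f : CS, f.ok G = true → Hd (val S) (f.cl G))
    (A2 : ∀ f : CI, f.ok G = true → Hd (val S) (f.cl G)) (hU : ∀ c ∈ units, Hd (val S) c) :
    Hd (val S) [16, 20, 34, 38, 1410, 1412, 1422, 1436, 1793, 2521] :=
  stu_sound A A2 hU i329

theorem i330 : stu G units []
    [.initX 0 2 2 1]
    [16, 20, 38, 390, 408, 1408, 1410, 1424, 1426, 1364, 2290, 2302] 0x47f4792aa2c92c82c12c00cc0c301300819118f18918117c18600a
    [[0,3], [4], [6], [2], [8], [10], [12], [15], [1], [17], [19], [21], [23], [25], [27], [29], [31], [33], [35]]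
    18 5 4 1
    (.leaf 0x800000000400000000200000000100000000080000000040000000020000000010000000008000000004000000000040000002000000000000040000000020000000010000000002000000008000000004000080001)
    [0x524] 19 19 = true := by
  decide +kernel

theorem j330 (A : ∀ f : CS, f.ok G = true → Hd (val S) (f.cl G))
    (A2 : ∀ f : CI, f.ok G = true → Hd (val S) (f.cl G)) (hU : ∀ c ∈ units, Hd (val S) c) :
    Hd (val S) [16, 20, 38, 390, 408, 1408, 1410, 1424, 1426, 1364, 2290, 2302] :=
  stu_sound A A2 hU i330

theorem i331 : stu G units []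
    [.initX 0 2 2 1]
    [16, 20, 38, 396, 618, 1408, 1416, 1422, 1428, 1364] 0x2aa2ca2c72c42c01350c601300819118f18918117c18600a
    [[0,3], [4], [6], [2], [8], [10], [12], [15], [1], [17], [19], [21], [23], [25], [27], [29], [31]]
    16 5 4 1
    (.leaf 0x8000000040000000200000001000000008000000040000000200000001000000000100000080000000000040000000200000001000000002000000080000000400020001)
    [0x524] 17 17 = true := by
  decide +kernel

theorem j331 (A : ∀ f : CS, f.ok G = true → Hd (val S) (f.cl G))
    (A2 : ∀ f : CI, f.ok G = true → Hd (val S) (f.cl G)) (hU : ∀ c ∈ units, Hd (val S) c) :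
    Hd (val S) [16, 20, 38, 396, 618, 1408, 1416, 1422, 1428, 1364] :=
  stu_sound A A2 hU i331

theorem i332 : stu G units []
    [.initX 0 2 2 1]
    [16, 20, 38, 1412, 1454, 1364, 2517, 2288] 0x4784ea2aa2d72c201300819118f18918117c18600a
    [[0,3], [4], [6], [2], [8], [10], [12], [15], [1], [17], [19], [21], [23], [24], [27]]
    14 5 4 1
    (.leaf 0x800000000010002000000100000008000000400000000400002000000000040000002000000100000002000000800000040008001)
    [0x489] 15 15 = true := by
  decide +kernel

theorem j332 (A : ∀ f : CS, f.ok G = true → Hd (val S) (f.cl G))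
    (A2 : ∀ f : CI, f.ok G = true → Hd (val S) (f.cl G)) (hU : ∀ c ∈ units, Hd (val S) c) :
    Hd (val S) [16, 20, 38, 1412, 1454, 1364, 2517, 2288] :=
  stu_sound A A2 hU i332

theorem i333 : stu G units []
    [.initX 0 2 2 1]
    [16, 20, 38, 1436, 1364, 2517, 2288, 2518] 0x4eb4784ea2aa2ce01300819118f18918117c18600a
    [[0,3], [4], [6], [2], [8], [10], [12], [15], [1], [17], [19], [21], [22], [25], [27]]
    14 5 4 1
    (.leaf 0x800000040000000000800100000008000000400000000400002000000000040000002000000100000002000000800000040008001)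
    [0x489] 15 15 = true := by
  decide +kernel

theorem j333 (A : ∀ f : CS, f.ok G = true → Hd (val S) (f.cl G))
    (A2 : ∀ f : CI, f.ok G = true → Hd (val S) (f.cl G)) (hU : ∀ c ∈ units, Hd (val S) c) :
    Hd (val S) [16, 20, 38, 1436, 1364, 2517, 2288, 2518] :=
  stu_sound A A2 hU i333

theorem i334 : stu G units []
    [.initX 0 4 3 1]
    [16, 24, 30, 38, 396, 408, 1426, 1450, 1365, 2517] 0x4ea2aa2d52c90cc0c600f00c00819118918618117c18f013
    [[0,3], [4], [6], [8], [10], [2], [12], [15], [17], [19], [1], [21], [23], [25], [27], [28], [30]]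
    16 5 4 1
    (.leaf 0x800000004000200000001000000008000000040000000001000002000000010000000080000000000040000000020000002000000010000000080000000400020001)
    [0x566] 17 17 = true := by
  decide +kernel

theorem j334 (A : ∀ f : CS, f.ok G = true → Hd (val S) (f.cl G))
    (A2 : ∀ f : CI, f.ok G = true → Hd (val S) (f.cl G)) (hU : ∀ c ∈ units, Hd (val S) c) :
    Hd (val S) [16, 24, 30, 38, 396, 408, 1426, 1450, 1365, 2517] :=
  stu_sound A A2 hU i334

theorem i335 : stu G units []
    [.initX 0 4 3 1]
    [16, 30, 36, 38, 396, 432, 1410, 1412, 1432, 1364] 0x2aa2cc2c22c10d80c601200f00819118918618117c18f013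
    [[0,3], [4], [6], [8], [10], [2], [12], [15], [17], [19], [1], [21], [23], [25], [27], [29], [31]]
    16 5 4 1
    (.leaf 0x8000000040000000200000001000000008000000040000000001000002000000010000000080000000000040000000020000002000000010000000080000000400020001)
    [0x566] 17 17 = true := by
  decide +kernel

theorem j335 (A : ∀ f : CS, f.ok G = true → Hd (val S) (f.cl G))
    (A2 : ∀ f : CI, f.ok G = true → Hd (val S) (f.cl G)) (hU : ∀ c ∈ units, Hd (val S) c) :
    Hd (val S) [16, 30, 36, 38, 396, 432, 1410, 1412, 1432, 1364] :=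
  stu_sound A A2 hU i335

theorem i336 : stu G units []
    [.initX 0 4 3 1]
    [16, 38, 1410, 1412, 1422, 2201, 1364, 2519, 2302] 0x47f4eb2aa44c2c72c22c100819118918618117c18f013
    [[0,3], [4], [6], [8], [10], [2], [12], [15], [1], [17], [19], [21], [22], [25], [26], [29]]
    15 5 4 1
    (.leaf 0x800000000002000200000000000800080000001000000020000000008000010000000000040000000080000020000000400000008000000100010001)
    [0x526] 16 16 = true := by
  decide +kernel

theorem j336 (A : ∀ f : CS, f.ok G = true → Hd (val S) (f.cl G))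
    (A2 : ∀ f : CI, f.ok G = true → Hd (val S) (f.cl G)) (hU : ∀ c ∈ units, Hd (val S) c) :
    Hd (val S) [16, 38, 1410, 1412, 1422, 2201, 1364, 2519, 2302] :=
  stu_sound A A2 hU i336

theorem i337 : stu G units []
    [.initX 0 2 2 1]
    [18, 20, 30, 32, 38, 1410, 1412, 1428, 1434, 1452, 2521, 2296] 0x47c4ec2d62cd2ca2c22c101301000f00919118f18918117c18600a
    [[0,3], [4], [6], [2], [8], [10], [12], [15], [1], [17], [19], [21], [23], [25], [27], [29], [31], [32], [35]]
    18 5 4 1
    (.leaf 0x800000000000010000200000000100000000080000000040000000020000000010000000008000000004000000000040000002000000000000040000000020000000010000000002000000008000000004000080001)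
    [0x524] 19 19 = true := by
  decide +kernel

theorem j337 (A : ∀ f : CS, f.ok G = true → Hd (val S) (f.cl G))
    (A2 : ∀ f : CI, f.ok G = true → Hd (val S) (f.cl G)) (hU : ∀ c ∈ units, Hd (val S) c) :
    Hd (val S) [18, 20, 30, 32, 38, 1410, 1412, 1428, 1434, 1452, 2521, 2296] :=
  stu_sound A A2 hU i337

theorem i338 : stu G units []
    [.initX 0 2 2 1]
    [18, 20, 30, 36, 38, 612, 1408, 1410, 1424, 1426, 1793, 1365] 0x2aa3802c92c82c12c013201301200f00919118f18918117c18600a
    [[0,3], [4], [6], [2], [8], [10], [12], [15], [1], [17], [19], [21], [23], [25], [27], [29], [31], [32], [34]]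
    18 5 4 1
    (.leaf 0x20000000010000200000000100000000080000000040000000020000000010000000008000000004000000000040000002000000000000040000000020000000010000000002000000008000000004000080001)
    [0x524] 19 19 = true := by
  decide +kernel

theorem j338 (A : ∀ f : CS, f.ok G = true → Hd (val S) (f.cl G))
    (A2 : ∀ f : CI, f.ok G = true → Hd (val S) (f.cl G)) (hU : ∀ c ∈ units, Hd (val S) c) :
    Hd (val S) [18, 20, 30, 36, 38, 612, 1408, 1410, 1424, 1426, 1793, 1365] :=
  stu_sound A A2 hU i338

theorem i339 : stu G units []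
    [.initX 0 2 2 1]
    [18, 20, 30, 38, 396, 618, 1416, 1365, 2290] 0x4792aa2c41350c601300f00919118f18918117c18600a
    [[0,3], [4], [6], [2], [8], [10], [12], [15], [1], [17], [19], [21], [23], [25], [26], [29]]
    15 5 4 1
    (.leaf 0x800000000002000200000004000000080000001000000020000000008000010000000000040000000800000010000000080000008000000100010001)
    [0x524] 16 16 = true := by
  decide +kernel

theorem j339 (A : ∀ f : CS, f.ok G = true → Hd (val S) (f.cl G))
    (A2 : ∀ f : CI, f.ok G = true → Hd (val S) (f.cl G)) (hU : ∀ c ∈ units, Hd (val S) c) :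
    Hd (val S) [18, 20, 30, 38, 396, 618, 1416, 1365, 2290] :=
  stu_sound A A2 hU i339

theorem i340 : stu G units []
    [.initX 0 2 2 1]
    [18, 20, 30, 38, 397, 612, 1416, 2201, 1365, 2290] 0x4792aa44c2c41320c601300f00919118f18918117c18600a
    [[0,3], [4], [6], [2], [8], [10], [12], [15], [1], [17], [19], [20], [23], [25], [26], [28], [31]]
    16 5 4 1
    (.leaf 0x8000000000004000000020001000000008000000000004000200000001000000000100000080000000000040000000200000001000000002000000080000000400020001)
    [0x524] 17 17 = true := by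
  decide +kernel

theorem j340 (A : ∀ f : CS, f.ok G = true → Hd (val S) (f.cl G))
    (A2 : ∀ f : CI, f.ok G = true → Hd (val S) (f.cl G)) (hU : ∀ c ∈ units, Hd (val S) c) :
    Hd (val S) [18, 20, 30, 38, 397, 612, 1416, 2201, 1365, 2290] :=
  stu_sound A A2 hU i340

theorem i341 : stu G units []
    [.initX 0 2 2 1]
    [18, 20, 30, 38, 1412, 1424, 1426, 1432, 1365, 2290, 2302] 0x47f4792aa2cc2c92c82c201300f00919118f18918117c18600a
    [[0,3], [4], [6], [2], [8], [10], [12], [15], [1], [17], [19], [21], [23], [25], [27], [28], [31], [33]]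
    17 5 4 1
    (.leaf 0x800000001000000000000100004000000008000000010000000020000000040000000080000000002000000400000000000040000000080000000100000000080000000800000001000040001)
    [0x489] 18 18 = true := by
  decide +kernel

theorem j341 (A : ∀ f : CS, f.ok G = true → Hd (val S) (f.cl G))
    (A2 : ∀ f : CI, f.ok G = true → Hd (val S) (f.cl G)) (hU : ∀ c ∈ units, Hd (val S) c) :
    Hd (val S) [18, 20, 30, 38, 1412, 1424, 1426, 1432, 1365, 2290, 2302] :=
  stu_sound A A2 hU i341

theorem i342 : stu G units []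
    [.initX 0 2 2 1]
    [18, 20, 30, 391, 612, 1410, 1412, 1422, 1428, 1365, 2290] 0x4792aa2ca2c72c22c11320c300f00919118f18918117c18600a
    [[0,3], [4], [6], [2], [8], [10], [12], [15], [1], [17], [18], [21], [23], [25], [27], [29], [30], [33]]
    17 5 4 1
    (.leaf 0x800000000000080002000000004000000008000000010000000020000000000002000080000000002000000400000000000040000000080000000100000000080000000800000001000040001)
    [0x489] 18 18 = true := by
  decide +kernel

theorem j342 (A : ∀ f : CS, f.ok G = true → Hd (val S) (f.cl G))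
    (A2 : ∀ f : CI, f.ok G = true → Hd (val S) (f.cl G)) (hU : ∀ c ∈ units, Hd (val S) c) :
    Hd (val S) [18, 20, 30, 391, 612, 1410, 1412, 1422, 1428, 1365, 2290] :=
  stu_sound A A2 hU i342

theorem i343 : stu G units []
    [.initX 0 2 2 1]
    [18, 20, 32, 38, 1410, 1412, 1422, 1424, 1793, 2521] 0x4ec3802c82c72c22c101301000919118f18918117c18600a
    [[0,3], [4], [6], [2], [8], [10], [12], [15], [1], [17], [19], [21], [23], [25], [27], [28], [30]]
    16 5 4 1
    (.leaf 0x800000004000200000001000000008000000040000000200000001000000000100000080000000000040000000200000001000000002000000080000000400020001)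
    [0x524] 17 17 = true := by
  decide +kernel

theorem j343 (A : ∀ f : CS, f.ok G = true → Hd (val S) (f.cl G))
    (A2 : ∀ f : CI, f.ok G = true → Hd (val S) (f.cl G)) (hU : ∀ c ∈ units, Hd (val S) c) :
    Hd (val S) [18, 20, 32, 38, 1410, 1412, 1422, 1424, 1793, 2521] :=
  stu_sound A A2 hU i343

theorem i344 : stu G units []
    [.initX 0 2 2 1]
    [18, 20, 38, 390, 397, 1408, 1410, 1424, 1426, 1365, 2290, 2302] 0x47f4792aa2c92c82c12c00c60c301300919118f18918117c18600a
    [[0,3], [4], [6], [2], [8], [10], [12], [15], [1], [17], [19], [20], [23], [25], [27], [29], [30], [33], [35]]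
    18 5 4 1
    (.leaf 0x800000000400000000000008000100000000080000000040000000020000000000000400008000000004000000000040000002000000000000040000000020000000010000000002000000008000000004000080001)
    [0x524] 19 19 = true := by
  decide +kernel

theorem j344 (A : ∀ f : CS, f.ok G = true → Hd (val S) (f.cl G))
    (A2 : ∀ f : CI, f.ok G = true → Hd (val S) (f.cl G)) (hU : ∀ c ∈ units, Hd (val S) c) :
    Hd (val S) [18, 20, 38, 390, 397, 1408, 1410, 1424, 1426, 1365, 2290, 2302] :=
  stu_sound A A2 hU i344

theorem i345 : stu G units []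
    [.initX 0 2 2 1]
    [18, 20, 38, 433, 618, 1408, 1410, 1426, 1365, 2290] 0x4792aa2c92c12c01350d801300919118f18918117c18600a
    [[0,3], [4], [6], [2], [8], [10], [12], [15], [1], [17], [18], [21], [23], [25], [27], [28], [31]]
    16 5 4 1
    (.leaf 0x8000000000004000200000001000000008000000040000000000020001000000000100000080000000000040000000200000001000000002000000080000000400020001)
    [0x524] 17 17 = true := by
  decide +kernel

theorem j345 (A : ∀ f : CS, f.ok G = true → Hd (val S) (f.cl G))
    (A2 : ∀ f : CI, f.ok G = true → Hd (val S) (f.cl G)) (hU : ∀ c ∈ units, Hd (val S) c) :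
    Hd (val S) [18, 20, 38, 433, 618, 1408, 1410, 1426, 1365, 2290] :=
  stu_sound A A2 hU i345

theorem i346 : stu G units []
    [.initX 0 2 2 1]
    [18, 20, 38, 612, 1408, 1416, 1422, 1428, 1793, 1365, 2517] 0x4ea2aa3802ca2c72c42c013201300919118f18918117c18600a
    [[0,3], [4], [6], [2], [8], [10], [12], [15], [1], [17], [19], [21], [23], [25], [27], [28], [30], [32]]
    17 5 4 1
    (.leaf 0x40000000080000000100004000000008000000010000000020000000040000000080000000002000000400000000000040000000080000000100000000080000000800000001000040001)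
    [0x489] 18 18 = true := by
  decide +kernel

theorem j346 (A : ∀ f : CS, f.ok G = true → Hd (val S) (f.cl G))
    (A2 : ∀ f : CI, f.ok G = true → Hd (val S) (f.cl G)) (hU : ∀ c ∈ units, Hd (val S) c) :
    Hd (val S) [18, 20, 38, 612, 1408, 1416, 1422, 1428, 1793, 1365, 2517] :=
  stu_sound A A2 hU i346

theorem i347 : stu G units []
    [.initX 0 2 2 1]
    [18, 20, 38, 1410, 1412, 1422, 1428, 1436, 1365, 2290, 2519, 2521, 2296] 0x47c4ec4eb4792aa2ce2ca2c72c22c101300919118f18918117c18600a
    [[0,3], [4], [6], [2], [8], [10], [12], [15], [1], [17], [19], [21], [23], [25], [27], [28], [31], [32], [34], [37]]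
    19 5 4 1
    (.leaf 0x8000000000000020000000004000040000000000000100001000000000200000000040000000008000000001000000000200000000000800000010000000000000040000000008000000001000000000080000000080000000010000100001)
    [0x524] 20 20 = true := by
  decide +kernel

theorem j347 (A : ∀ f : CS, f.ok G = true → Hd (val S) (f.cl G))
    (A2 : ∀ f : CI, f.ok G = true → Hd (val S) (f.cl G)) (hU : ∀ c ∈ units, Hd (val S) c) :
    Hd (val S) [18, 20, 38, 1410, 1412, 1422, 1428, 1436, 1365, 2290, 2519, 2521, 2296] :=
  stu_sound A A2 hU i347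

theorem i348 : stu G units []
    [.initX 0 3 1 1]
    [18, 26, 38, 499, 1426, 1364, 2517, 2288, 2308] 0x4824784ea2aa2c90f901300919118f18618117c18900d
    [[0,3], [4], [6], [8], [2], [10], [12], [15], [1], [17], [18], [21], [23], [24], [27], [29]]
    15 5 4 1
    (.leaf 0x800000010000000000040004000000080000000000200020000000008000010000000000040000000800000002000000400000008000000100010001)
    [0x525] 16 16 = true := by
  decide +kernel

theorem j348 (A : ∀ f : CS, f.ok G = true → Hd (val S) (f.cl G))
    (A2 : ∀ f : CI, f.ok G = true → Hd (val S) (f.cl G)) (hU : ∀ c ∈ units, Hd (val S) c) :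
    Hd (val S) [18, 26, 38, 499, 1426, 1364, 2517, 2288, 2308] :=
  stu_sound A A2 hU i348

theorem i349 : stu G units []
    [.initX 0 4 3 1]
    [18, 38, 1410, 1412, 1422, 2201, 1365, 2519, 2302] 0x47f4eb2aa44c2c72c22c100919118918618117c18f013
    [[0,3], [4], [6], [8], [10], [2], [12], [15], [1], [17], [19], [21], [22], [24], [26], [29]]
    15 5 4 1
    (.leaf 0x800000000002000000040000000800080000001000000020000000008000010000000000040000000080000020000000400000008000000100010001)
    [0x526] 16 16 = true := by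
  decide +kernel

theorem j349 (A : ∀ f : CS, f.ok G = true → Hd (val S) (f.cl G))
    (A2 : ∀ f : CI, f.ok G = true → Hd (val S) (f.cl G)) (hU : ∀ c ∈ units, Hd (val S) c) :
    Hd (val S) [18, 38, 1410, 1412, 1422, 2201, 1365, 2519, 2302] :=
  stu_sound A A2 hU i349

theorem i350 : stu G units []
    [.initX 0 2 2 1]
    [20, 24, 38, 1424, 1426, 1365, 2290, 2518] 0x4eb4792aa2c92c801300c19118f18918117c18600a
    [[0,3], [4], [6], [2], [8], [10], [12], [1], [15], [17], [19], [21], [22], [25], [27]]
    14 5 4 1
    (.leaf 0x800000040000000000800100000008000000400000020000000040000000040000002000000100000002000000800000040008001)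
    [0x488] 15 15 = true := by
  decide +kernel

theorem j350 (A : ∀ f : CS, f.ok G = true → Hd (val S) (f.cl G))
    (A2 : ∀ f : CI, f.ok G = true → Hd (val S) (f.cl G)) (hU : ∀ c ∈ units, Hd (val S) c) :
    Hd (val S) [20, 24, 38, 1424, 1426, 1365, 2290, 2518] :=
  stu_sound A A2 hU i350

theorem i351 : stu G units []
    [.initX 0 2 2 1]
    [20, 26, 30, 38, 397, 612, 1416, 1422, 1428, 1364] 0x2aa2ca2c72c41320c601300f00d19118f18918117c18600a
    [[0,3], [4], [6], [2], [8], [10], [12], [1], [15], [17], [19], [20], [23], [25], [27], [29], [31]]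
    16 5 4 1
    (.leaf 0x8000000040000000200000001000000008000000000004000200000001000000008000000001000000000040000000200000001000000002000000080000000400020001)
    [0x504] 17 17 = true := by
  decide +kernel

theorem j351 (A : ∀ f : CS, f.ok G = true → Hd (val S) (f.cl G))
    (A2 : ∀ f : CI, f.ok G = true → Hd (val S) (f.cl G)) (hU : ∀ c ∈ units, Hd (val S) c) :
    Hd (val S) [20, 26, 30, 38, 397, 612, 1416, 1422, 1428, 1364] :=
  stu_sound A A2 hU i351

theorem i352 : stu G units []
    [.initX 0 2 2 1]
    [20, 32, 34, 38, 1416, 2518] 0x4eb2c401301101019118f18918117c18600a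
    [[0,3], [4], [6], [2], [8], [10], [12], [1], [15], [17], [19], [21], [23]]
    12 4 6 1
    (.leaf 0x1800000400000200000100000080000001000000040000020000010000002000008000004002001)
    [0x8e014] 13 14 = true := by
  decide +kernel

theorem j352 (A : ∀ f : CS, f.ok G = true → Hd (val S) (f.cl G))
    (A2 : ∀ f : CI, f.ok G = true → Hd (val S) (f.cl G)) (hU : ∀ c ∈ units, Hd (val S) c) :
    Hd (val S) [20, 32, 34, 38, 1416, 2518] :=
  stu_sound A A2 hU i352

theorem i353 : stu G units []
    [.initX 0 2 2 1]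
    [20, 38, 1410, 1412, 1422, 1436, 1440, 2290, 2521] 0x4ec4792d02ce2c72c22c101319118f18918117c18600a
    [[0,3], [4], [6], [2], [8], [10], [12], [1], [15], [17], [19], [21], [23], [25], [27], [28]]
    15 5 4 1
    (.leaf 0x100010000000200000004000000080000001000000020000000400000000200000000040000000800000010000000080000008000000100010001)
    [0x504] 16 16 = true := by
  decide +kernel

theorem j353 (A : ∀ f : CS, f.ok G = true → Hd (val S) (f.cl G))
    (A2 : ∀ f : CI, f.ok G = true → Hd (val S) (f.cl G)) (hU : ∀ c ∈ units, Hd (val S) c) :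
    Hd (val S) [20, 38, 1410, 1412, 1422, 1436, 1440, 2290, 2521] :=
  stu_sound A A2 hU i353

theorem i354 : stu G units []
    [.initX 0 2 2 1]
    [20, 38, 1424, 1426, 1440, 1865, 2521, 2294] 0x47b4ec3a42d02c92c801319118f18918117c18600a
    [[0,3], [4], [6], [2], [8], [10], [12], [1], [15], [17], [19], [21], [22], [24], [27]]
    14 5 4 1
    (.leaf 0x800000000010000000800100000008000000400000020000000040000000040000002000000100000002000000800000040008001)
    [0x488] 15 15 = true := by
  decide +kernel

theorem j354 (A : ∀ f : CS, f.ok G = true → Hd (val S) (f.cl G))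
    (A2 : ∀ f : CI, f.ok G = true → Hd (val S) (f.cl G)) (hU : ∀ c ∈ units, Hd (val S) c) :
    Hd (val S) [20, 38, 1424, 1426, 1440, 1865, 2521, 2294] :=
  stu_sound A A2 hU i354

theorem i355 : stu G units []
    [.initX 0 2 2 1]
    [20, 391, 1416, 1418, 1876, 2517, 2308] 0x4824ea3aa2c52c40c319118f18918117c18600a
    [[0,3], [4], [6], [2], [8], [10], [12], [1], [14], [17], [19], [21], [22], [25]]
    13 4 4 1
    (.leaf 0x8000000000800200000040000008000000000800008000000040000008000001000000080000080000010004001)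
    [0x148] 14 14 = true := by
  decide +kernel

theorem j355 (A : ∀ f : CS, f.ok G = true → Hd (val S) (f.cl G))
    (A2 : ∀ f : CI, f.ok G = true → Hd (val S) (f.cl G)) (hU : ∀ c ∈ units, Hd (val S) c) :
    Hd (val S) [20, 391, 1416, 1418, 1876, 2517, 2308] :=
  stu_sound A A2 hU i355

theorem i356 : stu G units []
    [.initX 0 2 2 1]
    [20, 1408, 1410, 1446, 2290, 2520] 0x4ec4792d32c12c019118f18918117c18600a
    [[0,3], [4], [6], [2], [8], [10], [12], [1], [15], [17], [19], [21], [23]]
    12 4 6 1
    (.leaf 0x1800000400000200000100000080000001000000040000020000010000002000008000004002001)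
    [0x8e014] 13 14 = true := by
  decide +kernel

theorem j356 (A : ∀ f : CS, f.ok G = true → Hd (val S) (f.cl G))
    (A2 : ∀ f : CI, f.ok G = true → Hd (val S) (f.cl G)) (hU : ∀ c ∈ units, Hd (val S) c) :
    Hd (val S) [20, 1408, 1410, 1446, 2290, 2520] :=
  stu_sound A A2 hU i356

theorem i357 : stu G units []
    [.initX 0 2 2 1]
    [20, 1408, 1412, 1422, 1426, 1442, 1446, 2201, 2519, 2302] 0x47f4eb44c2d32d12c92c72c22c019118f18918117c18600a
    [[0,3], [4], [6], [2], [8], [10], [12], [1], [15], [17], [19], [21], [23], [25], [26], [28], [31]]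
    16 5 4 1
    (.leaf 0x8000000000004000000020001000000008000000040000000200000001000000008000000001000000000040000000200000001000000002000000080000000400020001)
    [0x504] 17 17 = true := by
  decide +kernel

theorem j357 (A : ∀ f : CS, f.ok G = true → Hd (val S) (f.cl G))
    (A2 : ∀ f : CI, f.ok G = true → Hd (val S) (f.cl G)) (hU : ∀ c ∈ units, Hd (val S) c) :
    Hd (val S) [20, 1408, 1412, 1422, 1426, 1442, 1446, 2201, 2519, 2302] :=
  stu_sound A A2 hU i357

theorem i358 : stu G units []
    [.initX 0 2 2 1]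
    [20, 1410, 1412, 1414, 1422, 1428, 1434, 1450, 2521, 2296] 0x47c4ec2d52cd2ca2c72c32c22c119118f18918117c18600a
    [[0,3], [4], [6], [2], [8], [10], [12], [1], [15], [17], [19], [21], [23], [25], [27], [28], [31]]
    16 5 4 1
    (.leaf 0x8000000000004000200000001000000008000000040000000200000001000000008000000001000000000040000000200000001000000002000000080000000400020001)
    [0x504] 17 17 = true := by
  decide +kernel

theorem j358 (A : ∀ f : CS, f.ok G = true → Hd (val S) (f.cl G))
    (A2 : ∀ f : CI, f.ok G = true → Hd (val S) (f.cl G)) (hU : ∀ c ∈ units, Hd (val S) c) :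
    Hd (val S) [20, 1410, 1412, 1414, 1422, 1428, 1434, 1450, 2521, 2296] :=
  stu_sound A A2 hU i358

theorem i359 : stu G units []
    [.initX 0 2 2 1]
    [20, 1412, 1416, 1422, 1434, 1436, 1446, 2308] 0x4822d32ce2cd2c72c42c219118f18918117c18600a
    [[0,3], [4], [6], [2], [8], [10], [12], [1], [15], [17], [19], [21], [23], [25], [27]]
    14 5 4 1
    (.leaf 0x800000040000002000000100000008000000400000020000000040000000040000002000000100000002000000800000040008001)
    [0x488] 15 15 = true := by
  decide +kernel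

theorem j359 (A : ∀ f : CS, f.ok G = true → Hd (val S) (f.cl G))
    (A2 : ∀ f : CI, f.ok G = true → Hd (val S) (f.cl G)) (hU : ∀ c ∈ units, Hd (val S) c) :
    Hd (val S) [20, 1412, 1416, 1422, 1434, 1436, 1446, 2308] :=
  stu_sound A A2 hU i359

theorem i360 : stu G units []
    [.initX 0 2 2 1]
    [20, 1412, 1424, 1426, 1446, 1793, 1883, 2201, 2290, 2302] 0x47f47944c3ad3802d32c92c82c219118f18918117c18600a
    [[0,3], [4], [6], [2], [8], [10], [12], [1], [15], [17], [19], [21], [22], [24], [26], [29], [31]]
    16 5 4 1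
    (.leaf 0x8000000040000000000020000000100000000800040000000200000001000000008000000001000000000040000000200000001000000002000000080000000400020001)
    [0x504] 17 17 = true := by
  decide +kernel

theorem j360 (A : ∀ f : CS, f.ok G = true → Hd (val S) (f.cl G))
    (A2 : ∀ f : CI, f.ok G = true → Hd (val S) (f.cl G)) (hU : ∀ c ∈ units, Hd (val S) c) :
    Hd (val S) [20, 1412, 1424, 1426, 1446, 1793, 1883, 2201, 2290, 2302] :=
  stu_sound A A2 hU i360

theorem i361 : stu G units []
    [.initX 0 2 2 1]
    [20, 1412, 1424, 1426, 1452, 1811, 2290, 2521, 2294] 0x47b4ec4793892d62c92c82c219118f18918117c18600a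
    [[0,3], [4], [6], [2], [8], [10], [12], [1], [15], [17], [19], [21], [22], [25], [26], [29]]
    15 5 4 1
    (.leaf 0x800000000002000200000000000800080000001000000020000000400000000200000000040000000800000010000000080000008000000100010001)
    [0x504] 16 16 = true := by
  decide +kernel

theorem j361 (A : ∀ f : CS, f.ok G = true → Hd (val S) (f.cl G))
    (A2 : ∀ f : CI, f.ok G = true → Hd (val S) (f.cl G)) (hU : ∀ c ∈ units, Hd (val S) c) :
    Hd (val S) [20, 1412, 1424, 1426, 1452, 1811, 2290, 2521, 2294] :=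
  stu_sound A A2 hU i361

theorem i362 : stu G units []
    [.initX 0 2 2 1]
    [20, 1412, 1424, 1426, 1811, 2290, 2518] 0x4eb4793892c92c82c219118f18918117c18600a
    [[0,3], [4], [6], [2], [8], [10], [12], [1], [15], [17], [19], [20], [23], [25]]
    13 4 4 1
    (.leaf 0x8000001000000000100040000008000001000000008000000040000008000001000000080000080000010004001)
    [0x148] 14 14 = true := by
  decide +kernel

theorem j362 (A : ∀ f : CS, f.ok G = true → Hd (val S) (f.cl G))
    (A2 : ∀ f : CI, f.ok G = true → Hd (val S) (f.cl G)) (hU : ∀ c ∈ units, Hd (val S) c) :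
    Hd (val S) [20, 1412, 1424, 1426, 1811, 2290, 2518] :=
  stu_sound A A2 hU i362

theorem i363 : stu G units []
    [.initX 0 2 2 1]
    [20, 1412, 1424, 1426, 1865, 2290, 2521, 2294] 0x47b4ec4793a42c92c82c219118f18918117c18600a
    [[0,3], [4], [6], [2], [8], [10], [12], [1], [15], [17], [19], [20], [23], [24], [27]]
    14 5 4 1
    (.leaf 0x800000000010002000000000040008000000400000020000000040000000040000002000000100000002000000800000040008001)
    [0x488] 15 15 = true := by
  decide +kernel

theorem j363 (A : ∀ f : CS, f.ok G = true → Hd (val S) (f.cl G))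
    (A2 : ∀ f : CI, f.ok G = true → Hd (val S) (f.cl G)) (hU : ∀ c ∈ units, Hd (val S) c) :
    Hd (val S) [20, 1412, 1424, 1426, 1865, 2290, 2521, 2294] :=
  stu_sound A A2 hU i363

theorem i364 : stu G units []
    [.initX 0 2 2 1]
    [20, 1424, 1426, 1446, 1811, 1865, 2201, 2290, 2519, 2302] 0x47f4eb47944c3a43892d32c92c819118f18918117c18600a
    [[0,3], [4], [6], [2], [8], [10], [12], [1], [15], [17], [19], [20], [22], [24], [27], [28], [31]]
    16 5 4 1
    (.leaf 0x8000000000004000200000000000100000000800000004000200000001000000008000000001000000000040000000200000001000000002000000080000000400020001)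
    [0x504] 17 17 = true := by
  decide +kernel

theorem j364 (A : ∀ f : CS, f.ok G = true → Hd (val S) (f.cl G))
    (A2 : ∀ f : CI, f.ok G = true → Hd (val S) (f.cl G)) (hU : ∀ c ∈ units, Hd (val S) c) :
    Hd (val S) [20, 1424, 1426, 1446, 1811, 1865, 2201, 2290, 2519, 2302] :=
  stu_sound A A2 hU i364

theorem i365 : stu G units []
    [.initX 0 3 1 1]
    [24, 26, 44, 1422, 1432, 2290] 0x4792cc2c701600c19118f18618117c18900d
    [[0,3], [4], [6], [8], [2], [10], [12], [15], [1], [17], [19], [21], [23]]
    12 4 6 1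
    (.leaf 0x1800000400000200000100000001000080000000040000020000002000010000008000004002001)
    [0x9e015] 13 14 = true := by
  decide +kernel

theorem j365 (A : ∀ f : CS, f.ok G = true → Hd (val S) (f.cl G))
    (A2 : ∀ f : CI, f.ok G = true → Hd (val S) (f.cl G)) (hU : ∀ c ∈ units, Hd (val S) c) :
    Hd (val S) [24, 26, 44, 1422, 1432, 2290] :=
  stu_sound A A2 hU i365

theorem i366 : stu G units []
    [.initX 0 3 1 1]
    [24, 26, 1410, 1422, 1432, 1452] 0x2d62cc2c72c100c19118f18618117c18900d
    [[0,3], [4], [6], [8], [2], [10], [12], [15], [1], [17], [19], [21], [23]]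
    12 4 6 1
    (.leaf 0x1800000400000200000100000001000080000000040000020000002000010000008000004002001)
    [0x9e015] 13 14 = true := by
  decide +kernel

theorem j366 (A : ∀ f : CS, f.ok G = true → Hd (val S) (f.cl G))
    (A2 : ∀ f : CI, f.ok G = true → Hd (val S) (f.cl G)) (hU : ∀ c ∈ units, Hd (val S) c) :
    Hd (val S) [24, 26, 1410, 1422, 1432, 1452] :=
  stu_sound A A2 hU i366

theorem i367 : stu G units []
    [.initX 0 3 1 1]
    [24, 26, 1432, 2201, 2519, 2302] 0x47f4eb44c2cc00c19118f18618117c18900d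
    [[0,3], [4], [6], [8], [2], [10], [12], [15], [1], [17], [18], [20], [23]]
    12 4 6 1
    (.leaf 0x1800000000400000200100000001000080000000040000020000002000010000008000004002001)
    [0x9e015] 13 14 = true := by
  decide +kernel

theorem j367 (A : ∀ f : CS, f.ok G = true → Hd (val S) (f.cl G))
    (A2 : ∀ f : CI, f.ok G = true → Hd (val S) (f.cl G)) (hU : ∀ c ∈ units, Hd (val S) c) :
    Hd (val S) [24, 26, 1432, 2201, 2519, 2302] :=
  stu_sound A A2 hU i367

theorem i368 : stu G units []
    [.initX 0 3 1 1]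
    [24, 26, 1432, 2520] 0x4ec2cc00c19118f18618117c18900d
    [[0,3], [4], [6], [8], [2], [10], [12], [15], [1], [17], [19]]
    10 4 4 1
    (.leaf 0x8000040000004002000000040000200000200010000080000400801)
    [0x195] 11 11 = true := by
  decide +kernel

theorem j368 (A : ∀ f : CS, f.ok G = true → Hd (val S) (f.cl G))
    (A2 : ∀ f : CI, f.ok G = true → Hd (val S) (f.cl G)) (hU : ∀ c ∈ units, Hd (val S) c) :
    Hd (val S) [24, 26, 1432, 2520] :=
  stu_sound A A2 hU i368

theorem i369 : stu G units []
    [.initX 0 4 3 1]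
    [24, 38, 396, 408, 618, 1315, 1365] 0x2aa2911350cc0c600c19118918618117c18f013
    [[0,3], [4], [6], [8], [10], [2], [12], [15], [1], [17], [19], [21], [22], [24]]
    13 4 4 1
    (.leaf 0x4000000800200000040000008000000020000400000000040000000800002000000400000080000010004001)
    [0x169] 14 14 = true := by
  decide +kernel

theorem j369 (A : ∀ f : CS, f.ok G = true → Hd (val S) (f.cl G))
    (A2 : ∀ f : CI, f.ok G = true → Hd (val S) (f.cl G)) (hU : ∀ c ∈ units, Hd (val S) c) :
    Hd (val S) [24, 38, 396, 408, 618, 1315, 1365] :=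
  stu_sound A A2 hU i369

theorem i370 : stu G units []
    [.initX 0 3 1 1]
    [26, 30, 38, 408, 415, 618, 1364] 0x2aa1350cf0cc01300f19118f18618117c18900d
    [[0,3], [4], [6], [8], [2], [10], [12], [1], [15], [17], [19], [20], [23], [25]]
    13 4 4 1
    (.leaf 0x8000001000000000100040000008000001000000008000000040000008000000200000400000080000010004001)
    [0x158] 14 14 = true := by
  decide +kernel

theorem j370 (A : ∀ f : CS, f.ok G = true → Hd (val S) (f.cl G))
    (A2 : ∀ f : CI, f.ok G = true → Hd (val S) (f.cl G)) (hU : ∀ c ∈ units, Hd (val S) c) :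
    Hd (val S) [26, 30, 38, 408, 415, 618, 1364] :=
  stu_sound A A2 hU i370

theorem i371 : stu G units []
    [.initX 0 3 1 1]
    [26, 38, 396, 408, 618, 1314, 1364] 0x2aa2911350cc0c601319118f18618117c18900d
    [[0,3], [4], [6], [8], [2], [10], [12], [1], [15], [17], [19], [21], [23], [25]]
    13 4 4 1
    (.leaf 0x8000001000000200000040000008000001000000008000000040000008000000200000400000080000010004001)
    [0x158] 14 14 = true := by
  decide +kernel

theorem j371 (A : ∀ f : CS, f.ok G = true → Hd (val S) (f.cl G))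
    (A2 : ∀ f : CI, f.ok G = true → Hd (val S) (f.cl G)) (hU : ∀ c ∈ units, Hd (val S) c) :
    Hd (val S) [26, 38, 396, 408, 618, 1314, 1364] :=
  stu_sound A A2 hU i371

theorem i372 : stu G units []
    [.initX 0 4 3 1]
    [30, 34, 38, 390, 397, 1424, 1426, 1428, 1365, 2517, 2308] 0x4824ea2aa2ca2c92c80c60c301100f19118918618117c18f013
    [[0,3], [4], [6], [8], [10], [2], [12], [15], [17], [1], [19], [20], [23], [25], [27], [28], [30], [33]]
    17 5 4 1
    (.leaf 0x800000000000080000000100004000000008000000010000000000001000040000000000800000200000000400000000000040000000008000000200000000400000000800000001000040001)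
    [0x4ca] 18 18 = true := by
  decide +kernel

theorem j372 (A : ∀ f : CS, f.ok G = true → Hd (val S) (f.cl G))
    (A2 : ∀ f : CI, f.ok G = true → Hd (val S) (f.cl G)) (hU : ∀ c ∈ units, Hd (val S) c) :
    Hd (val S) [30, 34, 38, 390, 397, 1424, 1426, 1428, 1365, 2517, 2308] :=
  stu_sound A A2 hU i372

theorem i373 : stu G units []
    [.initX 0 4 3 1]
    [32, 34, 38, 1408, 1442, 1452, 2517, 2290, 2308] 0x4824794ea2d62d12c001101019118918618117c18f013
    [[0,3], [4], [6], [8], [10], [2], [12], [15], [17], [1], [19], [21], [23], [24], [27], [29]]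
    15 5 4 1
    (.leaf 0x800000010000000000040004000000080000001000000000200000800000010000000000040000000080000020000000400000008000000100010001)
    [0x546] 16 16 = true := by
  decide +kernel

theorem j373 (A : ∀ f : CS, f.ok G = true → Hd (val S) (f.cl G))
    (A2 : ∀ f : CI, f.ok G = true → Hd (val S) (f.cl G)) (hU : ∀ c ∈ units, Hd (val S) c) :
    Hd (val S) [32, 34, 38, 1408, 1442, 1452, 2517, 2290, 2308] :=
  stu_sound A A2 hU i373

theorem i374 : stu G units []
    [.initX 0 4 3 1]
    [32, 34, 38, 1424, 1436, 1442, 1452, 1883, 2308, 2521] 0x4ec4823ad2d62d12ce2c801101019118918618117c18f013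
    [[0,3], [4], [6], [8], [10], [2], [12], [15], [17], [1], [19], [21], [23], [25], [26], [29], [30]]
    16 5 4 1
    (.leaf 0x800040000000000020001000000008000000040000000200000000010000010000000080000000000040000000020000002000000010000000080000000400020001)
    [0x546] 17 17 = true := by
  decide +kernel

theorem j374 (A : ∀ f : CS, f.ok G = true → Hd (val S) (f.cl G))
    (A2 : ∀ f : CI, f.ok G = true → Hd (val S) (f.cl G)) (hU : ∀ c ∈ units, Hd (val S) c) :
    Hd (val S) [32, 34, 38, 1424, 1436, 1442, 1452, 1883, 2308, 2521] :=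
  stu_sound A A2 hU i374

theorem i375 : stu G units []
    [.initX 0 4 3 1]
    [32, 36, 38, 396, 492, 1364] 0x2aa0f60c601201019118918618117c18f013
    [[0,3], [4], [6], [8], [10], [2], [12], [15], [17], [1], [19], [21], [23]]
    12 4 6 1
    (.leaf 0x1800000400000200000001000100000080000000040000002000020000010000008000004002001)
    [0xae016] 13 14 = true := by
  decide +kernel

theorem j375 (A : ∀ f : CS, f.ok G = true → Hd (val S) (f.cl G))
    (A2 : ∀ f : CI, f.ok G = true → Hd (val S) (f.cl G)) (hU : ∀ c ∈ units, Hd (val S) c) :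
    Hd (val S) [32, 36, 38, 396, 492, 1364] :=
  stu_sound A A2 hU i375

theorem i376 : stu G units []
    [.initX 0 4 3 1]
    [34, 36, 38, 396, 492, 1365] 0x2aa0f60c601201119118918618117c18f013
    [[0,3], [4], [6], [8], [10], [2], [12], [15], [17], [1], [19], [21], [22]]
    12 4 6 1
    (.leaf 0x1000800400000200000001000100000080000000040000002000020000010000008000004002001)
    [0xae016] 13 14 = true := by
  decide +kernel

theorem j376 (A : ∀ f : CS, f.ok G = true → Hd (val S) (f.cl G))
    (A2 : ∀ f : CI, f.ok G = true → Hd (val S) (f.cl G)) (hU : ∀ c ∈ units, Hd (val S) c) :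
    Hd (val S) [34, 36, 38, 396, 492, 1365] :=
  stu_sound A A2 hU i376

theorem i377 : stu G units []
    [.initX 0 4 3 1]
    [34, 36, 38, 439, 1365] 0x2aa0db01201119118918618117c18f013
    [[0,3], [4], [6], [8], [10], [2], [12], [15], [17], [1], [18], [20]]
    11 4 4 1
    (.leaf 0x1000002000020008000010000000040000008000200000400000800001001001)
    [0x1a6] 12 12 = true := by
  decide +kernel

theorem j377 (A : ∀ f : CS, f.ok G = true → Hd (val S) (f.cl G))
    (A2 : ∀ f : CI, f.ok G = true → Hd (val S) (f.cl G)) (hU : ∀ c ∈ units, Hd (val S) c) :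
    Hd (val S) [34, 36, 38, 439, 1365] :=
  stu_sound A A2 hU i377

theorem i378 : stu G units []
    [.initX 0 4 3 1]
    [34, 38, 1430, 1436, 1365, 2517, 2288, 2518] 0x4eb4784ea2aa2ce2cb01119118918618117c18f013
    [[0,3], [4], [6], [8], [10], [2], [12], [15], [1], [17], [19], [20], [22], [25], [27]]
    14 5 4 1
    (.leaf 0x800000040000000000800000040008000000400000000400002000000000040000000200000200000010000000800000040008001)
    [0x4c9] 15 15 = true := by
  decide +kernel

theorem j378 (A : ∀ f : CS, f.ok G = true → Hd (val S) (f.cl G))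
    (A2 : ∀ f : CI, f.ok G = true → Hd (val S) (f.cl G)) (hU : ∀ c ∈ units, Hd (val S) c) :
    Hd (val S) [34, 38, 1430, 1436, 1365, 2517, 2288, 2518] :=
  stu_sound A A2 hU i378

theorem i379 : stu G units []
    [.initX 0 4 3 1]
    [38, 44, 1408, 1410, 1440, 2521, 2294] 0x47b4ec2d02c12c001619118918618117c18f013
    [[0,3], [4], [6], [8], [10], [2], [12], [1], [15], [17], [19], [21], [22], [25]]
    13 4 4 1
    (.leaf 0x8000000000800200000040000008000001000000008000000040000000800002000000400000080000010004001)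
    [0x168] 14 14 = true := by
  decide +kernel

theorem j379 (A : ∀ f : CS, f.ok G = true → Hd (val S) (f.cl G))
    (A2 : ∀ f : CI, f.ok G = true → Hd (val S) (f.cl G)) (hU : ∀ c ∈ units, Hd (val S) c) :
    Hd (val S) [38, 44, 1408, 1410, 1440, 2521, 2294] :=
  stu_sound A A2 hU i379

theorem i380 : stu G units []
    [.initX 0 4 3 1]
    [38, 44, 1408, 1412, 1422, 1436, 1452, 1793, 1936, 1943, 2519] 0x4eb3cb3c83802d62ce2c72c22c001619118918618117c18f013
    [[0,3], [4], [6], [8], [10], [2], [12], [1], [15], [17], [19], [21], [23], [25], [26], [29], [30], [32]]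
    17 5 4 1
    (.leaf 0x40000000080002000000000000200008000000010000000020000000040000000080000000100000000008000000000040000000008000000200000000400000000800000001000040001)
    [0x4c8] 18 18 = true := by
  decide +kernel

theorem j380 (A : ∀ f : CS, f.ok G = true → Hd (val S) (f.cl G))
    (A2 : ∀ f : CI, f.ok G = true → Hd (val S) (f.cl G)) (hU : ∀ c ∈ units, Hd (val S) c) :
    Hd (val S) [38, 44, 1408, 1412, 1422, 1436, 1452, 1793, 1936, 1943, 2519] :=
  stu_sound A A2 hU i380

theorem i381 : stu G units []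
    [.initX 0 4 3 1]
    [38, 44, 1408, 1412, 1422, 1436, 1452, 1793, 1942, 1972, 2519] 0x4eb3da3cb3802d62ce2c72c22c001619118918618117c18f013
    [[0,3], [4], [6], [8], [10], [2], [12], [1], [15], [17], [19], [21], [23], [25], [26], [29], [31], [32]]
    17 5 4 1
    (.leaf 0x40001000000002000000000000200008000000010000000020000000040000000080000000100000000008000000000040000000008000000200000000400000000800000001000040001)
    [0x4c8] 18 18 = true := by
  decide +kernel

theorem j381 (A : ∀ f : CS, f.ok G = true → Hd (val S) (f.cl G))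
    (A2 : ∀ f : CI, f.ok G = true → Hd (val S) (f.cl G)) (hU : ∀ c ∈ units, Hd (val S) c) :
    Hd (val S) [38, 44, 1408, 1412, 1422, 1436, 1452, 1793, 1942, 1972, 2519] :=
  stu_sound A A2 hU i381

theorem i382 : stu G units []
    [.initX 0 4 3 1]
    [38, 44, 1408, 1412, 1422, 1436, 1452, 1865, 1936, 1943, 2519] 0x4eb3cb3c83a42d62ce2c72c22c001619118918618117c18f013
    [[0,3], [4], [6], [8], [10], [2], [12], [1], [15], [17], [19], [21], [23], [25], [26], [29], [30], [32]]
    17 5 4 1
    (.leaf 0x40000000080002000000000000200008000000010000000020000000040000000080000000100000000008000000000040000000008000000200000000400000000800000001000040001)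
    [0x4c8] 18 18 = true := by
  decide +kernel

theorem j382 (A : ∀ f : CS, f.ok G = true → Hd (val S) (f.cl G))
    (A2 : ∀ f : CI, f.ok G = true → Hd (val S) (f.cl G)) (hU : ∀ c ∈ units, Hd (val S) c) :
    Hd (val S) [38, 44, 1408, 1412, 1422, 1436, 1452, 1865, 1936, 1943, 2519] :=
  stu_sound A A2 hU i382

theorem i383 : stu G units []
    [.initX 0 4 3 1]
    [38, 44, 1408, 1412, 1436, 1442, 1452, 1811, 2308, 2521] 0x4ec4823892d62d12ce2c22c001619118918618117c18f013
    [[0,3], [4], [6], [8], [10], [2], [12], [1], [15], [17], [19], [21], [23], [25], [26], [29], [30]]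
    16 5 4 1
    (.leaf 0x800040000000000020001000000008000000040000000200000001000000008000000001000000000040000000020000002000000010000000080000000400020001)
    [0x506] 17 17 = true := by
  decide +kernel

theorem j383 (A : ∀ f : CS, f.ok G = true → Hd (val S) (f.cl G))
    (A2 : ∀ f : CI, f.ok G = true → Hd (val S) (f.cl G)) (hU : ∀ c ∈ units, Hd (val S) c) :
    Hd (val S) [38, 44, 1408, 1412, 1436, 1442, 1452, 1811, 2308, 2521] :=
  stu_sound A A2 hU i383

theorem i384 : stu G units []
    [.initX 0 4 3 1]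
    [38, 44, 1424, 1426, 1440, 1942, 1954, 1972, 2290] 0x4793da3d13cb2d02c92c801619118918618117c18f013
    [[0,3], [4], [6], [8], [10], [2], [12], [1], [15], [17], [19], [21], [23], [25], [27], [29]]
    15 5 4 1
    (.leaf 0x800000010000000200000004000000080000001000000020000000400000000200000000040000000080000020000000400000008000000100010001)
    [0x506] 16 16 = true := by
  decide +kernel

theorem j384 (A : ∀ f : CS, f.ok G = true → Hd (val S) (f.cl G))
    (A2 : ∀ f : CI, f.ok G = true → Hd (val S) (f.cl G)) (hU : ∀ c ∈ units, Hd (val S) c) :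
    Hd (val S) [38, 44, 1424, 1426, 1440, 1942, 1954, 1972, 2290] :=
  stu_sound A A2 hU i384

theorem i385 : stu G units []
    [.initX 0 4 3 1]
    [38, 44, 1424, 1428, 1430, 1436, 2169, 2178] 0x44143c2ce2cb2ca2c801619118918618117c18f013
    [[0,3], [4], [6], [8], [10], [2], [12], [1], [15], [17], [19], [21], [23], [24], [27]]
    14 5 4 1
    (.leaf 0x800000000010002000000100000008000000400000020000000040000000040000000200000200000010000000800000040008001)
    [0x4c8] 15 15 = true := by
  decide +kernel

theorem j385 (A : ∀ f : CS, f.ok G = true → Hd (val S) (f.cl G))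
    (A2 : ∀ f : CI, f.ok G = true → Hd (val S) (f.cl G)) (hU : ∀ c ∈ units, Hd (val S) c) :
    Hd (val S) [38, 44, 1424, 1428, 1430, 1436, 2169, 2178] :=
  stu_sound A A2 hU i385

theorem i386 : stu G units []
    [.initX 0 4 3 1]
    [38, 44, 1440, 2517, 2288] 0x4784ea2d001619118918618117c18f013
    [[0,3], [4], [6], [8], [10], [2], [12], [1], [15], [17], [18], [21]]
    11 4 4 1
    (.leaf 0x800000002002000004000000200000040000008000200000400000800001001001)
    [0x186] 12 12 = true := by
  decide +kernel

theorem j386 (A : ∀ f : CS, f.ok G = true → Hd (val S) (f.cl G))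
    (A2 : ∀ f : CI, f.ok G = true → Hd (val S) (f.cl G)) (hU : ∀ c ∈ units, Hd (val S) c) :
    Hd (val S) [38, 44, 1440, 2517, 2288] :=
  stu_sound A A2 hU i386

theorem i387 : stu G units []
    [.initX 0 4 3 1]
    [38, 390, 397, 1408, 1412, 1436, 1452, 2520] 0x4ec2d62ce2c22c00c60c319118918618117c18f013
    [[0,3], [4], [6], [8], [10], [2], [12], [1], [15], [16], [19], [21], [23], [25], [27]]
    14 5 4 1
    (.leaf 0x800000040000002000000100000008000000000100020000000040000000040000000200000200000010000000800000040008001)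
    [0x4c8] 15 15 = true := by
  decide +kernel

theorem j387 (A : ∀ f : CS, f.ok G = true → Hd (val S) (f.cl G))
    (A2 : ∀ f : CI, f.ok G = true → Hd (val S) (f.cl G)) (hU : ∀ c ∈ units, Hd (val S) c) :
    Hd (val S) [38, 390, 397, 1408, 1412, 1436, 1452, 2520] :=
  stu_sound A A2 hU i387

theorem i388 : stu G units []
    [.initX 0 4 3 1]
    [38, 396, 1804, 2520] 0x4ec3860c619118918618117c18f013
    [[0,3], [4], [6], [8], [10], [2], [12], [1], [15], [17], [19]]
    10 4 4 1
    (.leaf 0x8000040000200000040000040000020002000010000080000400801)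
    [0x186] 11 11 = true := by
  decide +kernel

theorem j388 (A : ∀ f : CS, f.ok G = true → Hd (val S) (f.cl G))
    (A2 : ∀ f : CI, f.ok G = true → Hd (val S) (f.cl G)) (hU : ∀ c ∈ units, Hd (val S) c) :
    Hd (val S) [38, 396, 1804, 2520] :=
  stu_sound A A2 hU i388

theorem i389 : stu G units []
    [.initX 0 4 3 1]
    [38, 397, 1822, 2520] 0x4ec38f0c619118918618117c18f013
    [[0,3], [4], [6], [8], [10], [2], [12], [1], [14], [17], [19]]
    10 4 4 1
    (.leaf 0x8000040000000800040000040000020002000010000080000400801)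
    [0x186] 11 11 = true := by
  decide +kernel

theorem j389 (A : ∀ f : CS, f.ok G = true → Hd (val S) (f.cl G))
    (A2 : ∀ f : CI, f.ok G = true → Hd (val S) (f.cl G)) (hU : ∀ c ∈ units, Hd (val S) c) :
    Hd (val S) [38, 397, 1822, 2520] :=
  stu_sound A A2 hU i389

theorem i390 : stu G units []
    [.initX 0 4 3 1]
    [38, 499, 1422, 1436, 1452, 2201, 2519, 2302] 0x47f4eb44c2d62ce2c70f919118918618117c18f013
    [[0,3], [4], [6], [8], [10], [2], [12], [1], [14], [17], [19], [21], [22], [24], [27]]
    14 5 4 1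
    (.leaf 0x800000000010000000800100000008000000400000000008000040000000040000000200000200000010000000800000040008001)
    [0x4c8] 15 15 = true := by
  decide +kernel

theorem j390 (A : ∀ f : CS, f.ok G = true → Hd (val S) (f.cl G))
    (A2 : ∀ f : CI, f.ok G = true → Hd (val S) (f.cl G)) (hU : ∀ c ∈ units, Hd (val S) c) :
    Hd (val S) [38, 499, 1422, 1436, 1452, 2201, 2519, 2302] :=
  stu_sound A A2 hU i390

theorem i391 : stu G units []
    [.initX 0 4 3 1]
    [38, 1408, 1410, 1412, 1434, 2294] 0x47b2cd2c22c12c019118918618117c18f013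
    [[0,3], [4], [6], [8], [10], [2], [12], [1], [15], [17], [19], [21], [23]]
    12 4 6 1
    (.leaf 0x1800000400000200000100000080000001000000040000002000020000010000008000004002001)
    [0x8e016] 13 14 = true := by
  decide +kernel

theorem j391 (A : ∀ f : CS, f.ok G = true → Hd (val S) (f.cl G))
    (A2 : ∀ f : CI, f.ok G = true → Hd (val S) (f.cl G)) (hU : ∀ c ∈ units, Hd (val S) c) :
    Hd (val S) [38, 1408, 1410, 1412, 1434, 2294] :=
  stu_sound A A2 hU i391

theorem i392 : stu G units []
    [.initX 0 4 3 1]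
    [38, 1408, 1410, 1412, 2519, 2302] 0x47f4eb2c22c12c019118918618117c18f013
    [[0,3], [4], [6], [8], [10], [2], [12], [1], [15], [17], [19], [20], [23]]
    12 4 6 1
    (.leaf 0x1800000000400200000100000080000001000000040000002000020000010000008000004002001)
    [0x8e016] 13 14 = true := by
  decide +kernel

theorem j392 (A : ∀ f : CS, f.ok G = true → Hd (val S) (f.cl G))
    (A2 : ∀ f : CI, f.ok G = true → Hd (val S) (f.cl G)) (hU : ∀ c ∈ units, Hd (val S) c) :
    Hd (val S) [38, 1408, 1410, 1412, 2519, 2302] :=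
  stu_sound A A2 hU i392

theorem i393 : stu G units []
    [.initX 0 4 3 1]
    [38, 1408, 1410, 1424, 1436, 2520] 0x4ec2ce2c82c12c019118918618117c18f013
    [[0,3], [4], [6], [8], [10], [2], [12], [1], [15], [17], [19], [21], [23]]
    12 4 6 1
    (.leaf 0x1800000400000200000100000080000001000000040000002000020000010000008000004002001)
    [0x8e016] 13 14 = true := by
  decide +kernel

theorem j393 (A : ∀ f : CS, f.ok G = true → Hd (val S) (f.cl G))
    (A2 : ∀ f : CI, f.ok G = true → Hd (val S) (f.cl G)) (hU : ∀ c ∈ units, Hd (val S) c) :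
    Hd (val S) [38, 1408, 1410, 1424, 1436, 2520] :=
  stu_sound A A2 hU i393

theorem i394 : stu G units []
    [.initX 0 4 3 1]
    [38, 1408, 1412, 1422, 1436, 1452, 2519, 2521, 2300] 0x47e4ec4eb2d62ce2c72c22c019118918618117c18f013
    [[0,3], [4], [6], [8], [10], [2], [12], [1], [15], [17], [19], [21], [23], [24], [26], [29]]
    15 5 4 1
    (.leaf 0x800000000002000000040004000000080000001000000020000000400000000200000000040000000080000020000000400000008000000100010001)
    [0x506] 16 16 = true := by
  decide +kernel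

theorem j394 (A : ∀ f : CS, f.ok G = true → Hd (val S) (f.cl G))
    (A2 : ∀ f : CI, f.ok G = true → Hd (val S) (f.cl G)) (hU : ∀ c ∈ units, Hd (val S) c) :
    Hd (val S) [38, 1408, 1412, 1422, 1436, 1452, 2519, 2521, 2300] :=
  stu_sound A A2 hU i394

theorem i395 : stu G units []
    [.initX 0 4 3 1]
    [38, 1408, 1422, 1436, 2290, 2520] 0x4ec4792ce2c72c019118918618117c18f013
    [[0,3], [4], [6], [8], [10], [2], [12], [1], [15], [17], [19], [21], [23]]
    12 4 6 1
    (.leaf 0x1800000400000200000100000080000001000000040000002000020000010000008000004002001)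
    [0x8e016] 13 14 = true := by
  decide +kernel

theorem j395 (A : ∀ f : CS, f.ok G = true → Hd (val S) (f.cl G))
    (A2 : ∀ f : CI, f.ok G = true → Hd (val S) (f.cl G)) (hU : ∀ c ∈ units, Hd (val S) c) :
    Hd (val S) [38, 1408, 1422, 1436, 2290, 2520] :=
  stu_sound A A2 hU i395

theorem i396 : stu G units []
    [.initX 0 4 3 1]
    [38, 1408, 1452, 2290, 2519, 2300] 0x47e4eb4792d62c019118918618117c18f013
    [[0,3], [4], [6], [8], [10], [2], [12], [1], [15], [17], [19], [20], [23]]
    12 4 6 1
    (.leaf 0x1800000000400200000100000080000001000000040000002000020000010000008000004002001)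
    [0x8e016] 13 14 = true := by
  decide +kernel

theorem j396 (A : ∀ f : CS, f.ok G = true → Hd (val S) (f.cl G))
    (A2 : ∀ f : CI, f.ok G = true → Hd (val S) (f.cl G)) (hU : ∀ c ∈ units, Hd (val S) c) :
    Hd (val S) [38, 1408, 1452, 2290, 2519, 2300] :=
  stu_sound A A2 hU i396

theorem i397 : stu G units []
    [.initX 0 4 3 1]
    [38, 1408, 1452, 2290, 2520] 0x4ec4792d62c019118918618117c18f013
    [[0,3], [4], [6], [8], [10], [2], [12], [1], [15], [17], [19], [21]]
    11 4 4 1
    (.leaf 0x800001000002000004000000200000040000008000200000400000800001001001)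
    [0x186] 12 12 = true := by
  decide +kernel

theorem j397 (A : ∀ f : CS, f.ok G = true → Hd (val S) (f.cl G))
    (A2 : ∀ f : CI, f.ok G = true → Hd (val S) (f.cl G)) (hU : ∀ c ∈ units, Hd (val S) c) :
    Hd (val S) [38, 1408, 1452, 2290, 2520] :=
  stu_sound A A2 hU i397

theorem i398 : stu G units []
    [.initX 0 4 3 1]
    [38, 1410, 1412, 1422, 1424, 1430, 1440, 2308, 2521] 0x4ec4822d02cb2c82c72c22c119118918618117c18f013
    [[0,3], [4], [6], [8], [10], [2], [12], [1], [15], [17], [19], [21], [23], [25], [27], [28]]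
    15 5 4 1
    (.leaf 0x100010000000200000004000000080000001000000020000000400000000200000000040000000080000020000000400000008000000100010001)
    [0x506] 16 16 = true := by
  decide +kernel

theorem j398 (A : ∀ f : CS, f.ok G = true → Hd (val S) (f.cl G))
    (A2 : ∀ f : CI, f.ok G = true → Hd (val S) (f.cl G)) (hU : ∀ c ∈ units, Hd (val S) c) :
    Hd (val S) [38, 1410, 1412, 1422, 1424, 1430, 1440, 2308, 2521] :=
  stu_sound A A2 hU i398

theorem i399 : stu G units []
    [.initX 0 4 3 1]
    [38, 1410, 1412, 1422, 1428, 1447, 2521, 2296] 0x47c4ec2d32ca2c72c22c119118918618117c18f013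
    [[0,3], [4], [6], [8], [10], [2], [12], [1], [15], [17], [19], [21], [22], [24], [27]]
    14 5 4 1
    (.leaf 0x800000000010000000800100000008000000400000020000000040000000040000000200000200000010000000800000040008001)
    [0x4c8] 15 15 = true := by
  decide +kernel

theorem j399 (A : ∀ f : CS, f.ok G = true → Hd (val S) (f.cl G))
    (A2 : ∀ f : CI, f.ok G = true → Hd (val S) (f.cl G)) (hU : ∀ c ∈ units, Hd (val S) c) :
    Hd (val S) [38, 1410, 1412, 1422, 1428, 1447, 2521, 2296] :=
  stu_sound A A2 hU i399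

theorem i400 : stu G units []
    [.initX 0 4 3 1]
    [38, 1410, 1422, 1424, 2290, 2519, 2300] 0x47e4eb4792c82c72c119118918618117c18f013
    [[0,3], [4], [6], [8], [10], [2], [12], [1], [15], [17], [19], [21], [22], [25]]
    13 4 4 1
    (.leaf 0x8000000000800200000040000008000001000000008000000040000000800002000000400000080000010004001)
    [0x168] 14 14 = true := by
  decide +kernel

theorem j400 (A : ∀ f : CS, f.ok G = true → Hd (val S) (f.cl G))
    (A2 : ∀ f : CI, f.ok G = true → Hd (val S) (f.cl G)) (hU : ∀ c ∈ units, Hd (val S) c) :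
    Hd (val S) [38, 1410, 1422, 1424, 2290, 2519, 2300] :=
  stu_sound A A2 hU i400

theorem i401 : stu G units []
    [.initX 0 4 3 1]
    [38, 1410, 1422, 1436, 2201, 2519, 2302] 0x47f4eb44c2ce2c72c119118918618117c18f013
    [[0,3], [4], [6], [8], [10], [2], [12], [1], [15], [17], [19], [20], [22], [25]]
    13 4 4 1
    (.leaf 0x8000000000800000100040000008000001000000008000000040000000800002000000400000080000010004001)
    [0x168] 14 14 = true := by
  decide +kernel

theorem j401 (A : ∀ f : CS, f.ok G = true → Hd (val S) (f.cl G))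
    (A2 : ∀ f : CI, f.ok G = true → Hd (val S) (f.cl G)) (hU : ∀ c ∈ units, Hd (val S) c) :
    Hd (val S) [38, 1410, 1422, 1436, 2201, 2519, 2302] :=
  stu_sound A A2 hU i401

theorem i402 : stu G units []
    [.initX 0 4 3 1]
    [38, 1416, 1418, 1424, 1428, 1436, 2516, 2294] 0x47b4ea2ce2ca2c82c52c419118918618117c18f013
    [[0,3], [4], [6], [8], [10], [2], [12], [1], [15], [17], [19], [21], [23], [25], [27]]
    14 5 4 1
    (.leaf 0x800000040000002000000100000008000000400000020000000040000000040000000200000200000010000000800000040008001)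
    [0x4c8] 15 15 = true := by
  decide +kernel

theorem j402 (A : ∀ f : CS, f.ok G = true → Hd (val S) (f.cl G))
    (A2 : ∀ f : CI, f.ok G = true → Hd (val S) (f.cl G)) (hU : ∀ c ∈ units, Hd (val S) c) :
    Hd (val S) [38, 1416, 1418, 1424, 1428, 1436, 2516, 2294] :=
  stu_sound A A2 hU i402

theorem i403 : stu G units []
    [.initX 0 4 3 1]
    [38, 1422, 1434, 1436, 2288] 0x4782ce2cd2c719118918618117c18f013
    [[0,3], [4], [6], [8], [10], [2], [12], [1], [15], [17], [19], [21]]
    11 4 4 1
    (.leaf 0x800001000002000004000000200000040000008000200000400000800001001001)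
    [0x186] 12 12 = true := by
  decide +kernel

theorem j403 (A : ∀ f : CS, f.ok G = true → Hd (val S) (f.cl G))
    (A2 : ∀ f : CI, f.ok G = true → Hd (val S) (f.cl G)) (hU : ∀ c ∈ units, Hd (val S) c) :
    Hd (val S) [38, 1422, 1434, 1436, 2288] :=
  stu_sound A A2 hU i403

theorem i404 : stu G units []
    [.initX 0 4 3 1]
    [38, 1422, 1436, 2201, 2290, 2519, 2302] 0x47f4eb47944c2ce2c719118918618117c18f013
    [[0,3], [4], [6], [8], [10], [2], [12], [1], [15], [17], [18], [21], [22], [25]]
    13 4 4 1
    (.leaf 0x8000000000800200000000020008000001000000008000000040000000800002000000400000080000010004001)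
    [0x168] 14 14 = true := by
  decide +kernel

theorem j404 (A : ∀ f : CS, f.ok G = true → Hd (val S) (f.cl G))
    (A2 : ∀ f : CI, f.ok G = true → Hd (val S) (f.cl G)) (hU : ∀ c ∈ units, Hd (val S) c) :
    Hd (val S) [38, 1422, 1436, 2201, 2290, 2519, 2302] :=
  stu_sound A A2 hU i404

theorem i405 : stu G units []
    [.initX 0 4 3 1]
    [38, 1436, 2290, 2519, 2521, 2300] 0x47e4ec4eb4792ce19118918618117c18f013
    [[0,3], [4], [6], [8], [10], [2], [12], [1], [15], [17], [18], [20], [23]]
    12 4 6 1
    (.leaf 0x1800000000400000200100000080000001000000040000002000020000010000008000004002001)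
    [0x8e016] 13 14 = true := by
  decide +kernel

theorem j405 (A : ∀ f : CS, f.ok G = true → Hd (val S) (f.cl G))
    (A2 : ∀ f : CI, f.ok G = true → Hd (val S) (f.cl G)) (hU : ∀ c ∈ units, Hd (val S) c) :
    Hd (val S) [38, 1436, 2290, 2519, 2521, 2300] :=
  stu_sound A A2 hU i405

theorem i406 : stu G units []
    [.initX 0 4 3 1]
    [38, 2288, 2519, 2300] 0x47e4eb47819118918618117c18f013
    [[0,3], [4], [6], [8], [10], [2], [12], [1], [15], [16], [19]]
    10 4 4 1
    (.leaf 0x8000000100200000040000040000020002000010000080000400801)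
    [0x186] 11 11 = true := by
  decide +kernel

theorem j406 (A : ∀ f : CS, f.ok G = true → Hd (val S) (f.cl G))
    (A2 : ∀ f : CI, f.ok G = true → Hd (val S) (f.cl G)) (hU : ∀ c ∈ units, Hd (val S) c) :
    Hd (val S) [38, 2288, 2519, 2300] :=
  stu_sound A A2 hU i406

theorem i407 : stu G units [.mix 0 0 2 1, .mix 0 0 3 1, .letlab 0 4 1 0]
    [.initX 0 4 3 1]
    [391, 1424, 1436, 1450, 1452, 1793, 1883, 2520] 0x4ec3ad3802d62d52ce2c819118918618117c18f0131020f00c3
    [[1,3], [1,5], [7,2,4], [6,9], [10], [12], [14], [16], [8], [18], [0], [21], [23], [25], [27], [28], [30], [33]]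
    17 5 14 1
    (.leaf 0x8000000010000000000008800000000000080000000100004000000008000000010000000020000000000000010000008000000001000000040000000080000000100000000200008000200010000600028000000060000)
    [0x39d68012c0158089] 18 21 = true := by
  decide +kernel

theorem j407 (A : ∀ f : CS, f.ok G = true → Hd (val S) (f.cl G))
    (A2 : ∀ f : CI, f.ok G = true → Hd (val S) (f.cl G)) (hU : ∀ c ∈ units, Hd (val S) c) :
    Hd (val S) [391, 1424, 1436, 1450, 1452, 1793, 1883, 2520] :=
  stu_sound A A2 hU i407

theorem i408 : stu G units [.letlab 0 2 0 1]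
    [.initX 0 2 2 1]
    [396, 414] 0x19118f18918117c1860cf0c600a
    [[1,2,4], [0,7], [8], [10], [6], [12], [14], [16], [3], [5]]
    9 4 10 1
    (.leaf 0x100001020000400004000080001000008000800010040040206)
    [0xac01b9025] 10 12 = true := by
  decide +kernel

theorem j408 (A : ∀ f : CS, f.ok G = true → Hd (val S) (f.cl G))
    (A2 : ∀ f : CI, f.ok G = true → Hd (val S) (f.cl G)) (hU : ∀ c ∈ units, Hd (val S) c) :
    Hd (val S) [396, 414] :=
  stu_sound A A2 hU i408

theorem i409 : stu G units [.some 1 0, .legal2 0 1 0 0 3]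
    [.initX 0 0 0 1]
    [1408, 1410, 1412, 2519, 2300] 0x47e4eb19118f18918618117c0002c32c22c12c0
    [[0,2,4,6], [9,7], [8,11], [10], [12], [14], [16], [18], [20], [1], [3], [5], [22], [25]]
    13 5 14 1
    (.leaf 0x4004000000001080000000008000020000004000000800000040000008000001000000200000040000008004001000c000000000f)
    [0xc8803052c0278064] 14 17 = true := by
  decide +kernel

theorem j409 (A : ∀ f : CS, f.ok G = true → Hd (val S) (f.cl G))
    (A2 : ∀ f : CI, f.ok G = true → Hd (val S) (f.cl G)) (hU : ∀ c ∈ units, Hd (val S) c) :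
    Hd (val S) [1408, 1410, 1412, 2519, 2300] :=
  stu_sound A A2 hU i409

theorem i410 : stu G units [.some 1 3, .legal2 0 1 3 1 3]
    [.initX 0 3 1 1]
    [1416, 1422, 1432, 1434, 1436, 2302] 0x47f2c72c419118f18618117c18900d2cf2ce2cd2cc
    [[0,2,4,6], [9,7], [8,11], [12], [14], [16], [10], [18], [20], [23], [25], [1], [3], [5], [27]]
    14 5 12 1
    (.leaf 0x20000000001080000000010000000800000040004000000200000000004000000200000002000001000000080000004000800100060000000000f)
    [0x5cd8b00280067] 15 17 = true := by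
  decide +kernel

theorem j410 (A : ∀ f : CS, f.ok G = true → Hd (val S) (f.cl G))
    (A2 : ∀ f : CI, f.ok G = true → Hd (val S) (f.cl G)) (hU : ∀ c ∈ units, Hd (val S) c) :
    Hd (val S) [1416, 1422, 1432, 1434, 1436, 2302] :=
  stu_sound A A2 hU i410

theorem i411 : stu G units [.legal2 0 1 2 2 2]
    [.initX 0 2 2 1]
    [1429, 2288, 2521, 2294] 0x47b4ec47819118f18918117c1862ca00a
    [[1,3], [0,5], [6], [8], [4], [10], [12], [14], [2], [17], [18], [21]]
    11 4 7 1
    (.leaf 0x1800000002002000000000200020000040000080000040000400000800800401800)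
    [0x19d025] 12 13 = true := by
  decide +kernel

theorem j411 (A : ∀ f : CS, f.ok G = true → Hd (val S) (f.cl G))
    (A2 : ∀ f : CI, f.ok G = true → Hd (val S) (f.cl G)) (hU : ∀ c ∈ units, Hd (val S) c) :
    Hd (val S) [1429, 2288, 2521, 2294] :=
  stu_sound A A2 hU i411

theorem i412 : stu G units [.some 1 3, .legal2 0 1 3 1 3]
    [.initX 0 3 1 1]
    [1432, 1434, 1436, 2288] 0x47819118f18618117c18900d2cf2ce2cd2cc
    [[0,2,4,6], [9,7], [8,11], [12], [14], [16], [10], [18], [20], [1], [3], [5], [23]]
    12 5 12 1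
    (.leaf 0x1000000000880000000400000200000100000040000020000002000010000008000004002001001800000000f)
    [0xde7009c00ad4c] 13 15 = true := by
  decide +kernel

theorem j412 (A : ∀ f : CS, f.ok G = true → Hd (val S) (f.cl G))
    (A2 : ∀ f : CI, f.ok G = true → Hd (val S) (f.cl G)) (hU : ∀ c ∈ units, Hd (val S) c) :
    Hd (val S) [1432, 1434, 1436, 2288] :=
  stu_sound A A2 hU i412

theorem i413 : stu G units [.some 1 1, .legal 1 0 0, .legal2 0 1 1 1 3, .mix 1 0 2 1, .mix 1 0 3 1, .mix 1 1 2 1, .mix 1 1 3 1, .letlab 1 1 0 0, .letlab 1 4 1 0]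
    [.initX 0 1 1 1, .initX 1 0 0 1, .initX 1 1 1 0]
    [1447, 1448, 1450, 2169, 2178, 2290] 0x4792d52d419118f18918617c44143c1812d33a73e63d43830052c02c72c62c52c4
    [[0,2,4,6], [9,1], [11,7], [13,15], [13,17], [19,15], [19,17], [5,12,18], [21,14,16], [10,23], [8,25], [3,26], [28], [22], [30], [32], [34], [36], [20], [39], [41], [24], [27], [43]]
    22 6 40 1
    (.leaf 0x800000000001000000000000000080000400000000000000000400000800000000004000000000000001000002000000000000000208000000000000800000000000000010004000000000020000000000000000004000000004000000000020000000000100000000000800000000000800000000040000000080200000400000010002000000200010000018000001000240000c0000000000a000000000050000000000300000000000a000000000044000000000000000f)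
    [0x87a28401a00048002537c020715e00169c7403170026c02d600364028e] 24 34 = true := by
  decide +kernel

theorem j413 (A : ∀ f : CS, f.ok G = true → Hd (val S) (f.cl G))
    (A2 : ∀ f : CI, f.ok G = true → Hd (val S) (f.cl G)) (hU : ∀ c ∈ units, Hd (val S) c) :
    Hd (val S) [1447, 1448, 1450, 2169, 2178, 2290] :=
  stu_sound A A2 hU i413

/-- clauses which hold at the start -/
def E : List (List ℕ) :=
  [[763],
   [765],
   [767],
   [769],
   [773],
   [775],
   [777],
   [779],
   [783],
   [785],
   [789],
   [791],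
   [793],
   [795],
   [797],
   [801],
   [805],
   [807],
   [1105, 1420, 2169, 2178],
   [0, 2, 38, 1408, 2201, 2519],
   [0, 2, 1408, 1446, 2201, 2519],
   [0, 6, 8, 12, 1416, 1446, 2290, 2519, 2300],
   [0, 6, 8, 14, 18, 30, 1408, 1412, 1436, 2201, 1365, 2296],
   [0, 6, 8, 14, 18, 30, 1408, 1412, 2201, 1365, 2290, 2296],
   [0, 6, 8, 14, 1408, 1410, 1424, 1428, 1436, 1442],
   [0, 6, 20, 38, 44, 396, 618, 1408, 1410, 1424, 1426, 1364],
   [0, 6, 24, 38, 44, 499, 1452, 1811, 1865, 1315],
   [0, 6, 38, 396, 432, 499, 1314, 1364],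
   [0, 8, 10, 14, 24, 1424, 1428, 1436, 2201, 1315, 1365, 2296],
   [0, 8, 14, 1408, 1412, 1432, 1434, 1442, 1452, 2521, 2296],
   [0, 14, 38, 396, 608, 1418, 1452, 1364, 2520],
   [0, 32, 34, 38, 390, 492, 1364],
   [0, 38, 44, 1408, 1412, 1422, 1364, 2290, 2519, 2302],
   [2, 6, 10, 12, 1412, 1416, 1428, 1432, 1448, 2290, 2519, 2300],
   [2, 6, 10, 12, 1416, 1446, 2290, 2519, 2300],
   [2, 6, 10, 14, 16, 30, 1412, 1428, 1436, 1364, 2519, 2521, 2296],
   [2, 6, 10, 14, 18, 30, 1412, 1428, 1436, 1448, 2201, 1365, 2519, 2296],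
   [2, 6, 10, 14, 1408, 1412, 1442, 1452, 2521, 2296],
   [2, 6, 14, 20, 38, 390, 426, 1426, 1365, 2517, 2288],
   [2, 6, 14, 38, 444, 1452, 1793, 1365, 2520],
   [2, 6, 20, 38, 44, 396, 618, 1408, 1410, 1436, 1365, 2290],
   [2, 6, 20, 38, 44, 397, 612, 1408, 1410, 1424, 1426, 1365],
   [2, 8, 10, 14, 26, 1424, 1428, 1436, 1314, 1364, 2521, 2296],
   [2, 10, 14, 24, 26, 1432, 2201, 2290],
   [2, 24, 26, 396, 522, 1408, 1422, 1448, 1365, 2520],
   [2, 30, 38, 1408, 1412, 1422, 1448, 1365, 2520],
   [2, 34, 38, 396, 492, 1365],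
   [2, 34, 38, 397, 510, 1365],
   [2, 38, 390, 397, 1408, 1452, 1365, 2520],
   [2, 38, 1408, 1412, 1422, 1448, 1315, 1365, 2520],
   [6, 8, 14, 20, 38, 463, 1408, 1416, 1428, 1365, 2290, 2519],
   [6, 12, 38, 1408, 1412, 1416, 1452, 2290, 2519, 2302],
   [6, 20, 38, 1408, 1410, 1424, 1426, 1440, 2296],
   [6, 38, 44, 396, 1408, 1412, 1422, 1804, 2519],
   [6, 38, 44, 1408, 1412, 1422, 1428, 1436, 2290, 2519, 2302],
   [6, 1408, 1412, 1422, 1448, 1452, 2519, 2294],
   [8, 10, 12, 20, 1412, 1426, 1436, 1454, 2290, 2518],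
   [8, 10, 12, 20, 1426, 1428, 1436, 2516, 2294],
   [8, 10, 12, 396, 1416, 1446, 1894, 2519, 2302],
   [8, 10, 12, 397, 1416, 1822, 2519, 2300],
   [8, 10, 12, 1412, 1416, 1436, 1446, 2516, 2288, 2302],
   [8, 10, 12, 1416, 1428, 1446, 2288, 2519, 2302],
   [8, 10, 12, 1424, 1426, 1432, 1446, 2520],
   [8, 10, 14, 18, 1412, 1365, 2288, 2519],
   [8, 10, 14, 24, 30, 1412, 1424, 1436, 1442, 1365, 2290],
   [8, 10, 14, 24, 1424, 1428, 1436, 1448, 2201, 1315, 1365, 2296],
   [8, 10, 14, 26, 1418, 1434, 1436, 1448, 1314, 1364, 2521, 2296],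
   [8, 10, 14, 30, 1432, 1434, 1448, 1450, 2290, 2521, 2296],
   [8, 10, 14, 32, 34, 1412, 1418, 1424, 1426, 1442, 2521],
   [8, 10, 14, 32, 34, 1412, 1424, 1436, 1442, 2290],
   [8, 10, 14, 32, 34, 1442, 2290, 2521, 2296],
   [8, 10, 14, 390, 1418, 1894, 2517, 2308],
   [8, 10, 14, 1412, 1418, 1424, 1426, 1434, 1438, 2308],
   [8, 10, 14, 1412, 1418, 1434, 2308, 2296],
   [8, 10, 14, 1412, 1418, 2517, 2290, 2308, 2294],
   [8, 10, 14, 1412, 1418, 2308, 2519, 2300],
   [8, 10, 14, 1418, 1440, 1442, 2308],
   [8, 10, 14, 1424, 1428, 1436, 1438, 1442, 2521, 2296],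
   [8, 10, 24, 26, 396, 1442, 1454, 1894],
   [8, 10, 32, 34, 1412, 1440, 1448, 2169, 2178, 2290],
   [8, 10, 390, 397, 1416, 1446, 1876, 2519, 2302],
   [8, 10, 391, 1418, 1822, 2517, 2308],
   [8, 10, 396, 1416, 1894, 2519, 2300],
   [8, 14, 20, 38, 397, 444, 612, 1410, 1412, 1365],
   [8, 14, 20, 38, 463, 1410, 1412, 1434, 1452, 1365, 2521],
   [8, 14, 20, 38, 463, 1412, 1416, 1434, 1365, 2296],
   [10, 14, 20, 38, 390, 397, 1410, 1412, 1428, 2201, 1364, 2519],
   [10, 14, 20, 38, 390, 408, 1410, 1412, 1428, 1436, 1364, 2519],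
   [10, 14, 20, 38, 390, 408, 1410, 1412, 1428, 1364, 2519, 2302],
   [10, 14, 20, 38, 390, 499, 1410, 1412, 1428, 2201, 1364, 2519],
   [10, 14, 20, 38, 463, 1408, 1416, 1428, 1364, 2290, 2519],
   [10, 14, 20, 38, 463, 1410, 1412, 1434, 1452, 1364],
   [10, 14, 20, 38, 499, 1412, 1416, 1428, 1811, 1364, 2290],
   [10, 14, 20, 38, 499, 1412, 1416, 1428, 1942, 2068, 1364, 2290],
   [12, 14, 20, 1410, 1412, 1436, 1446, 2519, 2521, 2300],
   [12, 14, 38, 1436, 1452, 2201, 2517, 2519, 2302],
   [12, 38, 44, 1408, 1410, 1416, 1418, 1424, 1428, 1436, 2302],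
   [12, 396, 1416, 1418, 1420, 1446, 1804, 2519, 2302],
   [14, 16, 20, 38, 481, 1412, 1416, 1428, 1364, 2519, 2296],
   [14, 18, 20, 38, 396, 608, 1410, 1365, 2520],
   [14, 18, 20, 38, 397, 612, 1410, 1412, 1428, 1365, 2516],
   [14, 18, 20, 38, 397, 612, 1426, 1428, 1450, 1365, 2516],
   [14, 18, 20, 38, 463, 1410, 1412, 1428, 1436, 1793, 1883, 1365, 2519, 2521],
   [14, 18, 20, 38, 612, 1408, 1410, 1416, 1436, 1793, 1365, 2517, 2290],
   [14, 18, 20, 38, 612, 1408, 1410, 1416, 1793, 1365, 2290, 2296],
   [14, 20, 24, 30, 38, 1410, 1412, 1428, 1436, 2201, 1365, 2519, 2296],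
   [14, 20, 24, 30, 38, 1416, 1436, 1450, 2201, 1365, 2290, 2519],
   [14, 20, 26, 30, 38, 1410, 1412, 1428, 1436, 1364, 2519, 2521, 2296],
   [14, 20, 38, 390, 608, 1410, 1412, 1424, 1434],
   [14, 20, 38, 396, 1416, 1440, 1804],
   [14, 20, 38, 397, 444, 1410, 1412, 1434, 1436],
   [14, 20, 38, 397, 1416, 1440, 1822],
   [14, 20, 38, 397, 1416, 1440, 1876],
   [14, 20, 38, 1416, 1440, 2521, 2294],
   [14, 20, 396, 1416, 1804, 1894],
   [14, 20, 439, 1412, 1416, 1428, 2288],
   [14, 20, 1408, 1410, 1416, 1428, 1440, 1446, 2308],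
   [14, 20, 1410, 1412, 1446, 1452, 2201, 2519, 2302],
   [14, 20, 1412, 1414, 1416, 1450, 2519, 2521, 2294, 2302],
   [14, 20, 1412, 1416, 1418, 2517, 2288, 2308],
   [14, 20, 1412, 1416, 1428, 1811, 2288],
   [14, 20, 1412, 1416, 1428, 1883, 2288],
   [14, 20, 1412, 1416, 1428, 1942, 2068, 2288],
   [14, 20, 1412, 1416, 1450, 1883, 2521, 2294],
   [14, 20, 1412, 1416, 2169, 2178, 2290],
   [14, 20, 1414, 1416, 1446, 1450, 2519, 2521, 2294],
   [14, 20, 1416, 1428, 1434, 2521, 2294],
   [14, 24, 26, 1410, 1432, 1452, 2308],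
   [14, 38, 44, 396, 1410, 1440, 1894],
   [14, 38, 1434, 1436, 2288],
   [14, 1416, 1432, 1434, 1436, 2308, 2302],
   [16, 18, 26, 38, 390, 397, 1426, 1314, 1364, 2517, 2308],
   [16, 20, 30, 36, 38, 396, 618, 1408, 1410, 1426, 1364],
   [16, 20, 30, 36, 391, 612, 1424, 1426, 1432, 1364],
   [16, 20, 30, 38, 396, 618, 1412, 1416, 1422, 1428, 1364],
   [16, 20, 30, 38, 1424, 1426, 1442, 1364, 2290, 2518],
   [16, 20, 34, 38, 1426, 1793, 2521, 2294],
   [16, 20, 38, 1424, 1426, 1364, 2517, 2288],
   [16, 30, 38, 396, 432, 1416, 1422, 1428, 1364],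
   [18, 20, 38, 499, 1408, 1410, 1424, 1426, 1365, 2290, 2302],
   [18, 20, 38, 1424, 1426, 1432, 1365, 2288],
   [18, 26, 30, 38, 390, 397, 1426, 1364, 2517, 2308],
   [20, 24, 32, 38, 1426, 1793, 2521, 2294],
   [20, 32, 38, 1410, 1412, 1422, 1424, 1364, 2290],
   [20, 38, 1408, 1412, 1424, 1426, 1452, 1865, 2521, 2294],
   [20, 38, 1424, 1426, 1434, 1793, 2521, 2294],
   [20, 38, 1424, 1426, 1440, 1811, 2518],
   [20, 38, 1424, 1426, 1440, 1811, 2521, 2294],
   [20, 38, 1424, 1426, 1440, 1865, 2518],
   [20, 38, 1424, 1426, 1440, 1883, 2518],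
   [20, 38, 1424, 1426, 1440, 1883, 2521, 2294],
   [20, 38, 1424, 1426, 1440, 1936, 1943, 2074, 2290],
   [20, 1408, 1410, 1424, 1426, 1432, 1446, 2520],
   [20, 1408, 1410, 1424, 1426, 1446, 2201, 2519, 2302],
   [20, 1408, 1410, 1424, 1426, 1446, 2519, 2300],
   [20, 1410, 1412, 1422, 1424, 1434, 1438, 1446, 2521],
   [20, 1412, 1424, 1426, 1793, 2290, 2518],
   [20, 1412, 1424, 1426, 1793, 2290, 2521, 2294],
   [20, 1412, 1424, 1426, 1865, 2290, 2518],
   [20, 1412, 1424, 1426, 1883, 2290, 2518],
   [20, 1412, 1424, 1426, 1883, 2290, 2521, 2294],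
   [20, 1424, 1426, 1432, 1446, 2290, 2520],
   [20, 1424, 1426, 2288, 2518],
   [24, 26, 396, 1410, 1412, 1454, 1804],
   [24, 26, 397, 1410, 1412, 1454, 1822],
   [24, 26, 397, 1410, 1412, 1454, 1876],
   [24, 26, 1410, 1422, 1432, 2296],
   [24, 30, 38, 397, 602, 612, 1365],
   [24, 36, 38, 397, 510, 1365],
   [24, 38, 390, 397, 612, 1315, 1365],
   [24, 38, 390, 397, 1424, 1426, 1428, 1434, 1436, 1315, 1365, 2308],
   [26, 36, 38, 397, 510, 1364],
   [26, 38, 390, 397, 612, 1314, 1364],
   [30, 32, 38, 390, 397, 612, 1364],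
   [30, 34, 38, 396, 408, 618, 1365],
   [30, 34, 38, 396, 408, 1424, 1426, 1428, 1365, 2517, 2308],
   [30, 1408, 1412, 1422, 1426, 1432, 1446, 2519, 2300],
   [32, 34, 38, 390, 1442, 1804, 2517, 2308],
   [32, 34, 38, 1408, 1410, 1442, 2290],
   [32, 34, 38, 1408, 1436, 1442, 2517, 2290, 2308],
   [32, 34, 38, 1410, 1412, 1452, 2201, 2290],
   [32, 34, 38, 1412, 1436, 1442, 1452, 1865, 2308, 2519, 2521],
   [32, 34, 38, 1424, 1436, 1442, 1452, 1936, 1972, 2308, 2521],
   [32, 34, 38, 1436, 1442, 1452, 1793, 2308, 2521],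
   [38, 44, 396, 1410, 1422, 1440, 1804],
   [38, 44, 397, 1410, 1422, 1440, 1822],
   [38, 44, 397, 1410, 1422, 1440, 1876],
   [38, 44, 415, 1410, 1422, 1440, 1894],
   [38, 44, 1408, 1412, 1422, 1436, 1452, 1865, 1942, 1972, 2519],
   [38, 44, 1408, 1422, 1426, 1440, 2290, 2302],
   [38, 44, 1422, 1424, 1428, 1430, 1436, 1452, 1793, 1936, 1972, 2519],
   [38, 44, 1422, 1424, 1428, 1430, 1436, 1452, 1865, 1936, 1972, 2519],
   [38, 44, 1424, 1426, 1440, 2169, 2178],
   [38, 44, 1424, 1428, 1430, 1436, 1942, 2062, 2068, 2290],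
   [38, 44, 1434, 1436, 1943, 2056, 2074, 2290],
   [38, 44, 1434, 1436, 2290, 2518],
   [38, 44, 1440, 2169, 2178, 2290],
   [38, 397, 1422, 1436, 1452, 2201, 2519, 2302],
   [38, 397, 1876, 2519, 2300],
   [38, 1408, 1410, 1424, 1436, 2201, 2519, 2302],
   [38, 1408, 1424, 1436, 1440, 1452, 1811, 1865, 2520],
   [38, 1410, 1412, 1422, 1436, 2519, 2521, 2300],
   [38, 1422, 1436, 1440, 2288],
   [38, 1424, 1426, 1430, 1440, 1793, 2518],
   [38, 1424, 1436, 1442, 2290, 2520],
   [38, 1434, 1436, 2516, 2302],
   [40, 42, 1430, 1450, 2517, 2308],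
   [396, 1420, 2034, 2169, 2178],
   [1408, 1410, 1412, 1434, 1446],
   [1408, 1410, 1412, 1446, 2519, 2302],
   [1408, 1412, 1422, 1432, 1436, 1446, 2520],
   [1412, 1420, 1430, 1446, 1454, 2169, 2178, 2290],
   [1420, 1430, 2169, 2178, 2288],
   [1424, 1426, 1428, 1448, 1450, 2517, 2306],
   [1426, 1446, 1450, 2522],
   [1432, 1434, 1436, 2290, 2519, 2302],
   [0, 2, 1408, 2201, 2519, 2302],
   [0, 2, 1408, 2520],
   [0, 6, 8, 12, 1412, 1416, 1428, 1432, 1448, 2290, 2519, 2300],
   [0, 6, 8, 14, 26, 30, 1412, 1428, 1436, 1448, 1364, 2519, 2521, 2296],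
   [0, 6, 8, 14, 1408, 1412, 1442, 1452, 2290],
   [0, 6, 12, 38, 396, 432, 1408, 1410, 1436, 1364],
   [0, 6, 14, 20, 38, 390, 408, 1416, 1428, 1364, 2519, 2302],
   [0, 6, 14, 20, 38, 390, 608, 1408, 1416, 1428, 1364, 2290, 2519],
   [0, 6, 14, 20, 38, 481, 1408, 1416, 1428, 1364, 2290, 2519],
   [0, 6, 30, 38, 396, 432, 499, 1364],
   [0, 6, 38, 390, 397, 1422, 1432, 1364, 2520],
   [0, 8, 14, 24, 26, 1432, 2201, 2290],
   [0, 12, 38, 1408, 1364, 2290, 2520],
   [0, 16, 20, 34, 38, 1408, 1410, 1416, 1428, 1442, 2201],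
   [0, 32, 391, 510, 1364],
   [0, 38, 396, 499, 1418, 1422, 1452, 1364, 2520],
   [2, 6, 10, 14, 1408, 1412, 1442, 1452, 2290],
   [2, 6, 14, 20, 38, 499, 1416, 1428, 1365, 2519, 2302],
   [2, 6, 38, 390, 397, 451, 1412, 1422, 1365, 2520],
   [2, 10, 14, 16, 30, 1408, 1412, 1432, 1434, 1452, 1364, 2521, 2296],
   [2, 10, 14, 1432, 1434, 1436, 1314, 1364, 2296],
   [2, 12, 391, 451, 1408, 1412, 1448, 1365, 2520],
   [2, 24, 26, 44, 390, 1452, 1793, 1883, 1314],
   [2, 38, 390, 408, 1418, 1422, 1452, 1365, 2520],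
   [6, 12, 14, 20, 1408, 1412, 1426, 2290, 2518],
   [6, 12, 38, 44, 1408, 1410, 1440, 2290, 2302],
   [6, 14, 16, 20, 38, 1408, 1410, 1416, 1428, 1436, 1364, 2290, 2519, 2296],
   [6, 14, 20, 38, 1408, 1410, 1416, 1440, 2521, 2296],
   [6, 14, 38, 44, 396, 1408, 1412, 1894, 2519],
   [6, 20, 30, 44, 1408, 1412, 1426, 1436, 1452, 2290, 2521, 2294],
   [6, 38, 44, 396, 1408, 1412, 1422, 1894, 2519],
   [6, 38, 44, 397, 1408, 1412, 1422, 1822, 2519],
   [6, 38, 44, 397, 1408, 1412, 1422, 1876, 2519],
   [8, 10, 12, 38, 1412, 1436, 1454, 2290, 2518],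
   [8, 10, 12, 397, 1416, 1446, 1822, 2519, 2302],
   [8, 10, 12, 397, 1416, 1876, 2519, 2300],
   [8, 10, 12, 397, 1416, 1876, 2520],
   [8, 10, 12, 1408, 1410, 1442, 1446, 2520],
   [8, 10, 12, 1412, 1416, 1428, 1432, 1448, 2290, 2520],
   [8, 10, 12, 1416, 1446, 2290, 2520],
   [8, 10, 14, 16, 30, 34, 1426, 1428, 1436, 2290, 2521],
   [8, 10, 14, 16, 30, 390, 618, 1428, 1432, 1364],
   [8, 10, 14, 16, 30, 1412, 1424, 1426, 1432, 1364, 2290],
   [8, 10, 14, 16, 34, 1426, 1428, 1436, 2201, 2296],
   [8, 10, 14, 18, 30, 32, 1426, 1428, 1436, 2290, 2521],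
   [8, 10, 14, 24, 26, 1432, 2201, 2296],
   [8, 10, 14, 24, 390, 618, 1315, 1365, 2290],
   [8, 10, 14, 24, 1412, 1424, 1436, 2201, 1315, 1365, 2290],
   [8, 10, 14, 26, 30, 390, 618, 1412, 1418, 1446, 1364],
   [8, 10, 14, 26, 390, 618, 1412, 1418, 1446, 1314, 1364],
   [8, 10, 14, 390, 1418, 1804, 2517, 2308],
   [8, 10, 14, 1412, 1418, 1428, 2517, 2290, 2308],
   [8, 10, 14, 1412, 1418, 1428, 2517, 2308, 2294],
   [8, 10, 14, 1412, 1418, 1434, 2290, 2308],
   [8, 10, 14, 1418, 1424, 1426, 1434, 1438, 2521, 2296],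
   [8, 10, 14, 1418, 1428, 1450, 2517, 2308, 2296],
   [8, 10, 14, 1418, 1428, 2517, 2290, 2308, 2294],
   [8, 10, 14, 2201, 2519, 2296, 2302],
   [8, 10, 16, 30, 391, 612, 1412, 1418, 1446, 1364],
   [8, 10, 16, 30, 391, 612, 1428, 1432, 1364],
   [8, 10, 26, 391, 612, 1412, 1418, 1446, 1314, 1364],
   [8, 10, 396, 1416, 1804, 2519, 2300],
   [8, 10, 1412, 1416, 1448, 2516, 2519, 2300],
   [8, 10, 1412, 1428, 1432, 1447, 1448, 2288, 2519, 2302],
   [8, 10, 1412, 1447, 1448, 2517, 2288],
   [8, 10, 1416, 1428, 1432, 2288, 2519, 2300],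
   [8, 10, 1416, 1428, 1432, 2288, 2520],
   [8, 14, 20, 38, 390, 608, 1410, 1412, 1428, 1365, 2519, 2302],
   [8, 14, 20, 38, 390, 608, 1416, 1428, 1365, 2290, 2519],
   [8, 14, 20, 38, 390, 1410, 1412, 1428, 1436, 1450, 1883, 2201, 1365],
   [8, 14, 20, 38, 481, 1410, 1412, 1434, 1365, 2290],
   [8, 14, 38, 390, 397, 1410, 1365, 2520],
   [8, 14, 38, 481, 1410, 1412, 1365, 2519, 2300],
   [8, 391, 444, 1410, 1412, 1365, 2520],
   [10, 14, 20, 24, 396, 426, 1410, 1412, 1428],
   [10, 14, 20, 38, 390, 397, 1410, 1412, 1428, 1936, 1954, 1364, 2290],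
   [10, 14, 20, 38, 390, 397, 1410, 1412, 1428, 1942, 1972, 1364, 2290],
   [10, 14, 20, 38, 463, 1410, 1412, 1364, 2290, 2519, 2302],
   [10, 14, 20, 38, 463, 1412, 1416, 1428, 1364, 2519, 2296],
   [10, 14, 38, 390, 608, 1410, 1364, 2520],
   [12, 14, 20, 34, 38, 1410, 1412, 1424, 1365, 2290],
   [12, 38, 44, 1408, 1412, 1436, 1452, 1793, 1942, 1972, 2519, 2302],
   [12, 38, 44, 1408, 1412, 1436, 1452, 1865, 1942, 1972, 2519, 2302],
   [12, 38, 44, 1408, 1412, 1436, 1452, 1936, 1943, 1990, 2519, 2302],
   [12, 1418, 1430, 1432, 1436, 2288, 2518],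
   [14, 16, 20, 38, 390, 608, 1412, 1416, 1434, 1452, 1364],
   [14, 18, 20, 38, 612, 1408, 1410, 1416, 1428, 1793, 1365, 2308],
   [14, 18, 20, 38, 1408, 1410, 1416, 1428, 1436, 1365, 2290, 2519, 2296],
   [14, 18, 20, 38, 1410, 1412, 1424, 1426, 1793, 1883, 1365, 2290],
   [14, 18, 20, 38, 1410, 1412, 1365, 2288, 2519],
   [14, 20, 38, 1416, 1434, 2521, 2294],
   [14, 20, 421, 1412, 1416, 1428, 2516],
   [14, 20, 1412, 1416, 1428, 1936, 1954, 2288],
   [14, 20, 1412, 1416, 1450, 1811, 2518],
   [14, 20, 1412, 1416, 1450, 1865, 2521, 2294],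
   [14, 20, 1416, 1418, 1428, 2517, 2288, 2308],
   [14, 20, 1416, 1418, 1434, 2517, 2290, 2308, 2296],
   [14, 20, 1416, 1418, 1450, 2517, 2290, 2308, 2296],
   [14, 20, 1416, 1428, 1937, 1990, 2288],
   [14, 20, 1416, 1434, 1446, 2518],
   [14, 20, 1416, 1446, 2519, 2521, 2296, 2300],
   [14, 20, 1416, 1448, 1450, 1793, 2518],
   [14, 20, 1416, 1448, 1450, 1865, 2518],
   [14, 20, 1446, 1452, 2290, 2519, 2521, 2300],
   [14, 24, 26, 1416, 1432, 2296, 2302],
   [14, 30, 38, 1416, 1418, 1432, 1434, 1450, 2308],
   [14, 38, 44, 1416, 1440, 2516],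
   [14, 38, 1416, 1436, 2201, 2308, 2519, 2302],
   [14, 38, 1416, 2519, 2521, 2296, 2300],
   [14, 38, 1436, 2201, 2290, 2519, 2302],
   [16, 18, 24, 38, 396, 408, 1426, 1434, 1436, 1315, 1365],
   [16, 20, 30, 34, 38, 1410, 1412, 1414, 1422, 1428, 1436, 2521],
   [16, 20, 30, 36, 38, 396, 618, 1410, 1412, 1422, 1432, 1364],
   [16, 20, 34, 38, 1410, 1412, 1422, 1436, 1793, 2521],
   [16, 20, 38, 390, 408, 1408, 1410, 1424, 1426, 1364, 2290, 2302],
   [16, 20, 38, 396, 618, 1408, 1416, 1422, 1428, 1364],
   [16, 20, 38, 1412, 1454, 1364, 2517, 2288],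
   [16, 20, 38, 1436, 1364, 2517, 2288, 2518],
   [16, 24, 30, 38, 396, 408, 1426, 1450, 1365, 2517],
   [16, 30, 36, 38, 396, 432, 1410, 1412, 1432, 1364],
   [16, 38, 1410, 1412, 1422, 2201, 1364, 2519, 2302],
   [18, 20, 30, 32, 38, 1410, 1412, 1428, 1434, 1452, 2521, 2296],
   [18, 20, 30, 36, 38, 612, 1408, 1410, 1424, 1426, 1793, 1365],
   [18, 20, 30, 38, 396, 618, 1416, 1365, 2290],
   [18, 20, 30, 38, 397, 612, 1416, 2201, 1365, 2290],
   [18, 20, 30, 38, 1412, 1424, 1426, 1432, 1365, 2290, 2302],
   [18, 20, 30, 391, 612, 1410, 1412, 1422, 1428, 1365, 2290],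
   [18, 20, 32, 38, 1410, 1412, 1422, 1424, 1793, 2521],
   [18, 20, 38, 390, 397, 1408, 1410, 1424, 1426, 1365, 2290, 2302],
   [18, 20, 38, 433, 618, 1408, 1410, 1426, 1365, 2290],
   [18, 20, 38, 612, 1408, 1416, 1422, 1428, 1793, 1365, 2517],
   [18, 20, 38, 1410, 1412, 1422, 1428, 1436, 1365, 2290, 2519, 2521, 2296],
   [18, 26, 38, 499, 1426, 1364, 2517, 2288, 2308],
   [18, 38, 1410, 1412, 1422, 2201, 1365, 2519, 2302],
   [20, 24, 38, 1424, 1426, 1365, 2290, 2518],
   [20, 26, 30, 38, 397, 612, 1416, 1422, 1428, 1364],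
   [20, 32, 34, 38, 1416, 2518],
   [20, 38, 1410, 1412, 1422, 1436, 1440, 2290, 2521],
   [20, 38, 1424, 1426, 1440, 1865, 2521, 2294],
   [20, 391, 1416, 1418, 1876, 2517, 2308],
   [20, 1408, 1410, 1446, 2290, 2520],
   [20, 1408, 1412, 1422, 1426, 1442, 1446, 2201, 2519, 2302],
   [20, 1410, 1412, 1414, 1422, 1428, 1434, 1450, 2521, 2296],
   [20, 1412, 1416, 1422, 1434, 1436, 1446, 2308],
   [20, 1412, 1424, 1426, 1446, 1793, 1883, 2201, 2290, 2302],
   [20, 1412, 1424, 1426, 1452, 1811, 2290, 2521, 2294],
   [20, 1412, 1424, 1426, 1811, 2290, 2518],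
   [20, 1412, 1424, 1426, 1865, 2290, 2521, 2294],
   [20, 1424, 1426, 1446, 1811, 1865, 2201, 2290, 2519, 2302],
   [24, 26, 44, 1422, 1432, 2290],
   [24, 26, 1410, 1422, 1432, 1452],
   [24, 26, 1432, 2201, 2519, 2302],
   [24, 26, 1432, 2520],
   [24, 38, 396, 408, 618, 1315, 1365],
   [26, 30, 38, 408, 415, 618, 1364],
   [26, 38, 396, 408, 618, 1314, 1364],
   [30, 34, 38, 390, 397, 1424, 1426, 1428, 1365, 2517, 2308],
   [32, 34, 38, 1408, 1442, 1452, 2517, 2290, 2308],
   [32, 34, 38, 1424, 1436, 1442, 1452, 1883, 2308, 2521],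
   [32, 36, 38, 396, 492, 1364],
   [34, 36, 38, 396, 492, 1365],
   [34, 36, 38, 439, 1365],
   [34, 38, 1430, 1436, 1365, 2517, 2288, 2518],
   [38, 44, 1408, 1410, 1440, 2521, 2294],
   [38, 44, 1408, 1412, 1422, 1436, 1452, 1793, 1936, 1943, 2519],
   [38, 44, 1408, 1412, 1422, 1436, 1452, 1793, 1942, 1972, 2519],
   [38, 44, 1408, 1412, 1422, 1436, 1452, 1865, 1936, 1943, 2519],
   [38, 44, 1408, 1412, 1436, 1442, 1452, 1811, 2308, 2521],
   [38, 44, 1424, 1426, 1440, 1942, 1954, 1972, 2290],
   [38, 44, 1424, 1428, 1430, 1436, 2169, 2178],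
   [38, 44, 1440, 2517, 2288],
   [38, 390, 397, 1408, 1412, 1436, 1452, 2520],
   [38, 396, 1804, 2520],
   [38, 397, 1822, 2520],
   [38, 499, 1422, 1436, 1452, 2201, 2519, 2302],
   [38, 1408, 1410, 1412, 1434, 2294],
   [38, 1408, 1410, 1412, 2519, 2302],
   [38, 1408, 1410, 1424, 1436, 2520],
   [38, 1408, 1412, 1422, 1436, 1452, 2519, 2521, 2300],
   [38, 1408, 1422, 1436, 2290, 2520],
   [38, 1408, 1452, 2290, 2519, 2300],
   [38, 1408, 1452, 2290, 2520],
   [38, 1410, 1412, 1422, 1424, 1430, 1440, 2308, 2521],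
   [38, 1410, 1412, 1422, 1428, 1447, 2521, 2296],
   [38, 1410, 1422, 1424, 2290, 2519, 2300],
   [38, 1410, 1422, 1436, 2201, 2519, 2302],
   [38, 1416, 1418, 1424, 1428, 1436, 2516, 2294],
   [38, 1422, 1434, 1436, 2288],
   [38, 1422, 1436, 2201, 2290, 2519, 2302],
   [38, 1436, 2290, 2519, 2521, 2300],
   [38, 2288, 2519, 2300],
   [391, 1424, 1436, 1450, 1452, 1793, 1883, 2520],
   [396, 414],
   [1408, 1410, 1412, 2519, 2300],
   [1416, 1422, 1432, 1434, 1436, 2302],
   [1429, 2288, 2521, 2294],
   [1432, 1434, 1436, 2288],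
   [1447, 1448, 1450, 2169, 2178, 2290]]

theorem ini_ok : ini G [.initF 0 1 4 0, .initF 0 1 4 1, .initX 0 4 3 1, .initX 1 0 0 1, .initX 1 4 0 1, .M0 0 1 0, .cnt0 1 0 0, .cnt0 1 1 0, .cnt0 1 1 1, .cnt0 1 2 0, .cnt0 1 3 1, .done0 0 2, .first]
    (units ++ E) B = true := by
  decide +kernel

theorem hE (A : ∀ f : CS, f.ok G = true → Hd (val S) (f.cl G))
    (A2 : ∀ f : CI, f.ok G = true → Hd (val S) (f.cl G)) (hU : ∀ c ∈ units, Hd (val S) c) : ∀ e ∈ E, Hd (val S) e :=
  List.forall_mem_cons.2 ⟨j0 A A2 hU, List.forall_mem_cons.2 ⟨j1 A A2 hU, List.forall_mem_cons.2 ⟨j2 A A2 hU, List.forall_mem_cons.2 ⟨j3 A A2 hU, List.forall_mem_cons.2 ⟨j4 A A2 hU, List.forall_mem_cons.2 ⟨j5 A A2 hU, List.forall_mem_cons.2 ⟨j6 A A2 hU, List.forall_mem_cons.2 ⟨j7 A A2 hU, List.forall_mem_cons.2 ⟨j8 A A2 hU, List.forall_mem_cons.2 ⟨j9 A A2 hU, List.forall_mem_cons.2 ⟨j10 A A2 hU, List.forall_mem_cons.2 ⟨j11 A A2 hU, List.forall_mem_cons.2 ⟨j12 A A2 hU, List.forall_mem_cons.2 ⟨j13 A A2 hU, List.forall_mem_cons.2 ⟨j14 A A2 hU, List.forall_mem_cons.2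 ⟨j15 A A2 hU, List.forall_mem_cons.2 ⟨j16 A A2 hU, List.forall_mem_cons.2 ⟨j17 A A2 hU, List.forall_mem_cons.2 ⟨j18 A A2 hU, List.forall_mem_cons.2 ⟨j19 A A2 hU, List.forall_mem_cons.2 ⟨j20 A A2 hU, List.forall_mem_cons.2 ⟨j21 A A2 hU, List.forall_mem_cons.2 ⟨j22 A A2 hU, List.forall_mem_cons.2 ⟨j23 A A2 hU, List.forall_mem_cons.2 ⟨j24 A A2 hU, List.forall_mem_cons.2 ⟨j25 A A2 hU, List.forall_mem_cons.2 ⟨j26 A A2 hU, List.forall_mem_cons.2 ⟨j27 A A2 hU, List.forall_mem_cons.2 ⟨j28 A A2 hU, List.forall_mem_cons.2 ⟨j29 A A2 hU, List.forall_mem_cons.2 ⟨j30 A A2 hU, List.forall_mem_cons.2 ⟨j31 A A2 hU, List.forall_mem_cons.2 ⟨j32 A A2 hU, List.forall_mem_cons.2 ⟨j33 A A2 hU, List.forall_mem_cons.2 ⟨j34 A A2 hU, List.forall_mem_cons.2 ⟨j35 A A2 hU, List.forall_mem_cons.2 ⟨j36 A A2 hU, List.forall_mem_cons.2 ⟨j37 A A2 hU, List.forall_mem_cons.2 ⟨j38 A A2 hU, List.forall_mem_cons.2 ⟨j39 A A2 hU, List.forall_mem_cons.2 ⟨j40 A A2 hU, List.forall_mem_cons.2 ⟨j41 A A2 hU, List.forall_mem_cons.2 ⟨j42 A A2 hU, List.forall_mem_cons.2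 ⟨j43 A A2 hU, List.forall_mem_cons.2 ⟨j44 A A2 hU, List.forall_mem_cons.2 ⟨j45 A A2 hU, List.forall_mem_cons.2 ⟨j46 A A2 hU, List.forall_mem_cons.2 ⟨j47 A A2 hU, List.forall_mem_cons.2 ⟨j48 A A2 hU, List.forall_mem_cons.2 ⟨j49 A A2 hU, List.forall_mem_cons.2 ⟨j50 A A2 hU, List.forall_mem_cons.2 ⟨j51 A A2 hU, List.forall_mem_cons.2 ⟨j52 A A2 hU, List.forall_mem_cons.2 ⟨j53 A A2 hU, List.forall_mem_cons.2 ⟨j54 A A2 hU, List.forall_mem_cons.2 ⟨j55 A A2 hU, List.forall_mem_cons.2 ⟨j56 A A2 hU, List.forall_mem_cons.2 ⟨j57 A A2 hU, List.forall_mem_cons.2 ⟨j58 A A2 hU, List.forall_mem_cons.2 ⟨j59 A A2 hU, List.forall_mem_cons.2 ⟨j60 A A2 hU, List.forall_mem_cons.2 ⟨j61 A A2 hU, List.forall_mem_cons.2 ⟨j62 A A2 hU, List.forall_mem_cons.2 ⟨j63 A A2 hU, List.forall_mem_cons.2 ⟨j64 A A2 hU, List.forall_mem_cons.2 ⟨j65 A A2 hU, List.forall_mem_cons.2 ⟨j66 A A2 hU, List.forall_mem_cons.2 ⟨j67 A A2 hU, List.forall_mem_cons.2 ⟨j68 A A2 hU, List.forall_mem_cons.2 ⟨j69 A A2 hU, List.forall_mem_cons.2 ⟨j70 A A2 hU, List.forall_mem_cons.2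 ⟨j71 A A2 hU, List.forall_mem_cons.2 ⟨j72 A A2 hU, List.forall_mem_cons.2 ⟨j73 A A2 hU, List.forall_mem_cons.2 ⟨j74 A A2 hU, List.forall_mem_cons.2 ⟨j75 A A2 hU, List.forall_mem_cons.2 ⟨j76 A A2 hU, List.forall_mem_cons.2 ⟨j77 A A2 hU, List.forall_mem_cons.2 ⟨j78 A A2 hU, List.forall_mem_cons.2 ⟨j79 A A2 hU, List.forall_mem_cons.2 ⟨j80 A A2 hU, List.forall_mem_cons.2 ⟨j81 A A2 hU, List.forall_mem_cons.2 ⟨j82 A A2 hU, List.forall_mem_cons.2 ⟨j83 A A2 hU, List.forall_mem_cons.2 ⟨j84 A A2 hU, List.forall_mem_cons.2 ⟨j85 A A2 hU, List.forall_mem_cons.2 ⟨j86 A A2 hU, List.forall_mem_cons.2 ⟨j87 A A2 hU, List.forall_mem_cons.2 ⟨j88 A A2 hU, List.forall_mem_cons.2 ⟨j89 A A2 hU, List.forall_mem_cons.2 ⟨j90 A A2 hU, List.forall_mem_cons.2 ⟨j91 A A2 hU, List.forall_mem_cons.2 ⟨j92 A A2 hU, List.forall_mem_cons.2 ⟨j93 A A2 hU, List.forall_mem_cons.2 ⟨j94 A A2 hU, List.forall_mem_cons.2 ⟨j95 A A2 hU, List.forall_mem_cons.2 ⟨j96 A A2 hU, List.forall_mem_cons.2 ⟨j97 A A2 hU, List.forall_mem_cons.2 ⟨j98 A A2 hU, List.forall_mem_cons.2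 ⟨j99 A A2 hU, List.forall_mem_cons.2 ⟨j100 A A2 hU, List.forall_mem_cons.2 ⟨j101 A A2 hU, List.forall_mem_cons.2 ⟨j102 A A2 hU, List.forall_mem_cons.2 ⟨j103 A A2 hU, List.forall_mem_cons.2 ⟨j104 A A2 hU, List.forall_mem_cons.2 ⟨j105 A A2 hU, List.forall_mem_cons.2 ⟨j106 A A2 hU, List.forall_mem_cons.2 ⟨j107 A A2 hU, List.forall_mem_cons.2 ⟨j108 A A2 hU, List.forall_mem_cons.2 ⟨j109 A A2 hU, List.forall_mem_cons.2 ⟨j110 A A2 hU, List.forall_mem_cons.2 ⟨j111 A A2 hU, List.forall_mem_cons.2 ⟨j112 A A2 hU, List.forall_mem_cons.2 ⟨j113 A A2 hU, List.forall_mem_cons.2 ⟨j114 A A2 hU, List.forall_mem_cons.2 ⟨j115 A A2 hU, List.forall_mem_cons.2 ⟨j116 A A2 hU, List.forall_mem_cons.2 ⟨j117 A A2 hU, List.forall_mem_cons.2 ⟨j118 A A2 hU, List.forall_mem_cons.2 ⟨j119 A A2 hU, List.forall_mem_cons.2 ⟨j120 A A2 hU, List.forall_mem_cons.2 ⟨j121 A A2 hU, List.forall_mem_cons.2 ⟨j122 A A2 hU, List.forall_mem_cons.2 ⟨j123 A A2 hU, List.forall_mem_cons.2 ⟨j124 A A2 hU, List.forall_mem_cons.2 ⟨j125 A A2 hU, List.forall_mem_cons.2 ⟨j126 A A2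 hU, List.forall_mem_cons.2 ⟨j127 A A2 hU, List.forall_mem_cons.2 ⟨j128 A A2 hU, List.forall_mem_cons.2 ⟨j129 A A2 hU, List.forall_mem_cons.2 ⟨j130 A A2 hU, List.forall_mem_cons.2 ⟨j131 A A2 hU, List.forall_mem_cons.2 ⟨j132 A A2 hU, List.forall_mem_cons.2 ⟨j133 A A2 hU, List.forall_mem_cons.2 ⟨j134 A A2 hU, List.forall_mem_cons.2 ⟨j135 A A2 hU, List.forall_mem_cons.2 ⟨j136 A A2 hU, List.forall_mem_cons.2 ⟨j137 A A2 hU, List.forall_mem_cons.2 ⟨j138 A A2 hU, List.forall_mem_cons.2 ⟨j139 A A2 hU, List.forall_mem_cons.2 ⟨j140 A A2 hU, List.forall_mem_cons.2 ⟨j141 A A2 hU, List.forall_mem_cons.2 ⟨j142 A A2 hU, List.forall_mem_cons.2 ⟨j143 A A2 hU, List.forall_mem_cons.2 ⟨j144 A A2 hU, List.forall_mem_cons.2 ⟨j145 A A2 hU, List.forall_mem_cons.2 ⟨j146 A A2 hU, List.forall_mem_cons.2 ⟨j147 A A2 hU, List.forall_mem_cons.2 ⟨j148 A A2 hU, List.forall_mem_cons.2 ⟨j149 A A2 hU, List.forall_mem_cons.2 ⟨j150 A A2 hU, List.forall_mem_cons.2 ⟨j151 A A2 hU, List.forall_mem_cons.2 ⟨j152 A A2 hU, List.forall_mem_cons.2 ⟨j153 A A2 hU, List.forall_mem_cons.2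 ⟨j154 A A2 hU, List.forall_mem_cons.2 ⟨j155 A A2 hU, List.forall_mem_cons.2 ⟨j156 A A2 hU, List.forall_mem_cons.2 ⟨j157 A A2 hU, List.forall_mem_cons.2 ⟨j158 A A2 hU, List.forall_mem_cons.2 ⟨j159 A A2 hU, List.forall_mem_cons.2 ⟨j160 A A2 hU, List.forall_mem_cons.2 ⟨j161 A A2 hU, List.forall_mem_cons.2 ⟨j162 A A2 hU, List.forall_mem_cons.2 ⟨j163 A A2 hU, List.forall_mem_cons.2 ⟨j164 A A2 hU, List.forall_mem_cons.2 ⟨j165 A A2 hU, List.forall_mem_cons.2 ⟨j166 A A2 hU, List.forall_mem_cons.2 ⟨j167 A A2 hU, List.forall_mem_cons.2 ⟨j168 A A2 hU, List.forall_mem_cons.2 ⟨j169 A A2 hU, List.forall_mem_cons.2 ⟨j170 A A2 hU, List.forall_mem_cons.2 ⟨j171 A A2 hU, List.forall_mem_cons.2 ⟨j172 A A2 hU, List.forall_mem_cons.2 ⟨j173 A A2 hU, List.forall_mem_cons.2 ⟨j174 A A2 hU, List.forall_mem_cons.2 ⟨j175 A A2 hU, List.forall_mem_cons.2 ⟨j176 A A2 hU, List.forall_mem_cons.2 ⟨j177 A A2 hU, List.forall_mem_cons.2 ⟨j178 A A2 hU, List.forall_mem_cons.2 ⟨j179 A A2 hU, List.forall_mem_cons.2 ⟨j180 A A2 hU, List.forall_mem_cons.2 ⟨j181 A A2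 hU, List.forall_mem_cons.2 ⟨j182 A A2 hU, List.forall_mem_cons.2 ⟨j183 A A2 hU, List.forall_mem_cons.2 ⟨j184 A A2 hU, List.forall_mem_cons.2 ⟨j185 A A2 hU, List.forall_mem_cons.2 ⟨j186 A A2 hU, List.forall_mem_cons.2 ⟨j187 A A2 hU, List.forall_mem_cons.2 ⟨j188 A A2 hU, List.forall_mem_cons.2 ⟨j189 A A2 hU, List.forall_mem_cons.2 ⟨j190 A A2 hU, List.forall_mem_cons.2 ⟨j191 A A2 hU, List.forall_mem_cons.2 ⟨j192 A A2 hU, List.forall_mem_cons.2 ⟨j193 A A2 hU, List.forall_mem_cons.2 ⟨j194 A A2 hU, List.forall_mem_cons.2 ⟨j195 A A2 hU, List.forall_mem_cons.2 ⟨j196 A A2 hU, List.forall_mem_cons.2 ⟨j197 A A2 hU, List.forall_mem_cons.2 ⟨j198 A A2 hU, List.forall_mem_cons.2 ⟨j199 A A2 hU, List.forall_mem_cons.2 ⟨j200 A A2 hU, List.forall_mem_cons.2 ⟨j201 A A2 hU, List.forall_mem_cons.2 ⟨j202 A A2 hU, List.forall_mem_cons.2 ⟨j203 A A2 hU, List.forall_mem_cons.2 ⟨j204 A A2 hU, List.forall_mem_cons.2 ⟨j205 A A2 hU, List.forall_mem_cons.2 ⟨j206 A A2 hU, List.forall_mem_cons.2 ⟨j207 A A2 hU, List.forall_mem_cons.2 ⟨j208 A A2 hU, List.forall_mem_cons.2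 ⟨j209 A A2 hU, List.forall_mem_cons.2 ⟨j210 A A2 hU, List.forall_mem_cons.2 ⟨j211 A A2 hU, List.forall_mem_cons.2 ⟨j212 A A2 hU, List.forall_mem_cons.2 ⟨j213 A A2 hU, List.forall_mem_cons.2 ⟨j214 A A2 hU, List.forall_mem_cons.2 ⟨j215 A A2 hU, List.forall_mem_cons.2 ⟨j216 A A2 hU, List.forall_mem_cons.2 ⟨j217 A A2 hU, List.forall_mem_cons.2 ⟨j218 A A2 hU, List.forall_mem_cons.2 ⟨j219 A A2 hU, List.forall_mem_cons.2 ⟨j220 A A2 hU, List.forall_mem_cons.2 ⟨j221 A A2 hU, List.forall_mem_cons.2 ⟨j222 A A2 hU, List.forall_mem_cons.2 ⟨j223 A A2 hU, List.forall_mem_cons.2 ⟨j224 A A2 hU, List.forall_mem_cons.2 ⟨j225 A A2 hU, List.forall_mem_cons.2 ⟨j226 A A2 hU, List.forall_mem_cons.2 ⟨j227 A A2 hU, List.forall_mem_cons.2 ⟨j228 A A2 hU, List.forall_mem_cons.2 ⟨j229 A A2 hU, List.forall_mem_cons.2 ⟨j230 A A2 hU, List.forall_mem_cons.2 ⟨j231 A A2 hU, List.forall_mem_cons.2 ⟨j232 A A2 hU, List.forall_mem_cons.2 ⟨j233 A A2 hU, List.forall_mem_cons.2 ⟨j234 A A2 hU, List.forall_mem_cons.2 ⟨j235 A A2 hU, List.forall_mem_cons.2 ⟨j236 A A2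 hU, List.forall_mem_cons.2 ⟨j237 A A2 hU, List.forall_mem_cons.2 ⟨j238 A A2 hU, List.forall_mem_cons.2 ⟨j239 A A2 hU, List.forall_mem_cons.2 ⟨j240 A A2 hU, List.forall_mem_cons.2 ⟨j241 A A2 hU, List.forall_mem_cons.2 ⟨j242 A A2 hU, List.forall_mem_cons.2 ⟨j243 A A2 hU, List.forall_mem_cons.2 ⟨j244 A A2 hU, List.forall_mem_cons.2 ⟨j245 A A2 hU, List.forall_mem_cons.2 ⟨j246 A A2 hU, List.forall_mem_cons.2 ⟨j247 A A2 hU, List.forall_mem_cons.2 ⟨j248 A A2 hU, List.forall_mem_cons.2 ⟨j249 A A2 hU, List.forall_mem_cons.2 ⟨j250 A A2 hU, List.forall_mem_cons.2 ⟨j251 A A2 hU, List.forall_mem_cons.2 ⟨j252 A A2 hU, List.forall_mem_cons.2 ⟨j253 A A2 hU, List.forall_mem_cons.2 ⟨j254 A A2 hU, List.forall_mem_cons.2 ⟨j255 A A2 hU, List.forall_mem_cons.2 ⟨j256 A A2 hU, List.forall_mem_cons.2 ⟨j257 A A2 hU, List.forall_mem_cons.2 ⟨j258 A A2 hU, List.forall_mem_cons.2 ⟨j259 A A2 hU, List.forall_mem_cons.2 ⟨j260 A A2 hU, List.forall_mem_cons.2 ⟨j261 A A2 hU, List.forall_mem_cons.2 ⟨j262 A A2 hU, List.forall_mem_cons.2 ⟨j263 A A2 hU, List.forall_mem_cons.2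 ⟨j264 A A2 hU, List.forall_mem_cons.2 ⟨j265 A A2 hU, List.forall_mem_cons.2 ⟨j266 A A2 hU, List.forall_mem_cons.2 ⟨j267 A A2 hU, List.forall_mem_cons.2 ⟨j268 A A2 hU, List.forall_mem_cons.2 ⟨j269 A A2 hU, List.forall_mem_cons.2 ⟨j270 A A2 hU, List.forall_mem_cons.2 ⟨j271 A A2 hU, List.forall_mem_cons.2 ⟨j272 A A2 hU, List.forall_mem_cons.2 ⟨j273 A A2 hU, List.forall_mem_cons.2 ⟨j274 A A2 hU, List.forall_mem_cons.2 ⟨j275 A A2 hU, List.forall_mem_cons.2 ⟨j276 A A2 hU, List.forall_mem_cons.2 ⟨j277 A A2 hU, List.forall_mem_cons.2 ⟨j278 A A2 hU, List.forall_mem_cons.2 ⟨j279 A A2 hU, List.forall_mem_cons.2 ⟨j280 A A2 hU, List.forall_mem_cons.2 ⟨j281 A A2 hU, List.forall_mem_cons.2 ⟨j282 A A2 hU, List.forall_mem_cons.2 ⟨j283 A A2 hU, List.forall_mem_cons.2 ⟨j284 A A2 hU, List.forall_mem_cons.2 ⟨j285 A A2 hU, List.forall_mem_cons.2 ⟨j286 A A2 hU, List.forall_mem_cons.2 ⟨j287 A A2 hU, List.forall_mem_cons.2 ⟨j288 A A2 hU, List.forall_mem_cons.2 ⟨j289 A A2 hU, List.forall_mem_cons.2 ⟨j290 A A2 hU, List.forall_mem_cons.2 ⟨j291 A A2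 hU, List.forall_mem_cons.2 ⟨j292 A A2 hU, List.forall_mem_cons.2 ⟨j293 A A2 hU, List.forall_mem_cons.2 ⟨j294 A A2 hU, List.forall_mem_cons.2 ⟨j295 A A2 hU, List.forall_mem_cons.2 ⟨j296 A A2 hU, List.forall_mem_cons.2 ⟨j297 A A2 hU, List.forall_mem_cons.2 ⟨j298 A A2 hU, List.forall_mem_cons.2 ⟨j299 A A2 hU, List.forall_mem_cons.2 ⟨j300 A A2 hU, List.forall_mem_cons.2 ⟨j301 A A2 hU, List.forall_mem_cons.2 ⟨j302 A A2 hU, List.forall_mem_cons.2 ⟨j303 A A2 hU, List.forall_mem_cons.2 ⟨j304 A A2 hU, List.forall_mem_cons.2 ⟨j305 A A2 hU, List.forall_mem_cons.2 ⟨j306 A A2 hU, List.forall_mem_cons.2 ⟨j307 A A2 hU, List.forall_mem_cons.2 ⟨j308 A A2 hU, List.forall_mem_cons.2 ⟨j309 A A2 hU, List.forall_mem_cons.2 ⟨j310 A A2 hU, List.forall_mem_cons.2 ⟨j311 A A2 hU, List.forall_mem_cons.2 ⟨j312 A A2 hU, List.forall_mem_cons.2 ⟨j313 A A2 hU, List.forall_mem_cons.2 ⟨j314 A A2 hU, List.forall_mem_cons.2 ⟨j315 A A2 hU, List.forall_mem_cons.2 ⟨j316 A A2 hU, List.forall_mem_cons.2 ⟨j317 A A2 hU, List.forall_mem_cons.2 ⟨j318 A A2 hU, List.forall_mem_cons.2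 ⟨j319 A A2 hU, List.forall_mem_cons.2 ⟨j320 A A2 hU, List.forall_mem_cons.2 ⟨j321 A A2 hU, List.forall_mem_cons.2 ⟨j322 A A2 hU, List.forall_mem_cons.2 ⟨j323 A A2 hU, List.forall_mem_cons.2 ⟨j324 A A2 hU, List.forall_mem_cons.2 ⟨j325 A A2 hU, List.forall_mem_cons.2 ⟨j326 A A2 hU, List.forall_mem_cons.2 ⟨j327 A A2 hU, List.forall_mem_cons.2 ⟨j328 A A2 hU, List.forall_mem_cons.2 ⟨j329 A A2 hU, List.forall_mem_cons.2 ⟨j330 A A2 hU, List.forall_mem_cons.2 ⟨j331 A A2 hU, List.forall_mem_cons.2 ⟨j332 A A2 hU, List.forall_mem_cons.2 ⟨j333 A A2 hU, List.forall_mem_cons.2 ⟨j334 A A2 hU, List.forall_mem_cons.2 ⟨j335 A A2 hU, List.forall_mem_cons.2 ⟨j336 A A2 hU, List.forall_mem_cons.2 ⟨j337 A A2 hU, List.forall_mem_cons.2 ⟨j338 A A2 hU, List.forall_mem_cons.2 ⟨j339 A A2 hU, List.forall_mem_cons.2 ⟨j340 A A2 hU, List.forall_mem_cons.2 ⟨j341 A A2 hU, List.forall_mem_cons.2 ⟨j342 A A2 hU, List.forall_mem_cons.2 ⟨j343 A A2 hU, List.forall_mem_cons.2 ⟨j344 A A2 hU, List.forall_mem_cons.2 ⟨j345 A A2 hU, List.forall_mem_cons.2 ⟨j346 A A2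 hU, List.forall_mem_cons.2 ⟨j347 A A2 hU, List.forall_mem_cons.2 ⟨j348 A A2 hU, List.forall_mem_cons.2 ⟨j349 A A2 hU, List.forall_mem_cons.2 ⟨j350 A A2 hU, List.forall_mem_cons.2 ⟨j351 A A2 hU, List.forall_mem_cons.2 ⟨j352 A A2 hU, List.forall_mem_cons.2 ⟨j353 A A2 hU, List.forall_mem_cons.2 ⟨j354 A A2 hU, List.forall_mem_cons.2 ⟨j355 A A2 hU, List.forall_mem_cons.2 ⟨j356 A A2 hU, List.forall_mem_cons.2 ⟨j357 A A2 hU, List.forall_mem_cons.2 ⟨j358 A A2 hU, List.forall_mem_cons.2 ⟨j359 A A2 hU, List.forall_mem_cons.2 ⟨j360 A A2 hU, List.forall_mem_cons.2 ⟨j361 A A2 hU, List.forall_mem_cons.2 ⟨j362 A A2 hU, List.forall_mem_cons.2 ⟨j363 A A2 hU, List.forall_mem_cons.2 ⟨j364 A A2 hU, List.forall_mem_cons.2 ⟨j365 A A2 hU, List.forall_mem_cons.2 ⟨j366 A A2 hU, List.forall_mem_cons.2 ⟨j367 A A2 hU, List.forall_mem_cons.2 ⟨j368 A A2 hU, List.forall_mem_cons.2 ⟨j369 A A2 hU, List.forall_mem_cons.2 ⟨j370 A A2 hU, List.forall_mem_cons.2 ⟨j371 A A2 hU, List.forall_mem_cons.2 ⟨j372 A A2 hU, List.forall_mem_cons.2 ⟨j373 A A2 hU, List.forall_mem_cons.2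 ⟨j374 A A2 hU, List.forall_mem_cons.2 ⟨j375 A A2 hU, List.forall_mem_cons.2 ⟨j376 A A2 hU, List.forall_mem_cons.2 ⟨j377 A A2 hU, List.forall_mem_cons.2 ⟨j378 A A2 hU, List.forall_mem_cons.2 ⟨j379 A A2 hU, List.forall_mem_cons.2 ⟨j380 A A2 hU, List.forall_mem_cons.2 ⟨j381 A A2 hU, List.forall_mem_cons.2 ⟨j382 A A2 hU, List.forall_mem_cons.2 ⟨j383 A A2 hU, List.forall_mem_cons.2 ⟨j384 A A2 hU, List.forall_mem_cons.2 ⟨j385 A A2 hU, List.forall_mem_cons.2 ⟨j386 A A2 hU, List.forall_mem_cons.2 ⟨j387 A A2 hU, List.forall_mem_cons.2 ⟨j388 A A2 hU, List.forall_mem_cons.2 ⟨j389 A A2 hU, List.forall_mem_cons.2 ⟨j390 A A2 hU, List.forall_mem_cons.2 ⟨j391 A A2 hU, List.forall_mem_cons.2 ⟨j392 A A2 hU, List.forall_mem_cons.2 ⟨j393 A A2 hU, List.forall_mem_cons.2 ⟨j394 A A2 hU, List.forall_mem_cons.2 ⟨j395 A A2 hU, List.forall_mem_cons.2 ⟨j396 A A2 hU, List.forall_mem_cons.2 ⟨j397 A A2 hU, List.forall_mem_cons.2 ⟨j398 A A2 hU, List.forall_mem_cons.2 ⟨j399 A A2 hU, List.forall_mem_cons.2 ⟨j400 A A2 hU, List.forall_mem_cons.2 ⟨j401 A A2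 hU, List.forall_mem_cons.2 ⟨j402 A A2 hU, List.forall_mem_cons.2 ⟨j403 A A2 hU, List.forall_mem_cons.2 ⟨j404 A A2 hU, List.forall_mem_cons.2 ⟨j405 A A2 hU, List.forall_mem_cons.2 ⟨j406 A A2 hU, List.forall_mem_cons.2 ⟨j407 A A2 hU, List.forall_mem_cons.2 ⟨j408 A A2 hU, List.forall_mem_cons.2 ⟨j409 A A2 hU, List.forall_mem_cons.2 ⟨j410 A A2 hU, List.forall_mem_cons.2 ⟨j411 A A2 hU, List.forall_mem_cons.2 ⟨j412 A A2 hU, List.forall_mem_cons.2 ⟨j413 A A2 hU, (by simp)⟩⟩⟩⟩⟩⟩⟩⟩⟩⟩⟩⟩⟩⟩⟩⟩⟩⟩⟩⟩⟩⟩⟩⟩⟩⟩⟩⟩⟩⟩⟩⟩⟩⟩⟩⟩⟩⟩⟩⟩⟩⟩⟩⟩⟩⟩⟩⟩⟩⟩⟩⟩⟩⟩⟩⟩⟩⟩⟩⟩⟩⟩⟩⟩⟩⟩⟩⟩⟩⟩⟩⟩⟩⟩⟩⟩⟩⟩⟩⟩⟩⟩⟩⟩⟩⟩⟩⟩⟩⟩⟩⟩⟩⟩⟩⟩⟩⟩⟩⟩⟩⟩⟩⟩⟩⟩⟩⟩⟩⟩⟩⟩⟩⟩⟩⟩⟩⟩⟩⟩⟩⟩⟩⟩⟩⟩⟩⟩⟩⟩⟩⟩⟩⟩⟩⟩⟩⟩⟩⟩⟩⟩⟩⟩⟩⟩⟩⟩⟩⟩⟩⟩⟩⟩⟩⟩⟩⟩⟩⟩⟩⟩⟩⟩⟩⟩⟩⟩⟩⟩⟩⟩⟩⟩⟩⟩⟩⟩⟩⟩⟩⟩⟩⟩⟩⟩⟩⟩⟩⟩⟩⟩⟩⟩⟩⟩⟩⟩⟩⟩⟩⟩⟩⟩⟩⟩⟩⟩⟩⟩⟩⟩⟩⟩⟩⟩⟩⟩⟩⟩⟩⟩⟩⟩⟩⟩⟩⟩⟩⟩⟩⟩⟩⟩⟩⟩⟩⟩⟩⟩⟩⟩⟩⟩⟩⟩⟩⟩⟩⟩⟩⟩⟩⟩⟩⟩⟩⟩⟩⟩⟩⟩⟩⟩⟩⟩⟩⟩⟩⟩⟩⟩⟩⟩⟩⟩⟩⟩⟩⟩⟩⟩⟩⟩⟩⟩⟩⟩⟩⟩⟩⟩⟩⟩⟩⟩⟩⟩⟩⟩⟩⟩⟩⟩⟩⟩⟩⟩⟩⟩⟩⟩⟩⟩⟩⟩⟩⟩⟩⟩⟩⟩⟩⟩⟩⟩⟩⟩⟩⟩⟩⟩⟩⟩⟩⟩⟩⟩⟩⟩⟩⟩⟩⟩⟩⟩⟩⟩⟩⟩⟩⟩⟩⟩⟩⟩⟩⟩⟩⟩⟩⟩⟩⟩⟩⟩⟩⟩⟩⟩⟩⟩⟩⟩⟩⟩⟩⟩⟩⟩⟩⟩⟩⟩⟩⟩⟩⟩⟩⟩⟩⟩⟩⟩⟩⟩⟩⟩⟩⟩⟩⟩⟩⟩⟩⟩⟩⟩⟩⟩⟩⟩⟩⟩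

/-- **start** -/
theorem start0 (A : Ax G S) (A2 : ∀ f : CI, f.ok G = true → Hd (val S) (f.cl G))
    (hU : ∀ e ∈ units, Hd (val S) e) :
    Hds (val S) B :=
  ini_sound A2 (fun e he => (List.mem_append.1 he).elim (hU e) (hE A.s A2 hU e)) ini_ok

/-- **after the first instant** -/
theorem start (A : Ax G S) (A2 : ∀ f : CI, f.ok G = true → Hd (val S) (f.cl G))
    (hX : ∀ c ∈ ex, Hd (val S) c) (hU : ∀ e ∈ units, Hd (val S) e) : ∀ c ∈ inv, Hd (val S) (c.map nxl) :=
  List.forall_mem_cons.2 ⟨f1 A, hns_flat.1 (stepB A (hx2 hX (start0 A A2 hU)))⟩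

end

end Vale.Agent.P032.R2.H805.S2m.W1
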